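import Vale.Agent.P092.H232.Join

/-!
P092, Team P, row [P-CON] (helper677): `KEY ⟹ concurrent lines commute` (#6568 (3)), for a general
quadrangle, and its dual.

`Y`, `Z` = the two types of vertices of the target quadrangle, `I` the incidence.
Source: `b`, `c` two `Y`-vertices of the `Z`-vertex `l`; `m` another `Z`-vertex through `b`.
-/

set_option linter.all false

namespace Vale.Agent.P092.H677

open Set Topology Filter
open Vale.Agent.P092.H218 (loc loc_op mul_ap)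
open Vale.Agent.P092.H232 (Nin split_fun split_inc tsupport_mul_l tsupport_mul_r)

/-! ### Induction on supports -/

section ind

variable {X : Type*} [TopologicalSpace X] [CompactSpace X] [T2Space X]

/-- The filter of the functions with small support around `S`. -/
def sm (S : Set X) : Filter C(X, ℂ) := (𝓝ˢ S).smallSets.comap fun u => tsupport ⇑u

lemma ev_sm {S : Set X} {p : C(X, ℂ) → Prop} :
    (∀ᶠ u in sm S, p u) ↔ ∃ O, IsOpen O ∧ S ⊆ O ∧ ∀ u : C(X, ℂ), tsupport ⇑u ⊆ O → p u := by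
  unfold sm
  rw [eventually_comap]
  constructor
  · intro h
    obtain ⟨s, hs, h⟩ := eventually_smallSets.1 h
    obtain ⟨O, hO, hSO, hOs⟩ := mem_nhdsSet_iff_exists.1 hs
    exact ⟨O, hO, hSO, fun u hu => h _ (hu.trans hOs) u rfl⟩
  · rintro ⟨O, hO, hSO, h⟩
    refine eventually_smallSets.2 ⟨O, hO.mem_nhdsSet.2 hSO, fun t ht u hu => h u ?_⟩
    rw [hu]; exact ht

lemma ev_sub {S : Set X} {O : Set X} (hO : IsOpen O) (hS : S ⊆ O) :
    ∀ᶠ u : C(X, ℂ) in sm S, tsupport ⇑u ⊆ O := ev_sm.2 ⟨O, hO, hS, fun _ h => h⟩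

lemma self_of_ev {S : Set X} {p : C(X, ℂ) → Prop} (h : ∀ᶠ u in sm S, p u) {u : C(X, ℂ)}
    (hu : tsupport ⇑u ⊆ S) : p u := by
  obtain ⟨O, -, hSO, h⟩ := ev_sm.1 h
  exact h u (hu.trans hSO)

/-- Induction on the support, with parameters. -/
theorem ind1 {ι A : Type*} [AddCommGroup A] (L : Filter ι) (M : ι → C(X, ℂ) → A)
    (hadd : ∀ i u u', M i (u + u') = M i u + M i u') {S : Set X} (hS : IsCompact S)
    (h : ∀ x ∈ S, ∀ᶠ p in sm {x} ×ˢ L, M p.2 p.1 = 0) {u : C(X, ℂ)} (hu : tsupport ⇑u ⊆ S) :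
    ∀ᶠ i in L, M i u = 0 := by
  have key : ∃ O, IsOpen O ∧ S ⊆ O ∧ ∀ᶠ i in L, ∀ u : C(X, ℂ), tsupport ⇑u ⊆ O → M i u = 0 := by
    refine hS.induction_on (p := fun S => ∃ O, IsOpen O ∧ S ⊆ O ∧ ∀ᶠ i in L, ∀ u : C(X, ℂ),
      tsupport ⇑u ⊆ O → M i u = 0) ?_ ?_ ?_ ?_
    · refine ⟨∅, isOpen_empty, subset_rfl, Eventually.of_forall fun i u hu => ?_⟩
      have h0 : u = 0 := by
        ext x
        by_contra hx
        exact (hu (subset_tsupport _ hx)).elim
      have := hadd i 0 0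
      rw [add_zero] at this
      rw [h0]; exact left_eq_add.1 this
    · rintro S T hST ⟨O, hO, hT, h⟩
      exact ⟨O, hO, hST.trans hT, h⟩
    · rintro S T ⟨O, hO, hS, h⟩ ⟨O', hO', hT, h'⟩
      refine ⟨O ∪ O', hO.union hO', union_subset_union hS hT, ?_⟩
      filter_upwards [h, h'] with i hi hi' u hu
      obtain ⟨u₁, u₂, rfl, h1, h2, -, -⟩ := split_fun u hO hO' hu
      rw [hadd, hi _ h1, hi' _ h2, add_zero]
    · intro x hx
      obtain ⟨pa, ha, pb, hb, hab⟩ := eventually_prod_iff.1 (h x hx)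
      obtain ⟨O, hO, hxO, ha⟩ := ev_sm.1 ha
      exact ⟨O, mem_nhdsWithin_of_mem_nhds (hO.mem_nhds (hxO rfl)), O, hO, subset_rfl,
        hb.mono fun i hi u hu => hab (ha u hu) hi⟩
  obtain ⟨O, hO, hSO, h⟩ := key
  exact h.mono fun i hi => hi u (hu.trans hSO)

/-- Two points not in a closed relation: small supports are not in relation. -/
lemma nin_ev {W : Type*} [TopologicalSpace W] [CompactSpace W] [T2Space W] {I : X → W → Prop}
    (hI : IsClosed {q : X × W | I q.1 q.2}) {x : X} {y : W} (h : ¬ I x y) :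
    ∀ᶠ p in sm {x} ×ˢ sm {y}, Nin I p.1 p.2 := by
  have h1 : {q : X × W | I q.1 q.2}ᶜ ∈ 𝓝 (x, y) := hI.isOpen_compl.mem_nhds h
  obtain ⟨O, V, hO, hxO, hV, hyV, hOV⟩ := mem_nhds_prod_iff'.1 h1
  refine eventually_prod_iff.2 ⟨_, ev_sub hO (by simpa using hxO), _, ev_sub hV (by simpa using hyV),
    fun {u} hu {v} hv => fun x' hx' y' hy' hc => ?_⟩
  exact hOV (mk_mem_prod (hu hx') (hv hy')) hc

/-- Induction on two supports. -/
theorem ind2 {X₁ X₂ A : Type*} [TopologicalSpace X₁] [CompactSpace X₁] [T2Space X₁]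
    [TopologicalSpace X₂] [CompactSpace X₂] [T2Space X₂] [AddCommGroup A]
    (M : C(X₁, ℂ) → C(X₂, ℂ) → A)
    (h1 : ∀ u u' v, M (u + u') v = M u v + M u' v)
    (h2 : ∀ u v v', M u (v + v') = M u v + M u v')
    {u : C(X₁, ℂ)} {v : C(X₂, ℂ)}
    (h : ∀ x ∈ tsupport ⇑u, ∀ y ∈ tsupport ⇑v, ∀ᶠ p in sm {x} ×ˢ sm {y}, M p.1 p.2 = 0) :
    M u v = 0 := by
  have s2 : ∀ y ∈ tsupport ⇑v, ∀ᶠ p in sm {y}, M u p = 0 := fun y hy =>
    ind1 (sm {y}) (fun p w => M w p) (fun p w w' => h1 w w' p)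
      (isClosed_tsupport _).isCompact (fun x hx => h x hx y hy) subset_rfl
  have s3 := ind1 (⊤ : Filter Unit) (fun _ w => M u w) (fun _ w w' => h2 u w w')
    (isClosed_tsupport ⇑v).isCompact (fun y hy => (s2 y hy).prod_inl _) subset_rfl
  simpa using s3

/-- Induction on five supports. -/
theorem ind5 {X₁ X₂ X₃ X₄ X₅ A : Type*} [TopologicalSpace X₁] [CompactSpace X₁] [T2Space X₁]
    [TopologicalSpace X₂] [CompactSpace X₂] [T2Space X₂]
    [TopologicalSpace X₃] [CompactSpace X₃] [T2Space X₃]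
    [TopologicalSpace X₄] [CompactSpace X₄] [T2Space X₄]
    [TopologicalSpace X₅] [CompactSpace X₅] [T2Space X₅] [AddCommGroup A]
    (M : C(X₁, ℂ) → C(X₂, ℂ) → C(X₃, ℂ) → C(X₄, ℂ) → C(X₅, ℂ) → A)
    (h1 : ∀ u u' v w x y, M (u + u') v w x y = M u v w x y + M u' v w x y)
    (h2 : ∀ u v v' w x y, M u (v + v') w x y = M u v w x y + M u v' w x y)
    (h3 : ∀ u v w w' x y, M u v (w + w') x y = M u v w x y + M u v w' x y)
    (h4 : ∀ u v w x x' y, M u v w (x + x') y = M u v w x y + M u v w x' y)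
    (h5 : ∀ u v w x y y', M u v w x (y + y') = M u v w x y + M u v w x y')
    {u₁ : C(X₁, ℂ)} {u₂ : C(X₂, ℂ)} {u₃ : C(X₃, ℂ)} {u₄ : C(X₄, ℂ)} {u₅ : C(X₅, ℂ)}
    (h : ∀ x₁ ∈ tsupport ⇑u₁, ∀ x₂ ∈ tsupport ⇑u₂, ∀ x₃ ∈ tsupport ⇑u₃, ∀ x₄ ∈ tsupport ⇑u₄,
      ∀ x₅ ∈ tsupport ⇑u₅, ∀ᶠ p in sm {x₁} ×ˢ sm {x₂} ×ˢ sm {x₃} ×ˢ sm {x₄} ×ˢ sm {x₅},
        M p.1 p.2.1 p.2.2.1 p.2.2.2.1 p.2.2.2.2 = 0) :
    M u₁ u₂ u₃ u₄ u₅ = 0 := by
  have s1 : ∀ x₂ ∈ tsupport ⇑u₂, ∀ x₃ ∈ tsupport ⇑u₃, ∀ x₄ ∈ tsupport ⇑u₄,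
      ∀ x₅ ∈ tsupport ⇑u₅, ∀ᶠ p in sm {x₂} ×ˢ sm {x₃} ×ˢ sm {x₄} ×ˢ sm {x₅},
        M u₁ p.1 p.2.1 p.2.2.1 p.2.2.2 = 0 := fun x₂ k2 x₃ k3 x₄ k4 x₅ k5 =>
    ind1 (sm {x₂} ×ˢ sm {x₃} ×ˢ sm {x₄} ×ˢ sm {x₅}) (fun p w => M w p.1 p.2.1 p.2.2.1 p.2.2.2)
      (fun p w w' => h1 w w' _ _ _ _) (isClosed_tsupport _).isCompact
      (fun x₁ k1 => h x₁ k1 x₂ k2 x₃ k3 x₄ k4 x₅ k5) subset_rfl
  have s2 : ∀ x₃ ∈ tsupport ⇑u₃, ∀ x₄ ∈ tsupport ⇑u₄,
      ∀ x₅ ∈ tsupport ⇑u₅, ∀ᶠ p in sm {x₃} ×ˢ sm {x₄} ×ˢ sm {x₅},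
        M u₁ u₂ p.1 p.2.1 p.2.2 = 0 := fun x₃ k3 x₄ k4 x₅ k5 =>
    ind1 (sm {x₃} ×ˢ sm {x₄} ×ˢ sm {x₅}) (fun p w => M u₁ w p.1 p.2.1 p.2.2)
      (fun p w w' => h2 _ w w' _ _ _) (isClosed_tsupport _).isCompact
      (fun x₂ k2 => s1 x₂ k2 x₃ k3 x₄ k4 x₅ k5) subset_rfl
  have s3 : ∀ x₄ ∈ tsupport ⇑u₄, ∀ x₅ ∈ tsupport ⇑u₅, ∀ᶠ p in sm {x₄} ×ˢ sm {x₅},
        M u₁ u₂ u₃ p.1 p.2 = 0 := fun x₄ k4 x₅ k5 =>
    ind1 (sm {x₄} ×ˢ sm {x₅}) (fun p w => M u₁ u₂ w p.1 p.2)
      (fun p w w' => h3 _ _ w w' _ _) (isClosed_tsupport _).isCompact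
      (fun x₃ k3 => s2 x₃ k3 x₄ k4 x₅ k5) subset_rfl
  exact ind2 (M u₁ u₂ u₃) (fun w w' y => h4 _ _ _ w w' y) (fun w y y' => h5 _ _ _ w y y')
    (fun x₄ k4 x₅ k5 => s3 x₄ k4 x₅ k5)

end ind

/-! ### The theorem -/

section main

variable {Y Z K : Type*} [TopologicalSpace Y] [CompactSpace Y] [T2Space Y]
  [TopologicalSpace Z] [CompactSpace Z] [T2Space Z]
  [NormedAddCommGroup K] [InnerProductSpace ℂ K] [CompleteSpace K]

/-- Two `Y`-vertices with a common neighbour (or equal). -/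
def Col (I : Y → Z → Prop) (x y : Y) : Prop := ∃ z, I x z ∧ I y z

lemma isClosed_col {I : Y → Z → Prop} (hI : IsClosed {q : Y × Z | I q.1 q.2}) :
    IsClosed {q : Y × Y | Col I q.1 q.2} := by
  have h1 : IsClosed {q : (Y × Y) × Z | I q.1.1 q.2 ∧ I q.1.2 q.2} :=
    (hI.preimage (f := fun q : (Y × Y) × Z => (q.1.1, q.2)) (by fun_prop)).inter
      (hI.preimage (f := fun q : (Y × Y) × Z => (q.1.2, q.2)) (by fun_prop))
  have h2 := isClosedMap_fst_of_compactSpace _ h1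
  convert h2 using 1
  ext q
  constructor
  · rintro ⟨z, h⟩; exact ⟨(q, z), h, rfl⟩
  · rintro ⟨⟨q', z⟩, h, rfl⟩; exact ⟨z, h⟩

/-- SYNTHESIS: `b g` acts on `l a * X * l a'` (disjoint supports, `X` commuting with `b`) as a
function of the two (different, concurrent) values of `l`. -/
def Syn (b : C(Y, ℂ) →⋆ₐ[ℂ] (K →L[ℂ] K)) (l : C(Z, ℂ) →⋆ₐ[ℂ] (K →L[ℂ] K)) : Prop :=
  ∀ X U V : K →L[ℂ] K, (∀ g, Commute (b g) X) → (∀ v, Commute U (l v)) →
    (∀ v, Commute V (l v)) → ∀ a a' : C(Z, ℂ), Disjoint (tsupport ⇑a) (tsupport ⇑a') →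
    U * (l a * X * l a') * V = 0 → ∀ g, U * (b g * (l a * X * l a')) * V = 0

/-- **KEY ⟹ COMMUTE** (#6568 (3)). -/
theorem comm_of_key {I : Y → Z → Prop} (hI : IsClosed {q : Y × Z | I q.1 q.2})
    (gq : ∀ x y z n n' m, x ≠ y → y ≠ z → I x n → I y n → I y n' → I z n' → I x m → I z m →
      n = n')
    (b c : C(Y, ℂ) →⋆ₐ[ℂ] (K →L[ℂ] K)) (l m : C(Z, ℂ) →⋆ₐ[ℂ] (K →L[ℂ] K))
    (hbl : ∀ u v, Commute (b u) (l v)) (hcl : ∀ u v, Commute (c u) (l v))
    (hbm : ∀ u v, Commute (b u) (m v))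
    (ibl : ∀ u v, Nin I u v → b u * l v = 0) (icl : ∀ u v, Nin I u v → c u * l v = 0)
    (agr : ∀ ξ, (∀ f, b f ξ = c f ξ) → ξ = 0) (syn : Syn b l)
    (key : ∀ u h, Nin (Col I) u h → ∀ f, c u * m f * c h = 0) (f g : C(Z, ℂ)) :
    Commute (m f) (l g) := by
  have hC := isClosed_col hI
  -- five factors
  have five : ∀ (u g h : C(Y, ℂ)) (a a' : C(Z, ℂ)), Disjoint (tsupport ⇑u) (tsupport ⇑g) →
      Disjoint (tsupport ⇑g) (tsupport ⇑h) → Disjoint (tsupport ⇑a) (tsupport ⇑a') →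
      c u * (b g * (l a * m f * l a')) * c h = 0 := by
    intro u g h a a' hug hgh haa
    refine ind5 (fun u g h a a' => c u * (b g * (l a * m f * l a')) * c h) ?_ ?_ ?_ ?_ ?_ ?_
    · intros; simp only [map_add, add_mul, mul_add]
    · intros; simp only [map_add, add_mul, mul_add]
    · intros; simp only [map_add, add_mul, mul_add]
    · intros; simp only [map_add, add_mul, mul_add]
    · intros; simp only [map_add, add_mul, mul_add]
    intro x hx y hy z hz n hn n' hn'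
    have hxy : x ≠ y := fun e => disjoint_left.1 hug hx (e ▸ hy)
    have hyz : y ≠ z := fun e => disjoint_left.1 hgh hy (e ▸ hz)
    have hnn : n ≠ n' := fun e => disjoint_left.1 haa hn (e ▸ hn')
    have t1 : Tendsto (fun p : C(Y, ℂ) × C(Y, ℂ) × C(Y, ℂ) × C(Z, ℂ) × C(Z, ℂ) => p.1)
      (sm {x} ×ˢ sm {y} ×ˢ sm {z} ×ˢ sm {n} ×ˢ sm {n'}) (sm {x}) := tendsto_fst
    have t2 : Tendsto (fun p : C(Y, ℂ) × C(Y, ℂ) × C(Y, ℂ) × C(Z, ℂ) × C(Z, ℂ) => p.2.1)
      (sm {x} ×ˢ sm {y} ×ˢ sm {z} ×ˢ sm {n} ×ˢ sm {n'}) (sm {y}) :=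
      tendsto_fst.comp tendsto_snd
    have t3 : Tendsto (fun p : C(Y, ℂ) × C(Y, ℂ) × C(Y, ℂ) × C(Z, ℂ) × C(Z, ℂ) => p.2.2.1)
      (sm {x} ×ˢ sm {y} ×ˢ sm {z} ×ˢ sm {n} ×ˢ sm {n'}) (sm {z}) :=
      tendsto_fst.comp (tendsto_snd.comp tendsto_snd)
    have t4 : Tendsto (fun p : C(Y, ℂ) × C(Y, ℂ) × C(Y, ℂ) × C(Z, ℂ) × C(Z, ℂ) => p.2.2.2.1)
      (sm {x} ×ˢ sm {y} ×ˢ sm {z} ×ˢ sm {n} ×ˢ sm {n'}) (sm {n}) :=
      tendsto_fst.comp (tendsto_snd.comp (tendsto_snd.comp tendsto_snd))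
    have t5 : Tendsto (fun p : C(Y, ℂ) × C(Y, ℂ) × C(Y, ℂ) × C(Z, ℂ) × C(Z, ℂ) => p.2.2.2.2)
      (sm {x} ×ˢ sm {y} ×ˢ sm {z} ×ˢ sm {n} ×ˢ sm {n'}) (sm {n'}) :=
      tendsto_snd.comp (tendsto_snd.comp (tendsto_snd.comp tendsto_snd))
    by_cases k1 : I x n
    swap
    · filter_upwards [(t1.prodMk t4).eventually (nin_ev hI k1)] with p hp
      obtain ⟨u, g, h, a, a'⟩ := p
      have e : c u * l a = 0 := icl _ _ hp
      have e' : c u * (b g * (l a * m f * l a')) * c h =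
          (c u * l a) * (b g * m f * l a' * c h) := by
        have h1 := (hbl g a).eq
        simp only [mul_assoc]
        rw [← mul_assoc (b g) (l a), h1]
        simp only [mul_assoc]
      rw [e', e, zero_mul]
    by_cases k2 : I y n
    swap
    · filter_upwards [(t2.prodMk t4).eventually (nin_ev hI k2)] with p hp
      obtain ⟨u, g, h, a, a'⟩ := p
      have e : b g * l a = 0 := ibl _ _ hp
      have e' : c u * (b g * (l a * m f * l a')) * c h =
          c u * (b g * l a) * (m f * l a' * c h) := by simp only [mul_assoc]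
      rw [e', e, mul_zero, zero_mul]
    by_cases k3 : I y n'
    swap
    · filter_upwards [(t2.prodMk t5).eventually (nin_ev hI k3)] with p hp
      obtain ⟨u, g, h, a, a'⟩ := p
      have e : b g * l a' = 0 := ibl _ _ hp
      have e' : c u * (b g * (l a * m f * l a')) * c h =
          c u * l a * m f * (b g * l a') * c h := by
        have h1 : b g * (l a * m f) = l a * m f * b g := ((hbl g a).mul_right (hbm g f)).eq
        rw [← mul_assoc (b g) (l a * m f), h1]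
        simp only [mul_assoc]
      rw [e', e, mul_zero, zero_mul]
    by_cases k4 : I z n'
    swap
    · filter_upwards [(t3.prodMk t5).eventually (nin_ev hI k4)] with p hp
      obtain ⟨u, g, h, a, a'⟩ := p
      have e : c h * l a' = 0 := icl _ _ hp
      have e' : c u * (b g * (l a * m f * l a')) * c h =
          c u * b g * l a * m f * (l a' * c h) := by simp only [mul_assoc]
      rw [e', ← (hcl h a').eq, e, mul_zero]
    have k5 : ¬ Col I x z := fun ⟨w, h1, h2⟩ => hnn (gq x y z n n' w hxy hyz k1 k2 k3 k4 h1 h2)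
    have hdg : IsClosed {q : Z × Z | q.1 = q.2} := isClosed_diagonal
    filter_upwards [(t1.prodMk t3).eventually (nin_ev hC k5),
      (t4.prodMk t5).eventually (nin_ev hdg hnn)] with p hp hp'
    obtain ⟨u, g, h, a, a'⟩ := p
    refine syn (m f) (c u) (c h) (fun g => hbm g f) (fun v => hcl u v) (fun v => hcl h v) a a'
      (disjoint_left.2 fun w hw hw' => hp' w hw w hw' rfl) ?_ g
    have e : c u * m f * c h = 0 := key _ _ hp f
    have e' : c u * (l a * m f * l a') * c h = l a * (c u * m f * c h) * l a' := by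
      have h1 := (hcl u a).eq
      have h2 := (hcl h a').eq
      simp only [mul_assoc]
      rw [← mul_assoc (c u) (l a), h1, h2]
      simp only [mul_assoc]
    rw [e', e, mul_zero, zero_mul]
  have hts : ∀ v : C(Y, ℂ), tsupport ⇑(star v) = tsupport ⇑v := fun v => by
    unfold tsupport
    congr 1
    ext x; simp [Function.mem_support]
  refine (loc_op l l (m f) (fun a a' haa => ?_) g)
  set T := l a * m f * l a' with hT
  have hbT : ∀ g, Commute (b g) T := fun g =>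
    ((hbl g a).mul_right (hbm g f)).mul_right (hbl g a')
  -- `b g * T * c h = 0` for disjoint supports
  have four : ∀ g h : C(Y, ℂ), Disjoint (tsupport ⇑g) (tsupport ⇑h) → b g * T * c h = 0 := by
    intro g h hgh
    ext ξ
    refine agr _ fun f' => ?_
    have hl := loc c b (1 : K →L[ℂ] K) ((b g * T * c h) ξ) (fun u g' hug => ?_) f'
    · simpa using hl
    · have h1 := five u (g' * g) h a a' (disjoint_left.2 fun x hx hx' => disjoint_left.1 hug hx
        (tsupport_mul_l _ _ hx')) (disjoint_left.2 fun x hx hx' => disjoint_left.1 hgh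
        (tsupport_mul_r _ _ hx) hx') haa
      rw [← hT, map_mul] at h1
      have := congrArg (fun S : K →L[ℂ] K => S ξ) h1
      simpa [mul_ap] using this
  have hst : star T = 0 := by
    ext ξ
    refine agr _ fun f' => ?_
    have hl := loc c b (1 : K →L[ℂ] K) (star T ξ) (fun h g hhg => ?_) f'
    · simpa using hl
    · have h1 := four (star g) (star h) (by rw [hts, hts]; exact hhg.symm)
      rw [(hbT _).eq] at h1
      have h3 := congrArg star h1
      simp only [star_mul, map_star, star_star, star_zero] at h3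
      have := congrArg (fun S : K →L[ℂ] K => S ξ) h3
      simpa [mul_ap] using this
  have h4 := congrArg star hst
  rw [star_star, star_zero, hT, mul_assoc] at h4
  exact h4

/-! ### Synthesis: general lemmas -/

/-- `b v` kills `l (χ a) * X * l (χ' a')` for `χ`, `χ'` near `n`, `n'`, if the support of `v`
contains no common neighbour of `n` and `n'`. -/
lemma ev_kill {I : Y → Z → Prop} (hI : IsClosed {q : Y × Z | I q.1 q.2})
    (b : C(Y, ℂ) →⋆ₐ[ℂ] (K →L[ℂ] K)) (l : C(Z, ℂ) →⋆ₐ[ℂ] (K →L[ℂ] K))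
    (hbl : ∀ u v, Commute (b u) (l v)) (ibl : ∀ u v, Nin I u v → b u * l v = 0)
    {n n' : Z} (v : C(Y, ℂ)) (h : ∀ y ∈ tsupport ⇑v, I y n → I y n' → False) :
    ∀ᶠ p in sm {n} ×ˢ sm {n'}, ∀ X : K →L[ℂ] K, (∀ g, Commute (b g) X) →
      b v * (l p.1 * X * l p.2) = 0 := by
  have hI' : IsClosed {q : Z × Y | I q.2 q.1} :=
    hI.preimage (f := fun q : Z × Y => (q.2, q.1)) (by fun_prop)
  obtain ⟨v₁, v₂, hv, O, V, hO, hO', hV, hV', h1, h2⟩ :=
    split_inc (I₁ := fun z y => I y z) (I₂ := fun z y => I y z) hI' hI' (x := n) (y := n') v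
      (fun y hy h1 h2 => h y hy h1 h2)
  refine eventually_prod_iff.2 ⟨_, ev_sub hO (by simpa using hO'), _,
    ev_sub hV (by simpa using hV'), fun {u} hu {w} hw X hX => ?_⟩
  have e1 : b v₁ * l u = 0 := ibl _ _ fun y hy z hz hyz => h1 u hu z hz y hy hyz
  have e2 : b v₂ * l w = 0 := ibl _ _ fun y hy z hz hyz => h2 w hw z hz y hy hyz
  have e3 : b v₂ * (l u * X) = l u * X * b v₂ := ((hbl v₂ u).mul_right (hX v₂)).eq
  rw [hv, map_add, add_mul]
  have e4 : b v₁ * (l u * X * l w) = b v₁ * l u * (X * l w) := by simp only [mul_assoc]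
  have e5 : b v₂ * (l u * X * l w) = l u * X * (b v₂ * l w) := by
    rw [← mul_assoc (b v₂), e3]; simp only [mul_assoc]
  rw [e4, e5, e1, e2, zero_mul, mul_zero, add_zero]

/-- It is enough to prove synthesis for a `*`-closed separating set of functions. -/
theorem syn_of_sep (b : C(Y, ℂ) →⋆ₐ[ℂ] (K →L[ℂ] K)) (l : C(Z, ℂ) →⋆ₐ[ℂ] (K →L[ℂ] K))
    (hbl : ∀ u v, Commute (b u) (l v)) (s : Set C(Y, ℂ)) (hst : ∀ g ∈ s, star g ∈ s)
    (hsep : ∀ x y, x ≠ y → ∃ g ∈ s, g x ≠ g y)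
    (h : ∀ g ∈ s, ∀ X U V : K →L[ℂ] K, (∀ g, Commute (b g) X) → (∀ v, Commute U (l v)) →
      (∀ v, Commute V (l v)) → ∀ a a' : C(Z, ℂ), Disjoint (tsupport ⇑a) (tsupport ⇑a') →
      U * (l a * X * l a') * V = 0 → U * (b g * (l a * X * l a')) * V = 0) : Syn b l := by
  set G : C(Y, ℂ) → Prop := fun g => ∀ X U V : K →L[ℂ] K, (∀ g, Commute (b g) X) →
    (∀ v, Commute U (l v)) →
      (∀ v, Commute V (l v)) → ∀ a a' : C(Z, ℂ), Disjoint (tsupport ⇑a) (tsupport ⇑a') →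
      U * (l a * X * l a') * V = 0 → U * (b g * (l a * X * l a')) * V = 0 with hG
  have hcl : IsClosed {g | G g} := by
    have : {g | G g} = ⋂ (X : K →L[ℂ] K) (U : K →L[ℂ] K) (V : K →L[ℂ] K)
        (_ : ∀ g, Commute (b g) X) (_ : ∀ v, Commute U (l v)) (_ : ∀ v, Commute V (l v))
        (a : C(Z, ℂ)) (a' : C(Z, ℂ)) (_ : Disjoint (tsupport ⇑a) (tsupport ⇑a'))
        (_ : U * (l a * X * l a') * V = 0), {g | U * (b g * (l a * X * l a')) * V = 0} := by
      ext g; simp [hG]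
    rw [this]
    refine isClosed_iInter fun X => isClosed_iInter fun U => isClosed_iInter fun V =>
      isClosed_iInter fun _ => isClosed_iInter fun _ => isClosed_iInter fun _ =>
      isClosed_iInter fun a => isClosed_iInter fun a' => isClosed_iInter fun _ =>
      isClosed_iInter fun _ => ?_
    have hb : Continuous b := AddMonoidHomClass.continuous_of_bound b 1 fun g => by
      rw [one_mul]; exact NonUnitalStarAlgHom.norm_apply_le b g
    exact isClosed_eq (by fun_prop) continuous_const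
  have hmul : ∀ g g', G g → G g' → G (g * g') := by
    intro g g' hg hg' X U V hX hU hV a a' haa h0
    have h1 := hg' X U V hX hU hV a a' haa h0
    have e : ∀ B : K →L[ℂ] K, (∀ g, Commute (b g) B) → b g' * (l a * X * l a') =
        l a * (b g' * X) * l a' := fun B _ => by
      simp only [← mul_assoc]
      rw [(hbl g' a).eq]
    have e1 := e X hX
    rw [e1] at h1
    have h2 := hg (b g' * X) U V (fun g'' => by
      have : Commute (b g'') (b g') := by
        unfold Commute SemiconjBy; rw [← map_mul, ← map_mul, mul_comm]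
      exact this.mul_right (hX g'')) hU hV a a' haa h1
    rw [map_mul, mul_assoc (b g), e1]; exact h2
  have hadd : ∀ g g', G g → G g' → G (g + g') := by
    intro g g' hg hg' X U V hX hU hV a a' haa h0
    rw [map_add, add_mul, mul_add, add_mul, hg X U V hX hU hV a a' haa h0,
      hg' X U V hX hU hV a a' haa h0, add_zero]
  have halg : ∀ r : ℂ, G (algebraMap ℂ C(Y, ℂ) r) := by
    intro r X U V hX hU hV a a' haa h0
    have : b (algebraMap ℂ C(Y, ℂ) r) = algebraMap ℂ (K →L[ℂ] K) r := b.toAlgHom.commutes r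
    rw [this, ← Algebra.smul_def, mul_smul_comm, smul_mul_assoc, h0, smul_zero]
  have htop : (StarAlgebra.adjoin ℂ s).topologicalClosure = ⊤ := by
    refine ContinuousMap.starSubalgebra_topologicalClosure_eq_top_of_separatesPoints _ ?_
    intro x y hxy
    obtain ⟨g, hg, hne⟩ := hsep x y hxy
    exact ⟨g, ⟨g, StarAlgebra.subset_adjoin ℂ s hg, rfl⟩, hne⟩
  have hadj : ∀ g ∈ StarAlgebra.adjoin ℂ s, G g ∧ G (star g) := by
    intro g hg
    induction hg using StarAlgebra.adjoin_induction with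
    | mem x hx => exact ⟨h x hx, h _ (hst x hx)⟩
    | algebraMap r =>
      refine ⟨halg r, ?_⟩
      have : star (algebraMap ℂ C(Y, ℂ) r) = algebraMap ℂ C(Y, ℂ) (star r) := by
        ext x; simp
      rw [this]; exact halg _
    | add x y hx hy hx' hy' => exact ⟨hadd _ _ hx'.1 hy'.1, by rw [star_add]; exact hadd _ _ hx'.2 hy'.2⟩
    | mul x y hx hy hx' hy' => exact ⟨hmul _ _ hx'.1 hy'.1, by rw [star_mul]; exact hmul _ _ hy'.2 hx'.2⟩
    | star x hx hx' => exact ⟨hx'.2, by rw [star_star]; exact hx'.1⟩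
  intro X U V hX hU hV a a' haa h0 g
  have hg : g ∈ (StarAlgebra.adjoin ℂ s).topologicalClosure := by rw [htop]; trivial
  have : g ∈ closure {g | G g} := closure_mono (fun g hg => (hadj g hg).1) hg
  exact (hcl.closure_eq ▸ this : g ∈ {g | G g}) X U V hX hU hV a a' haa h0

/-- The indicator of a clopen set. -/
noncomputable def ci (G : Set Y) (hG : IsClopen G) : C(Y, ℂ) :=
  ⟨G.indicator 1, by
    classical
    exact (continuous_one (X := Y) (M := ℂ)).indicator fun a ha => by simp [hG.frontier_eq] at ha⟩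

/-- **SYNTHESIS, ultrametric case**: `Y` totally disconnected, two different `Z`-vertices have at
most one common `Y`-neighbour. -/
theorem syn_td [TotallyDisconnectedSpace Y] {I : Y → Z → Prop}
    (hI : IsClosed {q : Y × Z | I q.1 q.2})
    (uniq : ∀ y y' n n', n ≠ n' → I y n → I y n' → I y' n → I y' n' → y = y')
    (b : C(Y, ℂ) →⋆ₐ[ℂ] (K →L[ℂ] K)) (l : C(Z, ℂ) →⋆ₐ[ℂ] (K →L[ℂ] K))
    (hbl : ∀ u v, Commute (b u) (l v)) (ibl : ∀ u v, Nin I u v → b u * l v = 0) : Syn b l := by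
  refine syn_of_sep b l hbl {g | ∃ G : Set Y, ∃ hG : IsClopen G, g = ci G hG} ?_ ?_ ?_
  · rintro g ⟨G, hG, rfl⟩
    refine ⟨G, hG, ?_⟩
    ext x
    by_cases hx : x ∈ G <;> simp [ci, hx]
  · intro x y hxy
    obtain ⟨G, hG, hx, hy⟩ := exists_isClopen_of_totally_separated (α := Y) hxy
    refine ⟨_, ⟨G, hG, rfl⟩, ?_⟩
    have hy' : y ∉ G := hy
    simp [ci, hx, hy']
  rintro g ⟨G, hG, rfl⟩ X U V hX hU hV a a' haa h0
  have hsG : tsupport ⇑(ci G hG) ⊆ G := by
    refine closure_minimal (fun x hx => ?_) hG.1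
    by_contra h
    exact hx (by simp [ci, h])
  have hsG' : tsupport ⇑(1 - ci G hG) ⊆ Gᶜ := by
    refine closure_minimal (fun x hx => ?_) hG.compl.1
    intro h
    exact hx (by simp [ci, h])
  -- pieces
  have hpc : ∀ u w : C(Z, ℂ), U * (l (u * a) * X * l (w * a')) * V = 0 := by
    intro u w
    have e : U * (l (u * a) * X * l (w * a')) * V = l u * (U * (l a * X * l a') * V) * l w := by
      have h1 := (hU u).eq
      have h2 := (hV w).eq
      rw [map_mul, mul_comm w a', map_mul]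
      simp only [mul_assoc]
      rw [← mul_assoc U (l u), h1, h2]
      simp only [mul_assoc]
    rw [e, h0, mul_zero, zero_mul]
  have hmain := ind2 (fun u w => U * (b (ci G hG) * (l (u * a) * X * l (w * a'))) * V)
    (by intros; simp only [add_mul, map_add, mul_add])
    (by intros; simp only [add_mul, map_add, mul_add])
    (u := 1) (v := 1) ?_
  · simpa using hmain
  intro n _ n' _
  have hz : ∀ v : C(Y, ℂ), (∀ y ∈ tsupport ⇑v, I y n → I y n' → False) →
      ∀ᶠ p in sm {n} ×ˢ sm {n'}, b v * (l (p.1 * a) * X * l (p.2 * a')) = 0 := by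
    intro v hv
    filter_upwards [ev_kill hI b l hbl ibl v hv] with p hp
    have e : b v * (l (p.1 * a) * X * l (p.2 * a')) = l a * (b v * (l p.1 * X * l p.2)) * l a' := by
      have h1 := (hbl v a).eq
      rw [mul_comm p.1 a, map_mul, map_mul]
      simp only [← mul_assoc]
      rw [h1]
    rw [e, hp X hX, mul_zero, zero_mul]
  by_cases hna : n ∈ tsupport ⇑a
  swap
  · filter_upwards [(tendsto_fst (f := sm {n}) (g := sm {n'})).eventually
      (ev_sub (isClosed_tsupport ⇑a).isOpen_compl (by simpa using hna))] with p hp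
    have : p.1 * a = 0 := by
      ext x
      by_contra h
      have hx : p.1 x ≠ 0 := fun h0 => h (by simp [h0])
      have hx' : a x ≠ 0 := fun h0 => h (by simp [h0])
      exact hp (subset_tsupport _ hx) (subset_tsupport _ hx')
    rw [this, map_zero, zero_mul, zero_mul, mul_zero, mul_zero, zero_mul]
  by_cases hna' : n' ∈ tsupport ⇑a'
  swap
  · filter_upwards [(tendsto_snd (f := sm {n}) (g := sm {n'})).eventually
      (ev_sub (isClosed_tsupport ⇑a').isOpen_compl (by simpa using hna'))] with p hp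
    have : p.2 * a' = 0 := by
      ext x
      by_contra h
      have hx : p.2 x ≠ 0 := fun h0 => h (by simp [h0])
      have hx' : a' x ≠ 0 := fun h0 => h (by simp [h0])
      exact hp (subset_tsupport _ hx) (subset_tsupport _ hx')
    rw [this, map_zero, mul_zero, mul_zero, mul_zero, zero_mul]
  have hnn : n ≠ n' := fun e => disjoint_left.1 haa hna (e ▸ hna')
  by_cases hc : ∃ y ∈ G, I y n ∧ I y n'
  · obtain ⟨y₀, hy₀, h1, h2⟩ := hc
    filter_upwards [hz (1 - ci G hG) fun y hy h3 h4 => hsG' hy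
      (uniq y₀ y n n' hnn h1 h2 h3 h4 ▸ hy₀)] with p hp
    rw [map_sub, map_one, sub_mul, one_mul, sub_eq_zero] at hp
    rw [← hp]; exact hpc _ _
  · filter_upwards [hz (ci G hG) fun y hy h3 h4 => hc ⟨y, hsG hy, h3, h4⟩] with p hp
    rw [hp, mul_zero, zero_mul]

end main

end Vale.Agent.P092.H677
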