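import Mathlib

/-!
P092 (helper677), [FF-LAT], part 1: the completions of `F(x)`, `F` a finite field, at the primes of
`F[x]`.
-/

set_option linter.all false

open IsDedekindDomain Filter Topology
open scoped NNReal Polynomial

namespace Vale.Agent.P092.H677.FF

section fin

variable (F : Type) [Field F] [Finite F] (v : HeightOneSpectrum F[X])

theorem ai_zero {F : Type} [Field F] {a : F[X]} : algebraMap F[X] (RatFunc F) a = 0 ↔ a = 0 :=
  map_eq_zero_iff _ (RatFunc.algebraMap_injective F)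

/-- the `v`-adic absolute value -/
noncomputable abbrev av : AbsoluteValue (RatFunc F) ℝ := 
  v.adicAbv (K := RatFunc F) (b := 2) one_lt_two

/-- the completion at the finite place `v` -/
def Kv : Type := UniformSpace.Completion (WithAbs (av F v))

noncomputable instance : NormedField (Kv F v) :=
  inferInstanceAs (NormedField (UniformSpace.Completion (WithAbs (av F v))))

instance : CompleteSpace (Kv F v) :=
  inferInstanceAs (CompleteSpace (UniformSpace.Completion (WithAbs (av F v))))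

/-- the embedding of `F` -/
noncomputable def ev : RatFunc F →+* Kv F v :=
  (UniformSpace.Completion.coeRingHom : WithAbs (av F v) →+*
    UniformSpace.Completion (WithAbs (av F v))).comp (WithAbs.equiv (av F v)).symm.toRingHom

theorem norm_ev (x : RatFunc F) : ‖ev F v x‖ = av F v x :=
  UniformSpace.Completion.norm_coe ((WithAbs.equiv (av F v)).symm x)

theorem ev_dense : DenseRange (ev F v) := by
  have h1 : DenseRange ((↑) : WithAbs (av F v) → UniformSpace.Completion (WithAbs (av F v))) :=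
    UniformSpace.Completion.denseRange_coe
  exact h1.comp (WithAbs.equiv (av F v)).symm.surjective.denseRange
    (UniformSpace.Completion.continuous_coe _)

theorem av_add (x y : RatFunc F) : av F v (x + y) ≤ max (av F v x) (av F v y) :=
  v.isNonarchimedean_adicAbv (K := RatFunc F) (b := 2) one_lt_two x y

theorem kv_add (x y : Kv F v) : ‖x + y‖ ≤ max ‖x‖ ‖y‖ := by
  refine (ev_dense F v).induction_on₂ (p := fun x y => ‖x + y‖ ≤ max ‖x‖ ‖y‖) ?_ ?_ x y
  · exact isClosed_le (by fun_prop) (by fun_prop)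
  · intro a b
    rw [← map_add, norm_ev, norm_ev, norm_ev]
    exact av_add F v a b

instance : IsUltrametricDist (Kv F v) :=
  IsUltrametricDist.isUltrametricDist_of_forall_norm_add_le_max_norm (kv_add F v)

theorem av_int (a : F[X]) : av F v (algebraMap F[X] (RatFunc F) a) ≤ 1 :=
  v.adicAbv_coe_le_one _ a

theorem av_lt (a : F[X]) : av F v (algebraMap F[X] (RatFunc F) a) < 1 ↔ a ∈ v.asIdeal :=
  v.adicAbv_coe_lt_one_iff _ a

theorem av_one (a : F[X]) : av F v (algebraMap F[X] (RatFunc F) a) = 1 ↔ a ∉ v.asIdeal :=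
  v.adicAbv_coe_eq_one_iff _ a

theorem exists_p : ∃ a : F[X], a ≠ 0 ∧ a ∈ v.asIdeal := by
  obtain ⟨a, ha, h0⟩ := Submodule.exists_mem_ne_zero_of_ne_bot v.ne_bot
  exact ⟨a, h0, ha⟩

noncomputable instance : NontriviallyNormedField (Kv F v) where
  non_trivial := by
    obtain ⟨a, h0, ha⟩ := exists_p F v
    refine ⟨ev F v (algebraMap F[X] (RatFunc F) a)⁻¹, ?_⟩
    have h1 : algebraMap F[X] (RatFunc F) a ≠ 0 := by
      rw [Ne, ai_zero]; exact h0
    rw [norm_ev, map_inv₀]
    exact (one_lt_inv₀ ((av F v).pos h1)).2 ((av_lt F v a).2 ha)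

theorem av_iff {x y : RatFunc F} : av F v x ≤ av F v y ↔ v.valuation (RatFunc F) x ≤ v.valuation (RatFunc F) y := by
  show ((WithZeroMulInt.toNNReal (e := (2 : ℝ≥0)) two_ne_zero
      (v.valuation (RatFunc F) x) : ℝ≥0) : ℝ) ≤
    ((WithZeroMulInt.toNNReal (e := (2 : ℝ≥0)) two_ne_zero
      (v.valuation (RatFunc F) y) : ℝ≥0) : ℝ) ↔ _
  rw [NNReal.coe_le_coe]
  exact (WithZeroMulInt.toNNReal_strictMono (e := (2 : ℝ≥0)) one_lt_two).le_iff_le

theorem av_le_one {x : RatFunc F} : av F v x ≤ 1 ↔ v.valuation (RatFunc F) x ≤ 1 := by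
  have h := av_iff F v (x := x) (y := 1)
  rwa [map_one, map_one] at h

/-- elements of high powers of the ideal are small -/
theorem exists_small {ε : ℝ} (hε : 0 < ε) : ∃ n : ℕ, ∀ a ∈ v.asIdeal ^ n,
    av F v (algebraMap F[X] (RatFunc F) a) < ε := by
  obtain ⟨p, hp0, hp⟩ := exists_p F v
  have h1 : algebraMap F[X] (RatFunc F) p ≠ 0 := by
    rw [Ne, ai_zero]; exact hp0
  obtain ⟨m, hm⟩ := exists_pow_lt_of_lt_one hε ((av_lt F v p).2 hp)
  -- `v(p^m) = exp(-n)`
  have h2 : v.intValuation (p ^ m) ≠ 0 := by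
    rw [← v.valuation_of_algebraMap (K := RatFunc F)]
    rw [Valuation.ne_zero_iff, Ne, ai_zero]
    exact pow_ne_zero _ hp0
  obtain ⟨n, hn⟩ : ∃ n : ℕ, v.intValuation (p ^ m) = WithZero.exp (-(n : ℤ)) := by
    refine ⟨(-(WithZero.log (v.intValuation (p ^ m)))).toNat, ?_⟩
    have h3 : v.intValuation (p ^ m) ≤ 1 := v.intValuation_le_one _
    have h4 : WithZero.log (v.intValuation (p ^ m)) ≤ 0 := by
      have := (WithZero.log_le_log h2 one_ne_zero).2 h3
      rwa [WithZero.log_one] at this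
    rw [Int.toNat_of_nonneg (by omega), neg_neg, WithZero.exp_log h2]
  refine ⟨n, fun a ha => lt_of_le_of_lt ?_ hm⟩
  have h5 := (v.intValuation_le_pow_iff_mem a n).2 ha
  rw [← hn, ← v.valuation_of_algebraMap (K := RatFunc F), ← v.valuation_of_algebraMap (K := RatFunc F)] at h5
  have h6 := (av_iff F v).2 h5
  rw [← map_pow, ← map_pow]
  exact h6

theorem approx_int {x : Kv F v} (hx : ‖x‖ ≤ 1) {ε : ℝ} (hε : 0 < ε) :
    ∃ a : F[X], ‖x - ev F v (algebraMap F[X] (RatFunc F) a)‖ < ε := by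
  obtain ⟨y, hy⟩ := (ev_dense F v).exists_dist_lt x (lt_min hε one_pos)
  rw [dist_eq_norm] at hy
  have h1 : ‖ev F v y‖ ≤ 1 := by
    have e : ev F v y = x + -(x - ev F v y) := by ring
    rw [e]
    refine (kv_add F v _ _).trans (max_le hx ?_)
    rw [norm_neg]
    exact (hy.trans_le (min_le_right _ _)).le
  rw [norm_ev, av_le_one] at h1
  obtain ⟨n, hn⟩ := exists_small F v hε
  obtain ⟨p, hp0, hp⟩ := exists_p F v
  have hpn : (algebraMap F[X] (RatFunc F) (p ^ n)) ≠ 0 := by
    rw [Ne, ai_zero]; exact pow_ne_zero _ hp0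
  obtain ⟨a, ha⟩ := v.exists_valuation_sub_lt_of_integer h1
    (Units.mk0 (v.valuation (RatFunc F) (algebraMap F[X] (RatFunc F) (p ^ n))) ((Valuation.ne_zero_iff _).2 hpn))
  have h2 := (av_iff F v).2 (le_of_lt ha)
  have h3 := hn (p ^ n) (Ideal.pow_mem_pow hp n)
  refine ⟨a, ?_⟩
  have e : x - ev F v (algebraMap F[X] (RatFunc F) a) = (x - ev F v y) +
      -(ev F v (algebraMap F[X] (RatFunc F) a) - ev F v y) := by ring
  rw [e]
  refine (kv_add F v _ _).trans_lt (max_lt (hy.trans_le (min_le_left _ _)) ?_)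
  rw [norm_neg, ← map_sub, norm_ev]
  exact lt_of_le_of_lt h2 h3

theorem finite_quo (I : Ideal F[X]) (hI : I ≠ ⊥) : Finite (F[X] ⧸ I) := by
  obtain ⟨g, hg⟩ := (IsPrincipalIdealRing.principal I).1
  have hg' : I = Ideal.span {g} := hg
  have hg0 : g ≠ 0 := by
    rintro rfl
    exact hI (by rw [hg', Ideal.span_singleton_eq_bot.2 rfl])
  rw [hg']
  haveI : Module.Finite F (AdjoinRoot g) := (AdjoinRoot.powerBasis hg0).finite
  haveI : Finite (AdjoinRoot g) := Module.finite_of_finite F
  exact this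

theorem cpt_ball : IsCompact (Metric.closedBall (0 : Kv F v) 1) := by
  refine TotallyBounded.isCompact_of_isClosed ?_ Metric.isClosed_closedBall
  rw [Metric.totallyBounded_iff]
  intro ε hε
  obtain ⟨n, hn⟩ := exists_small F v hε
  have hfin : Finite (F[X] ⧸ v.asIdeal ^ n) := finite_quo F _ (pow_ne_zero n v.ne_bot)
  refine ⟨Set.range fun q : F[X] ⧸ v.asIdeal ^ n => ev F v (algebraMap F[X] (RatFunc F) q.out),
    Set.finite_range _, fun x hx => ?_⟩
  rw [mem_closedBall_zero_iff] at hx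
  obtain ⟨a, ha⟩ := approx_int F v hx hε
  refine Set.mem_biUnion ⟨Ideal.Quotient.mk _ a, rfl⟩ ?_
  rw [Metric.mem_ball, dist_eq_norm]
  have h1 : (Ideal.Quotient.mk (v.asIdeal ^ n) a).out - a ∈ v.asIdeal ^ n := by
    rw [← Ideal.Quotient.mk_eq_mk_iff_sub_mem]
    exact Ideal.Quotient.mk_out _
  have h2 := hn _ h1
  have e : x - ev F v (algebraMap F[X] (RatFunc F) (Ideal.Quotient.mk (v.asIdeal ^ n) a).out) =
      (x - ev F v (algebraMap F[X] (RatFunc F) a)) +
      -(ev F v (algebraMap F[X] (RatFunc F) ((Ideal.Quotient.mk (v.asIdeal ^ n) a).out - a))) := by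
    rw [map_sub, map_sub]; ring
  rw [e]
  refine (kv_add F v _ _).trans_lt (max_lt ha ?_)
  rw [norm_neg, norm_ev]
  exact h2

instance : ProperSpace (Kv F v) := by
  haveI : LocallyCompactSpace (Kv F v) :=
    (cpt_ball F v).locallyCompactSpace_of_mem_nhds_of_addGroup
      (Metric.closedBall_mem_nhds (0 : Kv F v) one_pos)
  exact ProperSpace.of_nontriviallyNormedField_of_weaklyLocallyCompactSpace _

theorem ev_inj : Function.Injective (ev F v) := RingHom.injective _

end fin

end Vale.Agent.P092.H677.FF
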