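import Vale.Agent.P092.H677.FFa

/-!
P092 (helper677), [FF-LAT], part 2: `S`-integers: density in the product of the completions at the
places of `S`, integrality.
-/

set_option linter.all false

open IsDedekindDomain Filter Topology
open scoped NNReal nonZeroDivisors Polynomial

namespace Vale.Agent.P092.H677.FF

section glob

variable (F : Type) [Field F] [Finite F]

theorem exists_t1 (v : HeightOneSpectrum F[X]) : ∃ t : F[X], t ≠ 0 ∧ t ∈ v.asIdeal ∧
    ∀ w : HeightOneSpectrum F[X], w ≠ v → t ∉ w.asIdeal := by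
  obtain ⟨t, ht⟩ := (IsPrincipalIdealRing.principal v.asIdeal).1
  have ht' : v.asIdeal = Ideal.span {t} := ht
  have htm : t ∈ v.asIdeal := by rw [ht']; exact Ideal.mem_span_singleton_self t
  refine ⟨t, ?_, htm, fun w hw htw => ?_⟩
  · rintro rfl
    rw [Ideal.span_singleton_eq_bot.2 rfl] at ht'
    exact v.ne_bot ht'
  · have h2 : v.asIdeal ≤ w.asIdeal := by
      rw [ht', Ideal.span_singleton_le_iff_mem]
      exact htw
    have h3 := v.isMaximal.eq_of_le w.isPrime.ne_top h2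
    exact hw (HeightOneSpectrum.ext h3.symm)

variable (S : Set (HeightOneSpectrum F[X])) [Finite S]

theorem exists_t : ∃ t : F[X], t ≠ 0 ∧ (∀ v ∈ S, t ∈ v.asIdeal) ∧ ∀ w ∉ S, t ∉ w.asIdeal := by
  classical
  haveI : Fintype S := Fintype.ofFinite _
  choose t ht0 ht1 ht2 using exists_t1 F
  refine ⟨∏ v : S, t v, Finset.prod_ne_zero_iff.2 fun v _ => ht0 v, fun v hv => ?_, fun w hw => ?_⟩
  · exact Ideal.mem_of_dvd _ (Finset.dvd_prod_of_mem (fun v : S => t v)
      (Finset.mem_univ ⟨v, hv⟩)) (ht1 v)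
  · intro h
    haveI := w.isPrime
    rw [Ideal.IsPrime.prod_mem_iff] at h
    obtain ⟨v, -, h⟩ := h
    exact ht2 v w (fun e => hw (by rw [e]; exact v.2)) h

theorem approx_S (x : ∀ v : S, Kv F v) {ε : ℝ} (hε : 0 < ε) :
    ∃ y : S.integer (RatFunc F), ∀ v : S, ‖x v - ev F v (y : RatFunc F)‖ < ε := by
  classical
  haveI : Fintype S := Fintype.ofFinite _
  obtain ⟨t, ht0, ht1, ht2⟩ := exists_t F S
  have htK : algebraMap F[X] (RatFunc F) t ≠ 0 := by
    rw [Ne, ai_zero]; exact ht0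
  obtain ⟨T, hT⟩ : ∃ T : RatFunc F, T = algebraMap F[X] (RatFunc F) t := ⟨_, rfl⟩
  rw [← hT] at htK
  have h1 : ∀ v : S, ∃ m : ℕ, (av F v T) ^ m * ‖x v‖ ≤ 1 := by
    intro v
    have h2 : av F v T < 1 := by rw [hT]; exact (av_lt F v t).2 (ht1 v v.2)
    obtain ⟨m, hm⟩ := exists_pow_lt_of_lt_one (y := av F v T) (x := (‖x v‖ + 1)⁻¹)
      (by positivity) h2
    refine ⟨m, ?_⟩
    have h3 : 0 < ‖x v‖ + 1 := by positivity
    calc (av F v T) ^ m * ‖x v‖ ≤ (‖x v‖ + 1)⁻¹ * (‖x v‖ + 1) :=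
          mul_le_mul hm.le (by linarith) (norm_nonneg _) (by positivity)
      _ = 1 := inv_mul_cancel₀ h3.ne'
  choose m hm using h1
  obtain ⟨M, hM⟩ : ∃ M : ℕ, ∀ v, m v ≤ M := ⟨∑ v, m v, fun v =>
    Finset.single_le_sum (f := m) (fun _ _ => Nat.zero_le _) (Finset.mem_univ v)⟩
  have h4 : ∀ v : S, ‖ev F v (T ^ M) * x v‖ ≤ 1 := by
    intro v
    have h2 : av F v T ≤ 1 := by rw [hT]; exact av_int F v t
    rw [norm_mul, norm_ev, map_pow]
    refine le_trans ?_ (hm v)
    exact mul_le_mul_of_nonneg_right (pow_le_pow_of_le_one ((av F v).nonneg _) h2 (hM v))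
      (norm_nonneg _)
  have hpos : ∀ v : S, 0 < ε * av F v (T ^ M) := fun v =>
    mul_pos hε ((av F v).pos (pow_ne_zero _ htK))
  choose a ha using fun v : S => approx_int F v (h4 v) (hpos v)
  choose n hn using fun v : S => exists_small F (v : HeightOneSpectrum F[X]) (hpos v)
  obtain ⟨y, hy⟩ := IsDedekindDomain.exists_forall_sub_mem_ideal (s := Finset.univ)
    (fun v : S => v.1.asIdeal) n (fun v _ => v.1.prime) (fun v _ w _ hvw h =>
      hvw (Subtype.ext (HeightOneSpectrum.ext h))) (fun v => a v.1)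
  refine ⟨⟨algebraMap F[X] (RatFunc F) y / T ^ M, fun w hw => ?_⟩, fun v => ?_⟩
  · rw [← av_le_one, map_div₀, map_pow]
    have h5 : av F w T = 1 := by rw [hT]; exact (av_one F w t).2 (ht2 w hw)
    rw [h5, one_pow, div_one]
    exact av_int F w y
  · have h6 := hn v _ (hy v (Finset.mem_univ v))
    have h7 := ha v
    have h8 : ev F v (T ^ M) ≠ 0 := by
      rw [Ne, map_eq_zero]; exact pow_ne_zero _ htK
    have e : ev F v (T ^ M) * (x v - ev F v (algebraMap F[X] (RatFunc F) y / T ^ M)) =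
        (ev F v (T ^ M) * x v - ev F v (algebraMap F[X] (RatFunc F) (a v))) +
          -(ev F v (algebraMap F[X] (RatFunc F) (y - a v))) := by
      rw [map_div₀, map_sub, map_sub, mul_sub, mul_div_cancel₀ _ h8]
      ring
    have h9 : ‖ev F v (T ^ M) * (x v - ev F v (algebraMap F[X] (RatFunc F) y / T ^ M))‖ <
        ε * av F v (T ^ M) := by
      rw [e]
      refine (kv_add F v _ _).trans_lt (max_lt h7 ?_)
      rw [norm_neg, norm_ev]
      exact h6
    rw [norm_mul, norm_ev, mul_comm] at h9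
    exact lt_of_mul_lt_mul_right h9 ((av F v).nonneg _)

theorem int_of {S : Set (HeightOneSpectrum F[X])} (y : S.integer (RatFunc F))
    (h : ∀ v : S, ‖ev F v (y : RatFunc F)‖ ≤ 1) : ∃ a : F[X], algebraMap F[X] (RatFunc F) a = y := by
  refine HeightOneSpectrum.mem_integers_of_valuation_le_one (RatFunc F) (y : RatFunc F) fun v => ?_
  by_cases hv : v ∈ S
  · rw [← av_le_one, ← norm_ev]
    exact h ⟨v, hv⟩
  · exact y.2 v hv

end glob

end Vale.Agent.P092.H677.FF
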