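import Vale.Agent.P092.H677.OKb

/-!
P092 (helper677), [OK-LAT], part 3: the ring `mixedSpace K = ℝ^{r₁} × ℂ^{r₂}` of a number field.
-/

set_option linter.all false

open Matrix MeasureTheory MeasureTheory.Measure Set Filter Topology NumberField
open NumberField.InfinitePlace NumberField.mixedEmbedding
open scoped ENNReal

namespace Vale.Agent.P092.H677.OK

theorem hom_pi_triv {J : Type} [Fintype J] [DecidableEq J] {E : J → Type} [∀ j, Group (E j)]
    {C : Type*} [CommGroup C] (f : (∀ j, E j) →* C)
    (h : ∀ j (x : E j), f (Pi.mulSingle j x) = 1) : f = 1 := by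
  have h1 : ∀ (s : Finset J) (g : ∀ j, E j), (∀ j, j ∉ s → g j = 1) → f g = 1 := by
    intro s
    induction s using Finset.induction_on with
    | empty =>
      intro g hg
      have : g = 1 := funext fun j => hg j (by simp)
      rw [this, map_one]
    | insert a s ha ih =>
      intro g hg
      have h2 : g = Pi.mulSingle a (g a) * Function.update g a 1 := by
        funext j
        by_cases hj : j = a
        · subst hj
          rw [Pi.mul_apply, Pi.mulSingle_eq_same, Function.update_self, mul_one]
        · rw [Pi.mul_apply, Pi.mulSingle_eq_of_ne hj, Function.update_of_ne hj, one_mul]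
      rw [h2, map_mul, h, one_mul]
      refine ih _ fun j hj => ?_
      by_cases hja : j = a
      · subst hja
        rw [Function.update_self]
      · rw [Function.update_of_ne hja]
        exact hg j (by simp [hja, hj])
  ext g
  rw [MonoidHom.one_apply]
  exact h1 Finset.univ g (by simp)

section field

variable (K : Type) [Field K]

/-- the infinite places -/
abbrev JJ : Type := {w : InfinitePlace K // IsReal w} ⊕ {w : InfinitePlace K // IsComplex w}

/-- the completions -/
abbrev kk : JJ K → Type := Sum.elim (fun _ => ℝ) fun _ => ℂ

noncomputable instance (j : JJ K) : NontriviallyNormedField (kk K j) :=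
  match j with
  | Sum.inl _ => inferInstanceAs (NontriviallyNormedField ℝ)
  | Sum.inr _ => inferInstanceAs (NontriviallyNormedField ℂ)

instance (j : JJ K) : ProperSpace (kk K j) :=
  match j with
  | Sum.inl _ => inferInstanceAs (ProperSpace ℝ)
  | Sum.inr _ => inferInstanceAs (ProperSpace ℂ)

/-- the projections of the mixed space -/
noncomputable def cmp (j : JJ K) : mixedSpace K →+* kk K j :=
  match j with
  | Sum.inl w => (Pi.evalRingHom _ w).comp (RingHom.fst _ _)
  | Sum.inr w => (Pi.evalRingHom _ w).comp (RingHom.snd _ _)

theorem cmp_ext {x y : mixedSpace K} (h : ∀ j, cmp K j x = cmp K j y) : x = y :=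
  Prod.ext (funext fun w => h (Sum.inl w)) (funext fun w => h (Sum.inr w))

theorem cmp_cont (j : JJ K) : Continuous (cmp K j) := by
  rcases j with w | w
  · exact (continuous_apply w).comp continuous_fst
  · exact (continuous_apply w).comp continuous_snd

/-- the element with given components -/
noncomputable def glu (x : ∀ j, kk K j) : mixedSpace K :=
  (fun w => x (Sum.inl w), fun w => x (Sum.inr w))

@[simp] theorem cmp_glu (x : ∀ j, kk K j) (j : JJ K) : cmp K j (glu K x) = x j := by
  rcases j with w | w <;> rfl

theorem glu_cont : Continuous (glu K) :=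
  Continuous.prodMk (continuous_pi fun w => continuous_apply _)
    (continuous_pi fun w => continuous_apply _)

variable (m : Type) [Fintype m] [DecidableEq m]

/-- `SL_m` of the mixed space is the product of the groups `SL_m` of the completions. -/
noncomputable def slE : SpecialLinearGroup m (mixedSpace K) ≃ₜ*
    ∀ j, SpecialLinearGroup m (kk K j) where
  toFun g j := SpecialLinearGroup.map (cmp K j) g
  invFun g := ⟨Matrix.of fun a b => glu K fun j => (g j).1 a b, by
    refine cmp_ext K fun j => ?_
    rw [RingHom.map_det, map_one]
    have : (cmp K j).mapMatrix (Matrix.of fun a b => glu K fun j => (g j).1 a b) = (g j).1 := by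
      ext a b
      simp
    rw [this, (g j).2]⟩
  left_inv g := by
    apply Subtype.ext
    ext1 a b
    refine cmp_ext K fun j => ?_
    show cmp K j (glu K fun j => cmp K j (g.1 a b)) = cmp K j (g.1 a b)
    rw [cmp_glu]
  right_inv g := by
    funext j
    apply Subtype.ext
    ext1 a b
    show cmp K j (glu K fun j => (g j).1 a b) = _
    rw [cmp_glu]
  map_mul' g h := by
    funext j
    exact map_mul _ g h
  continuous_toFun := continuous_pi fun j => (cmp_cont K j).specialLinearGroup_map
  continuous_invFun := by
    refine continuous_induced_rng.2 ?_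
    refine continuous_matrix fun a b => ?_
    show Continuous fun g : ∀ j, SpecialLinearGroup m (kk K j) => glu K fun j => (g j).1 a b
    refine (glu_cont K).comp (continuous_pi fun j => ?_)
    have h1 : Continuous fun g : ∀ j, SpecialLinearGroup m (kk K j) => (g j).1 :=
      continuous_subtype_val.comp (continuous_apply j)
    exact (continuous_apply b).comp ((continuous_apply a).comp h1)

theorem hom_triv [NumberField K] {C : Type*} [CommGroup C]
    (f : SpecialLinearGroup m (mixedSpace K) →* C) : f = 1 := by
  classical
  rcases subsingleton_or_nontrivial m with hm | hm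
  · have hs : Subsingleton (SpecialLinearGroup m (mixedSpace K)) := inferInstance
    ext g
    rw [Subsingleton.elim g 1, map_one, map_one]
  · have h1 : f.comp (slE K m).symm.toMonoidHom = 1 := by
      refine hom_pi_triv _ fun j x => ?_
      have h2 : (f.comp (slE K m).symm.toMonoidHom).comp
          (MonoidHom.mulSingle (fun j => SpecialLinearGroup m (kk K j)) j) = 1 := by
        have h3 : Infinite (kk K j) := NontriviallyNormedField.infinite _
        exact H899.hom_eq_one _
      exact DFunLike.congr_fun h2 x
    ext g
    have h2 := DFunLike.congr_fun h1 (slE K m g)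
    have h3 : (f.comp (slE K m).symm.toMonoidHom) (slE K m g) = f ((slE K m).symm (slE K m g)) :=
      rfl
    rw [h3, ContinuousMulEquiv.symm_apply_apply] at h2
    exact h2

/-- the inverse, place by place -/
noncomputable def iv (x : mixedSpace K) : mixedSpace K :=
  (fun w => (x.1 w)⁻¹, fun w => (x.2 w)⁻¹)

theorem gd_iff {x : mixedSpace K} : Gd (iv K) x ↔ ∀ j, cmp K j x ≠ 0 := by
  constructor
  · intro h j h0
    have h1 := congrArg (cmp K j) h
    rw [map_mul, h0, zero_mul, map_one] at h1
    exact zero_ne_one h1
  · intro h
    refine cmp_ext K fun j => ?_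
    rw [map_mul, map_one]
    rcases j with w | w
    · exact mul_inv_cancel₀ (h (Sum.inl w))
    · exact mul_inv_cancel₀ (h (Sum.inr w))

end field

section meas

variable (K : Type) [Field K] [NumberField K]

theorem meas_iv : Measurable (iv K) := by
  have h1 : Measurable fun x : mixedSpace K => fun w => (x.1 w)⁻¹ :=
    measurable_pi_lambda _ fun w => ((measurable_pi_apply w).comp measurable_fst).inv
  have h2 : Measurable fun x : mixedSpace K => fun w => (x.2 w)⁻¹ :=
    measurable_pi_lambda _ fun w => ((measurable_pi_apply w).comp measurable_snd).inv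
  exact h1.prodMk h2

instance ms_borel : BorelSpace (mixedSpace K) := inferInstance
instance ms_add : MeasurableAdd (mixedSpace K) := inferInstance
instance ms_sc : SecondCountableTopology (mixedSpace K) := inferInstance

instance pi_borel (m : Type) [Fintype m] : BorelSpace (m → mixedSpace K) := Pi.borelSpace

open scoped Classical in
/-- Lebesgue measure of the mixed space -/
noncomputable def vK : Measure (mixedSpace K) := volume

instance : IsAddHaarMeasure (vK K) := by
  classical
  exact inferInstanceAs (IsAddHaarMeasure (volume : Measure (mixedSpace K)))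

theorem null_gd : vK K {u | ¬ Gd (iv K) u} = 0 := by
  classical
  have h1 : {u : mixedSpace K | ¬ Gd (iv K) u} = ⋃ j, {u | cmp K j u = 0} := by
    ext u
    simp only [gd_iff, mem_setOf_eq, mem_iUnion]
    push Not
    rfl
  rw [h1, measure_iUnion_null_iff]
  have key : ∀ {F : Type} [AddCommGroup F] [Module ℝ F] (L : mixedSpace K →ₗ[ℝ] F),
      L 1 ≠ 0 → vK K {u | L u = 0} = 0 := by
    intro F _ _ L hL
    have h2 := Measure.addHaar_submodule (vK K) (LinearMap.ker L)
      (fun h => hL (by
        have : (1 : mixedSpace K) ∈ LinearMap.ker L := by rw [h]; trivial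
        exact this))
    exact h2
  rintro (w | w)
  · exact key ((LinearMap.proj w).comp (LinearMap.fst ℝ _ _)) one_ne_zero
  · exact key ((LinearMap.proj w).comp (LinearMap.snd ℝ _ _)) one_ne_zero

/-- the linear map of a matrix over the mixed space -/
noncomputable def lm {m : Type} [Fintype m] (M : Matrix m m (mixedSpace K)) :
    (m → mixedSpace K) →ₗ[ℝ] (m → mixedSpace K) where
  toFun x := M *ᵥ x
  map_add' x y := Matrix.mulVec_add _ _ _
  map_smul' c x := by
    rw [Matrix.mulVec_smul]
    rfl

theorem vol_pres (m : Type) [Fintype m] [DecidableEq m]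
    (g : SpecialLinearGroup m (mixedSpace K)) :
    MeasurePreserving (fun x : m → mixedSpace K => g.1 *ᵥ x)
      (Measure.pi fun _ => vK K) (Measure.pi fun _ => vK K) := by
  have hH : IsAddHaarMeasure (Measure.pi fun _ : m => vK K) := Measure.pi.isAddHaarMeasure _
  classical
  have h0 : ∀ g h : SpecialLinearGroup m (mixedSpace K),
      lm K (g * h).1 = (lm K g.1) * (lm K h.1) := by
    intro g h
    refine LinearMap.ext fun x => ?_
    exact mul_mulVec g h x
  have h00 : lm K (1 : SpecialLinearGroup m (mixedSpace K)).1 = 1 := by
    refine LinearMap.ext fun x => ?_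
    show (1 : Matrix m m (mixedSpace K)) *ᵥ x = x
    rw [Matrix.one_mulVec]
  obtain ⟨φ, hφ⟩ : ∃ φ : SpecialLinearGroup m (mixedSpace K) →* ℝ,
      ∀ g, φ g = LinearMap.det (lm K g.1) :=
    ⟨{ toFun := fun g => LinearMap.det (lm K g.1)
       map_one' := by rw [h00, map_one]
       map_mul' := fun g h => by rw [h0, map_mul] }, fun _ => rfl⟩
  have h1 : LinearMap.det (lm K g.1) = 1 := by
    have h2 := DFunLike.congr_fun (hom_triv K m φ.toHomUnits) g
    have h3 := congrArg Units.val h2
    rw [MonoidHom.coe_toHomUnits, hφ] at h3
    exact h3
  have hc : Continuous fun x : m → mixedSpace K => g.1 *ᵥ x :=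
    Continuous.matrix_mulVec continuous_const continuous_id
  refine ⟨hc.measurable, ?_⟩
  have h4 := Measure.map_linearMap_addHaar_eq_smul_addHaar
    (Measure.pi fun _ : m => vK K) (f := lm K g.1) (by rw [h1]; norm_num)
  rw [h1, inv_one, abs_one, ENNReal.ofReal_one, one_smul] at h4
  exact h4

theorem rh : RH (mixedSpace K) (vK K) (iv K) :=
  ⟨meas_iv K, null_gd K, fun m _ _ g => vol_pres K m g⟩


end meas

end Vale.Agent.P092.H677.OK
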