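import Vale.Agent.P092.H677.FFb
import Vale.Agent.P092.H677.OKc
import Vale.Agent.P092.H678.SLt
import Vale.Agent.P092.H259.Grp
import Vale.Agent.P092.H259.Lat
import Vale.Agent.P092.UN.StA
import Vale.Agent.P092.UN.Eqv

/-!
P092 (helper677), [FF-LAT], part 3: strong approximation for `SL_n` at the places of `S`.
-/

set_option linter.all false

open Matrix IsDedekindDomain Filter Topology
open scoped NNReal nonZeroDivisors Polynomial
open Vale.Agent.P092.H677.OK (sl_emb sl_t2 sl_lc sl_sc sl_pol hom_pi_triv)

namespace Vale.Agent.P092.H677.FF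

section strong

variable (F : Type) [Field F] [Finite F] (S : Set (HeightOneSpectrum F[X]))

/-- from the `S`-integers to the completion at `v ∈ S` -/
noncomputable def of (v : S) : S.integer (RatFunc F) →+* Kv F v :=
  (ev F v).comp (algebraMap (S.integer (RatFunc F)) (RatFunc F))

/-- `SL_n` of the `S`-integers in the product over `S` -/
noncomputable def q2 (n : ℕ) : SpecialLinearGroup (Fin n) (S.integer (RatFunc F)) →*
    ∀ v : S, SpecialLinearGroup (Fin n) (Kv F v) :=
  MonoidHom.pi fun v => SpecialLinearGroup.map (of F S v)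

/-- the matrices with entries of norm `≤ 1` -/
def UU (n : ℕ) (v : HeightOneSpectrum F[X]) : Set (SpecialLinearGroup (Fin n) (Kv F v)) :=
  {g | ∀ i j, ‖g.1 i j‖ ≤ 1}

theorem UU_open (n : ℕ) (v : HeightOneSpectrum F[X]) : IsOpen (UU F n v) := by
  rw [UU, Set.setOf_forall]
  refine isOpen_iInter_of_finite fun i => ?_
  rw [Set.setOf_forall]
  refine isOpen_iInter_of_finite fun j => ?_
  have h0 : Continuous fun x : SpecialLinearGroup (Fin n) (Kv F v) => x.1 i j :=
    (continuous_subtype_val (p := fun M : Matrix (Fin n) (Fin n) (Kv F v) =>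
      M.det = 1)).matrix_elem i j
  have h1 : IsOpen (Metric.closedBall (0 : Kv F v) 1) :=
    IsUltrametricDist.isOpen_closedBall _ one_ne_zero
  have h2 := h1.preimage h0
  refine (congrArg IsOpen ?_).mp h2
  ext x
  rw [Set.mem_preimage, mem_closedBall_zero_iff]
  rfl

theorem UU_cpt (n : ℕ) (v : HeightOneSpectrum F[X]) : IsCompact (UU F n v) := by
  have h1 : IsCompact {M : Matrix (Fin n) (Fin n) (Kv F v) | ∀ i j, ‖M i j‖ ≤ 1} := by
    have h2 : IsCompact (Set.pi Set.univ fun _ : Fin n => Set.pi Set.univ fun _ : Fin n =>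
        Metric.closedBall (0 : Kv F v) 1) :=
      isCompact_univ_pi fun _ => isCompact_univ_pi fun _ => cpt_ball F v
    refine (congrArg IsCompact ?_).mp h2
    ext M
    simp only [Set.mem_pi, Set.mem_univ, forall_true_left, mem_closedBall_zero_iff]
    exact Iff.rfl
  have h3 := (sl_emb (m := Fin n) (A := Kv F v)).isCompact_preimage h1
  exact h3

theorem norm_sum_le {v : HeightOneSpectrum F[X]} {ι : Type} (s : Finset ι) (f : ι → Kv F v)
    (h : ∀ i ∈ s, ‖f i‖ ≤ 1) : ‖∑ i ∈ s, f i‖ ≤ 1 := by
  classical
  induction s using Finset.induction_on with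
  | empty => simp
  | insert a s ha ih =>
    rw [Finset.sum_insert ha]
    exact (kv_add F v _ _).trans (max_le (h a (by simp)) (ih fun i hi => h i (by simp [hi])))

theorem UU_mul {n : ℕ} {v : HeightOneSpectrum F[X]} {g h : SpecialLinearGroup (Fin n) (Kv F v)}
    (hg : g ∈ UU F n v) (hh : h ∈ UU F n v) : g * h ∈ UU F n v := by
  intro i j
  show ‖(g.1 * h.1) i j‖ ≤ 1
  rw [Matrix.mul_apply]
  refine norm_sum_le F _ _ fun k _ => ?_
  rw [norm_mul]
  exact mul_le_one₀ (hg i k) (norm_nonneg _) (hh k j)

theorem UU_one (n : ℕ) (v : HeightOneSpectrum F[X]) : (1 : SpecialLinearGroup (Fin n) (Kv F v)) ∈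
    UU F n v := by
  intro i j
  show ‖(1 : Matrix (Fin n) (Fin n) (Kv F v)) i j‖ ≤ 1
  by_cases h : i = j
  · subst h; rw [one_apply_eq, norm_one]
  · rw [one_apply_ne h, norm_zero]; exact zero_le_one

theorem UU_int (n : ℕ) (v : HeightOneSpectrum F[X]) (δ : SpecialLinearGroup (Fin n) F[X]) :
    SpecialLinearGroup.map ((ev F v).comp (algebraMap F[X] (RatFunc F))) δ ∈ UU F n v := by
  intro i j
  show ‖ev F v (algebraMap F[X] (RatFunc F) (δ.1 i j))‖ ≤ 1
  rw [norm_ev]
  exact av_int F v _

theorem tr_cont {n : ℕ} {A : Type} [CommRing A] [TopologicalSpace A] [IsTopologicalRing A]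
    {i j : Fin n} (hij : i ≠ j) :
    Continuous fun c : A => SpecialLinearGroup.transvection hij c := by
  refine continuous_induced_rng.2 ?_
  refine continuous_matrix fun a b => ?_
  show Continuous fun c : A => (Matrix.transvection i j c) a b
  simp only [Matrix.transvection, Matrix.add_apply]
  refine continuous_const.add ?_
  by_cases h : i = a ∧ j = b
  · simp only [Matrix.single, Matrix.of_apply, h, and_self, if_true]
    exact continuous_id
  · simp only [Matrix.single, Matrix.of_apply, h, if_false]
    exact continuous_const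

/-- **Strong approximation** at the places of `S`. -/
theorem strong [Finite S] (n : ℕ) : (q2 F S (n + 2)).range.topologicalClosure = ⊤ := by
  classical
  haveI : Fintype S := Fintype.ofFinite _
  obtain ⟨H, hH⟩ : ∃ H, H = (q2 F S (n + 2)).range.topologicalClosure := ⟨_, rfl⟩
  have h1 : ∀ v : S, H.comap
      (MonoidHom.mulSingle (fun v : S => SpecialLinearGroup (Fin (n + 2)) (Kv F v)) v) = ⊤ := by
    intro v
    refine H899.eq_top_of_e _ fun i j hij c => ?_
    rw [Subgroup.mem_comap]
    -- approximate
    have h2 : (Pi.mulSingle v (SpecialLinearGroup.transvection hij c) :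
        ∀ v : S, SpecialLinearGroup (Fin (n + 2)) (Kv F v)) ∈
        closure (Set.range fun y : S.integer (RatFunc F) => fun w : S =>
          SpecialLinearGroup.transvection hij (of F S w y)) := by
      have h3 : (Pi.single v c : ∀ w : S, Kv F w) ∈
          closure (Set.range fun y : S.integer (RatFunc F) => fun w : S => of F S w y) := by
        rw [Metric.mem_closure_iff]
        intro ε hε
        obtain ⟨y, hy⟩ := approx_S F S (Pi.single v c) hε
        refine ⟨_, ⟨y, rfl⟩, ?_⟩
        rw [dist_pi_lt_iff hε]
        intro w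
        rw [dist_eq_norm]
        exact hy w
      have h4 : Continuous fun x : ∀ w : S, Kv F w => fun w : S =>
          (SpecialLinearGroup.transvection hij (x w) :
            SpecialLinearGroup (Fin (n + 2)) (Kv F w)) :=
        continuous_pi fun w => (tr_cont hij).comp (continuous_apply w)
      have h5 := image_closure_subset_closure_image h4 ⟨_, h3, rfl⟩
      rw [← Set.range_comp] at h5
      have h6 : (fun w : S => (SpecialLinearGroup.transvection hij
          ((Pi.single v c : ∀ w : S, Kv F w) w) : SpecialLinearGroup (Fin (n + 2)) (Kv F w))) =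
          Pi.mulSingle v (SpecialLinearGroup.transvection hij c) := by
        funext w
        by_cases hw : w = v
        · subst hw
          rw [Pi.single_eq_same, Pi.mulSingle_eq_same]
        · rw [Pi.single_eq_of_ne hw, Pi.mulSingle_eq_of_ne hw]
          apply Subtype.ext
          show Matrix.transvection i j (0 : Kv F w) = 1
          rw [Matrix.transvection, Matrix.single_zero, add_zero]
      rw [← h6]
      exact h5
    rw [hH]
    refine closure_mono ?_ h2
    rintro _ ⟨y, rfl⟩
    refine ⟨SpecialLinearGroup.transvection hij y, ?_⟩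
    funext w
    apply Subtype.ext
    show (Matrix.transvection i j y).map (of F S w) = Matrix.transvection i j (of F S w y)
    ext a b
    simp only [Matrix.transvection, Matrix.map_apply, Matrix.add_apply, map_add]
    congr 1
    · by_cases hab : a = b
      · subst hab; rw [one_apply_eq, one_apply_eq, map_one]
      · rw [one_apply_ne hab, one_apply_ne hab, map_zero]
    · by_cases h : i = a ∧ j = b
      · simp only [Matrix.single, Matrix.of_apply, h, and_self, if_true]
      · simp only [Matrix.single, Matrix.of_apply, h, if_false, map_zero]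
  rw [← hH, eq_top_iff]
  intro x _
  refine Subgroup.pi_mem_of_mulSingle_mem x fun v => ?_
  have h2 : x v ∈ H.comap
      (MonoidHom.mulSingle (fun v : S => SpecialLinearGroup (Fin (n + 2)) (Kv F v)) v) := by
    rw [h1]; exact Subgroup.mem_top _
  exact h2

theorem strong' [Finite S] (n : ℕ) (y : ∀ v : S, SpecialLinearGroup (Fin (n + 2)) (Kv F v)) :
    ∃ γ : SpecialLinearGroup (Fin (n + 2)) (S.integer (RatFunc F)), ∀ v : S,
      y v * q2 F S (n + 2) γ v ∈ UU F (n + 2) v := by
  have h1 : IsOpen {g : ∀ v : S, SpecialLinearGroup (Fin (n + 2)) (Kv F v) |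
      ∀ v : S, y v * g v ∈ UU F (n + 2) v} := by
    rw [Set.setOf_forall]
    refine isOpen_iInter_of_finite fun v => ?_
    exact (UU_open F (n + 2) v).preimage (continuous_const.mul (continuous_apply v))
  have h2 : y⁻¹ ∈ closure ((q2 F S (n + 2)).range :
      Set (∀ v : S, SpecialLinearGroup (Fin (n + 2)) (Kv F v))) := by
    have h3 : y⁻¹ ∈ (q2 F S (n + 2)).range.topologicalClosure := by
      rw [strong]; exact Subgroup.mem_top _
    exact h3
  obtain ⟨_, hx, ⟨γ, rfl⟩⟩ := mem_closure_iff.1 h2 _ h1 (fun v => by
    rw [Pi.inv_apply, mul_inv_cancel]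
    exact UU_one F _ _)
  exact ⟨γ, hx⟩

end strong

end Vale.Agent.P092.H677.FF
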