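import Vale.Agent.P092.H677.FFc

/-!
P092 (helper677), [FF-LAT], part 4: for every finite field `F`, every finite set `S` of primes of
`F[x]` and `n ≥ 3` the group `PSL_n` of the `S`-integers of `F(x)` is in the class `LatticeA`.
-/

set_option linter.all false

open Matrix IsDedekindDomain Filter Topology MeasureTheory MeasureTheory.Measure Set
open scoped NNReal ENNReal nonZeroDivisors Polynomial
open Vale.Agent.P092.H677.OK (sl_emb sl_t2 sl_lc sl_sc sl_pol hom_pi_triv)
open Vale.Agent.P092.H678 (LS psi psi_inj empt empt_inj isLattice_empt)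

namespace Vale.Agent.P092.H677.FF

section lat

variable (F : Type) [Field F] [Finite F] (S : Set (HeightOneSpectrum F[X]))

attribute [local instance] sl_t2 sl_lc sl_sc sl_pol

/-- the embedding of `F(x)` in `F((1/x))` -/
noncomputable def pK : RatFunc F →+* LS F := IsFractionRing.lift (psi_inj (F := F))

theorem pK_alg (a : F[X]) : pK F (algebraMap F[X] (RatFunc F) a) = psi a :=
  IsFractionRing.lift_algebraMap _ a

/-- `SL_n` of the `S`-integers in `SL_n(F((1/x)))` -/
noncomputable def q1 (n : ℕ) : SpecialLinearGroup (Fin n) (S.integer (RatFunc F)) →*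
    SpecialLinearGroup (Fin n) (LS F) :=
  SpecialLinearGroup.map ((pK F).comp (algebraMap (S.integer (RatFunc F)) (RatFunc F)))

/-- from `SL_n(F[x])` to `SL_n` of the `S`-integers -/
noncomputable def qO (n : ℕ) : SpecialLinearGroup (Fin n) F[X] →*
    SpecialLinearGroup (Fin n) (S.integer (RatFunc F)) :=
  SpecialLinearGroup.map (algebraMap F[X] (S.integer (RatFunc F)))

theorem q1_qO (n : ℕ) (δ : SpecialLinearGroup (Fin n) F[X]) :
    q1 F S n (qO F S n δ) = empt n F δ := by
  apply Subtype.ext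
  ext i j
  exact pK_alg F _

theorem q2_qO (n : ℕ) (δ : SpecialLinearGroup (Fin n) F[X]) (v : S) :
    q2 F S n (qO F S n δ) v ∈ UU F n v := UU_int F n v δ

theorem alg_inj : Function.Injective (algebraMap F[X] (S.integer (RatFunc F))) := by
  intro x y hxy
  apply RatFunc.algebraMap_injective F
  exact congrArg (fun z : S.integer (RatFunc F) => (z : RatFunc F)) hxy

theorem int_sl {n : ℕ} {γ : SpecialLinearGroup (Fin n) (S.integer (RatFunc F))}
    (h : ∀ v : S, q2 F S n γ v ∈ UU F n v) : ∃ δ, qO F S n δ = γ := by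
  have h1 : ∀ i j, ∃ a : F[X], algebraMap F[X] (RatFunc F) a =
      (γ.1 i j : S.integer (RatFunc F)) := fun i j =>
    int_of F (γ.1 i j) fun v => h v i j
  choose a ha using h1
  have h2 : ∀ i j, algebraMap F[X] (S.integer (RatFunc F)) (a i j) = γ.1 i j := fun i j =>
    Subtype.ext (ha i j)
  have h3 : (Matrix.of a).map (algebraMap F[X] (S.integer (RatFunc F))) = γ.1 := by
    ext i j
    simp [h2]
  refine ⟨⟨Matrix.of a, alg_inj F S ?_⟩, Subtype.ext h3⟩
  rw [RingHom.map_det, map_one, RingHom.mapMatrix_apply, h3, γ.2]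

/-- the embedding -/
noncomputable def q12 (n : ℕ) : SpecialLinearGroup (Fin n) (S.integer (RatFunc F)) →*
    SpecialLinearGroup (Fin n) (LS F) × ∀ v : S, SpecialLinearGroup (Fin n) (Kv F v) :=
  (q1 F S n).prod (q2 F S n)

theorem lat_em (n : ℕ) : H515.IsLattice (empt (n + 2) F).range :=
  have h := isLattice_empt (n + 2) F (by omega)
  ⟨h.disc, h.covol⟩

theorem q12_disc [Finite S] (n : ℕ) : DiscreteTopology (q12 F S (n + 2)).range := by
  have h0 := (lat_em F n).disc
  have h1 : IsOpen ({1} : Set (empt (n + 2) F).range) := isOpen_discrete _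
  obtain ⟨W, hW, hW'⟩ := isOpen_induced_iff.1 h1
  have hW1 : (1 : SpecialLinearGroup (Fin (n + 2)) (LS F)) ∈ W := by
    have : (1 : (empt (n + 2) F).range) ∈ Subtype.val ⁻¹' W := by
      rw [hW']; rfl
    exact this
  refine discreteTopology_of_isOpen_singleton_one ?_
  rw [isOpen_induced_iff]
  refine ⟨W ×ˢ {y | ∀ v : S, y v ∈ UU F (n + 2) v}, hW.prod ?_, ?_⟩
  · rw [setOf_forall]
    exact isOpen_iInter_of_finite fun v => (UU_open F (n + 2) v).preimage (continuous_apply v)
  · ext ⟨x, γ, hγ⟩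
    constructor
    · rintro ⟨hx1, hx2⟩
      subst hγ
      obtain ⟨δ, rfl⟩ := int_sl F S (γ := γ) hx2
      have h2 : empt (n + 2) F δ ∈ W := by
        rw [← q1_qO F S]
        exact hx1
      have h3 : (⟨empt (n + 2) F δ, δ, rfl⟩ : (empt (n + 2) F).range) ∈ Subtype.val ⁻¹' W := h2
      rw [hW'] at h3
      have h4 : empt (n + 2) F δ = 1 := congrArg Subtype.val h3
      have h5 : δ = 1 := empt_inj (by rw [h4, map_one])
      subst h5
      rw [mem_singleton_iff]
      apply Subtype.ext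
      show q12 F S (n + 2) (qO F S (n + 2) 1) = 1
      rw [map_one, map_one]
    · intro hx
      rw [mem_singleton_iff] at hx
      have hx' : x = 1 := congrArg Subtype.val hx
      show x ∈ W ×ˢ {y | ∀ v : S, y v ∈ UU F (n + 2) v}
      rw [hx']
      exact ⟨hW1, fun v => UU_one F _ _⟩

theorem hom_triv2 [Finite S] (n : ℕ) (f : (SpecialLinearGroup (Fin (n + 2)) (LS F) ×
      ∀ v : S, SpecialLinearGroup (Fin (n + 2)) (Kv F v)) →* (ℝ≥0)ˣ) : f = 1 := by
  classical
  haveI : Fintype S := Fintype.ofFinite _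
  have h1 : f.comp (MonoidHom.inl _ _) = 1 := by
    have h3 : Infinite (LS F) := NontriviallyNormedField.infinite _
    exact H899.hom_eq_one _
  have h2 : f.comp (MonoidHom.inr _ _) = 1 := by
    refine hom_pi_triv _ fun v x => ?_
    have h2 : (f.comp (MonoidHom.inr _ _)).comp
        (MonoidHom.mulSingle (fun v : S => SpecialLinearGroup (Fin (n + 2)) (Kv F v)) v) = 1 := by
      have h3 : Infinite (Kv F v) := NontriviallyNormedField.infinite _
      exact H899.hom_eq_one _
    exact DFunLike.congr_fun h2 x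
  refine MonoidHom.ext fun x => ?_
  have h3 : x = (x.1, 1) * (1, x.2) := by
    rw [Prod.mk_mul_mk, mul_one, one_mul]
  have h4 : f (x.1, 1) = 1 := DFunLike.congr_fun h1 x.1
  have h5 : f (1, x.2) = 1 := DFunLike.congr_fun h2 x.2
  rw [h3, map_mul, h4, h5, mul_one]
  rfl

theorem lat_q12 [Finite S] (n : ℕ) : H515.IsLattice (q12 F S (n + 2)).range := by
  haveI := q12_disc F S n
  borelize (SpecialLinearGroup (Fin (n + 2)) (LS F))
  borelize (∀ v : S, SpecialLinearGroup (Fin (n + 2)) (Kv F v))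
  obtain ⟨μ₁, hμ₁⟩ : ∃ μ : Measure (SpecialLinearGroup (Fin (n + 2)) (LS F)),
    μ = haar := ⟨_, rfl⟩
  obtain ⟨μ₂, hμ₂⟩ : ∃ μ : Measure (∀ v : S, SpecialLinearGroup (Fin (n + 2)) (Kv F v)),
    μ = haar := ⟨_, rfl⟩
  haveI hH₁ : IsHaarMeasure μ₁ := by rw [hμ₁]; infer_instance
  haveI hH₂ : IsHaarMeasure μ₂ := by rw [hμ₂]; infer_instance
  haveI hr : IsMulRightInvariant (μ₁.prod μ₂) :=
    H515.rightInv_of_modChar _ (H515.modChar_of_perfect (hom_triv2 F S n))
  obtain ⟨E, -, hF, -, hFc, -⟩ := H515.IsLattice.exists_fdom_right μ₁ (lat_em F n)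
  have hU : IsCompact (Set.pi univ fun v : S => UU F (n + 2) v) :=
    isCompact_univ_pi fun v => UU_cpt F (n + 2) v
  refine H515.isLattice_of_cover _ (μ₁.prod μ₂)
    (F := E ×ˢ (Set.pi univ fun v : S => UU F (n + 2) v)) ?_ fun x => ?_
  · rw [Measure.prod_prod]
    exact ENNReal.mul_lt_top hF hU.measure_lt_top
  · obtain ⟨γ, hγ⟩ := strong' F S n x.2
    obtain ⟨⟨_, δ, rfl⟩, hδ, -⟩ := hFc (x.1 * q1 F S (n + 2) γ)
    refine ⟨⟨q12 F S (n + 2) (γ * qO F S (n + 2) δ), _, rfl⟩, ?_, ?_⟩
    · show x.1 * q1 F S (n + 2) (γ * qO F S (n + 2) δ) ∈ E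
      rw [map_mul, ← mul_assoc, q1_qO]
      exact hδ
    · intro v _
      show x.2 v * q2 F S (n + 2) (γ * qO F S (n + 2) δ) v ∈ UU F (n + 2) v
      rw [map_mul, Pi.mul_apply, ← mul_assoc]
      exact UU_mul F (hγ v) (q2_qO F S (n + 2) δ v)

end lat

end Vale.Agent.P092.H677.FF
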