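import Vale.Agent.P092.H677.FFd

/-!
P092 (helper677), [FF-LAT], part 5: `SL_n` of the `S`-integers of `F(x)` is a lattice in the product of
the groups `SL_n` of the completions; `PSL_n`, `n ≥ 3`, is in the class `LatticeA`.
-/

set_option linter.all false

open Matrix Set Filter Topology IsDedekindDomain
open scoped Polynomial
open Vale.Agent.P092.H677.OK (sl_emb sl_t2 sl_lc sl_sc sl_pol hom_pi_triv)
open Vale.Agent.P092.H678 (LS psi psi_inj empt empt_inj isLattice_empt)

namespace Vale.Agent.P092.H677.FF

variable (F : Type) [Field F] [Finite F] (S : Set (HeightOneSpectrum F[X]))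

attribute [local instance] sl_t2 sl_lc sl_sc sl_pol

/-- the places -/
abbrev II : Type := Unit ⊕ S

/-- the completions -/
def KK (i : II F S) : Type := Sum.elim (fun _ : Unit => LS F) (fun v : S => Kv F v) i

noncomputable instance (i : II F S) : NontriviallyNormedField (KK F S i) :=
  match i with
  | Sum.inl _ => inferInstanceAs (NontriviallyNormedField (LS F))
  | Sum.inr v => inferInstanceAs (NontriviallyNormedField (Kv F v))

instance (i : II F S) : ProperSpace (KK F S i) :=
  match i with
  | Sum.inl _ => inferInstanceAs (ProperSpace (LS F))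
  | Sum.inr v => inferInstanceAs (ProperSpace (Kv F v))

instance (i : II F S) : IsUltrametricDist (KK F S i) :=
  match i with
  | Sum.inl _ => inferInstanceAs (IsUltrametricDist (LS F))
  | Sum.inr v => inferInstanceAs (IsUltrametricDist (Kv F v))

theorem locK_KK (i : II F S) : UN.LocK (KK F S i) := UN.LocK.ultra inferInstance

/-- from the `S`-integers to the completions -/
noncomputable def oi (i : II F S) : S.integer (RatFunc F) →+* KK F S i :=
  match i with
  | Sum.inl _ => (pK F).comp (algebraMap (S.integer (RatFunc F)) (RatFunc F))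
  | Sum.inr v => of F S v

theorem oi_inj (i : II F S) : Function.Injective (oi F S i) := by
  have h0 : Function.Injective (algebraMap (S.integer (RatFunc F)) (RatFunc F)) :=
    Subtype.val_injective
  rcases i with j | v
  · have h : Function.Injective (pK F) := RingHom.injective _
    exact h.comp h0
  · exact (ev_inj F v).comp h0

/-- `SL_n` of the `S`-integers in the product of the groups `SL_n` of the completions -/
noncomputable def embS (n : ℕ) : SpecialLinearGroup (Fin n) (S.integer (RatFunc F)) →*
    ∀ i, SpecialLinearGroup (Fin n) (KK F S i) :=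
  MonoidHom.pi fun i => SpecialLinearGroup.map (oi F S i)

theorem embS_inj (n : ℕ) : Function.Injective (embS F S n) := by
  intro g h hgh
  have h1 := congrFun hgh (Sum.inl ())
  apply Subtype.ext
  ext1 a b
  apply oi_inj F S (Sum.inl ())
  exact congrArg (fun x : SpecialLinearGroup (Fin n) (KK F S (Sum.inl ())) => x.1 a b) h1

/-- the splitting of the product -/
noncomputable def spl (n : ℕ) : (SpecialLinearGroup (Fin n) (LS F) ×
      ∀ v : S, SpecialLinearGroup (Fin n) (Kv F v)) ≃*
    ∀ i, SpecialLinearGroup (Fin n) (KK F S i) where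
  toFun x i := match i with
    | Sum.inl _ => x.1
    | Sum.inr v => x.2 v
  invFun y := (y (Sum.inl ()), fun v => y (Sum.inr v))
  left_inv x := rfl
  right_inv y := by funext i; rcases i with j | v <;> rfl
  map_mul' x y := by funext i; rcases i with j | v <;> rfl

theorem spl_cont (n : ℕ) : Continuous (spl F S n) := by
  refine continuous_pi fun i => ?_
  rcases i with j | v
  · exact continuous_fst
  · exact (continuous_apply v).comp continuous_snd

theorem spl_symm_cont (n : ℕ) : Continuous (spl F S n).symm :=
  Continuous.prodMk (continuous_apply (Sum.inl () : II F S))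
    (continuous_pi fun v => continuous_apply (Sum.inr v : II F S))

theorem spl_q12 (n : ℕ) (γ : SpecialLinearGroup (Fin n) (S.integer (RatFunc F))) :
    spl F S n (q12 F S n γ) = embS F S n γ := by
  funext i
  rcases i with j | v <;> rfl

/-- **`SL_n` of the `S`-integers of `F(x)` is a lattice of the product of the groups `SL_n` of the
completions at the infinite place and the places of `S`.** -/
theorem lat_embS [Finite S] (n : ℕ) : H515.IsLattice (embS F S (n + 2)).range := by
  have h2 := H515.IsLattice.map_equiv (spl F S (n + 2)) (spl_cont F S _) (spl_symm_cont F S _)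
    (lat_q12 F S n)
  have h3 : (q12 F S (n + 2)).range.map ((spl F S (n + 2) : _ ≃* _) : _ →* _) =
      (embS F S (n + 2)).range := by
    ext x
    constructor
    · rintro ⟨_, ⟨γ, rfl⟩, rfl⟩
      exact ⟨γ, (spl_q12 F S _ γ).symm⟩
    · rintro ⟨γ, rfl⟩
      exact ⟨_, ⟨γ, rfl⟩, spl_q12 F S _ γ⟩
  rw [← h3]
  exact h2

/-- `PSL_n` of the `S`-integers in the product of the groups `PSL_n` of the completions -/
noncomputable def pembS (n : ℕ) : H259.PQ (SpecialLinearGroup (Fin n) (S.integer (RatFunc F))) →*
    ∀ i, H259.PQ (SpecialLinearGroup (Fin n) (KK F S i)) :=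
  MonoidHom.pi fun i => H387.N.pmap (oi F S i) n

theorem pembS_inj (n : ℕ) : Function.Injective (pembS F S n) := by
  rw [injective_iff_map_eq_one]
  intro g h
  obtain ⟨x, rfl⟩ := QuotientGroup.mk'_surjective _ g
  have h1 : QuotientGroup.mk' _ (SpecialLinearGroup.map (oi F S (Sum.inl ())) x) =
      (1 : H259.PQ (SpecialLinearGroup (Fin n) (KK F S (Sum.inl ())))) := congrFun h (Sum.inl ())
  exact (QuotientGroup.eq_one_iff x).2
    (H387.N.mem_center_of_map _ (oi_inj F S (Sum.inl ())) ((QuotientGroup.eq_one_iff _).1 h1))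

theorem lat_pembS [Finite S] (n : ℕ) : H515.St.IsLattice (pembS F S (n + 2)).range := by
  have h0 := lat_embS F S n
  obtain ⟨π, hπ⟩ : ∃ π : (∀ i, SpecialLinearGroup (Fin (n + 2)) (KK F S i)) →*
      ∀ i, H259.PQ (SpecialLinearGroup (Fin (n + 2)) (KK F S i)),
      π = MonoidHom.pi fun i => (H259.pq _).comp (Pi.evalMonoidHom _ i) := ⟨_, rfl⟩
  have hfin : ∀ i, Finite (Subgroup.center (SpecialLinearGroup (Fin (n + 2)) (KK F S i))) :=
    fun i => H387.N.finite_center.to_subtype
  have hcl : ∀ i, IsClosed ((Subgroup.center (SpecialLinearGroup (Fin (n + 2)) (KK F S i)) :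
      Subgroup _) : Set (SpecialLinearGroup (Fin (n + 2)) (KK F S i))) :=
    fun i => H387.N.finite_center.isClosed
  have hp : IsProperMap π := by
    rw [hπ]
    exact IsProperMap.pi_map fun i => H259.isProperMap_pq (hfin i)
  have hs : Function.Surjective π := by
    rw [hπ]
    intro y
    choose x hx using fun i => QuotientGroup.mk'_surjective _ (y i)
    exact ⟨x, funext hx⟩
  have hr : (embS F S (n + 2)).range.map π = (pembS F S (n + 2)).range := by
    ext x
    constructor
    · rintro ⟨_, ⟨g, rfl⟩, rfl⟩
      exact ⟨QuotientGroup.mk' _ g, by rw [hπ]; rfl⟩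
    · rintro ⟨g, rfl⟩
      obtain ⟨y, rfl⟩ := QuotientGroup.mk'_surjective _ g
      exact ⟨_, ⟨y, rfl⟩, by rw [hπ]; rfl⟩
  rw [← hr]
  exact H259.isLattice_map hp hs ⟨h0.disc, h0.covol⟩

instance : Infinite (S.integer (RatFunc F)) := Infinite.of_injective _ (alg_inj F S)

/-- **`PSL_n` of the `S`-integers of `F(x)`, `F` a finite field, `S` a finite set of primes of
`F[x]`, `n ≥ 3`, is in the class `LatticeA`.** -/
theorem latticeA_FF (hS : S.Finite) {n : ℕ} (hn : 3 ≤ n) :
    UN.LatticeA (SpecialLinearGroup (Fin n) (S.integer (RatFunc F)) ⧸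
      Subgroup.center (SpecialLinearGroup (Fin n) (S.integer (RatFunc F)))) := by
  haveI := hS.to_subtype
  obtain ⟨n, rfl⟩ : ∃ m, n = m + 2 := ⟨n - 2, by omega⟩
  refine ⟨fun g hg => H678.icc_psl g hg, II F S, Fintype.ofFinite _,
    fun i => H259.PQ (SpecialLinearGroup (Fin (n + 2)) (KK F S i)), inferInstance, inferInstance,
    pembS F S (n + 2), fun i => ?_, pembS_inj F S _, (UN.isLattice_iff _).2 (lat_pembS F S n)⟩
  exact ⟨KK F S i, inferInstance, n + 2, inferInstance, locK_KK F S i, hn, H259.pq _,
    isQuotientMap_quotient_mk', by rw [QuotientGroup.ker_mk']⟩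

end Vale.Agent.P092.H677.FF
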