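import Vale.Agent.P092.H677.FFe
import Vale.Agent.P092.H678.P.EuQ

/-!
P092 (helper677), [FF-LAT], part 6: if `S` is not empty, the `S`-integers of `F(x)` are dense in every
completion.
-/

set_option linter.all false

open Matrix Set Filter Topology IsDedekindDomain
open scoped Polynomial
open Vale.Agent.P092.H678 (LS psi psi_inj)

namespace Vale.Agent.P092.H677.FF

variable (F : Type) [Field F] [Finite F] (S : Set (HeightOneSpectrum F[X]))

theorem norm_psi_gt {t : F[X]} (h0 : t ≠ 0) (hu : ¬ IsUnit t) : 1 < ‖psi t‖ := by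
  have h1 := (H678.P.coc_poly F).disc t h0
  refine lt_of_le_of_ne h1 fun h2 => hu ?_
  have h3 : ‖psi t‖ ≤ 1 := h2.symm.le
  rw [H678.norm_le_one_iff] at h3
  have h4 : ∀ d : ℕ, d ≠ 0 → t.coeff d = 0 := by
    intro d hd
    rw [← H678.P.cf_psi_nat]
    exact h3 _ (by omega)
  have h5 : t = Polynomial.C (t.coeff 0) := by
    ext d
    rw [Polynomial.coeff_C]
    split_ifs with h
    · rw [h]
    · exact h4 d h
  rw [h5]
  have h6 : t.coeff 0 ≠ 0 := by
    intro h
    rw [h, map_zero] at h5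
    exact h0 h5
  exact Polynomial.isUnit_C.2 (isUnit_iff_ne_zero.2 h6)

theorem oi_inl (y : S.integer (RatFunc F)) : oi F S (Sum.inl ()) y = pK F (y : RatFunc F) := rfl

theorem dense_inl (hS : S.Nonempty) : DenseRange (oi F S (Sum.inl ())) := by
  obtain ⟨v, hv⟩ := hS
  obtain ⟨t, ht0, ht1, ht2⟩ := exists_t1 F v
  have hu : ¬ IsUnit t := fun h => v.isPrime.ne_top (Ideal.eq_top_of_isUnit_mem _ ht1 h)
  have h1 := norm_psi_gt F ht0 hu
  have hT : algebraMap F[X] (RatFunc F) t ≠ 0 := by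
    rw [Ne, ai_zero]; exact ht0
  rw [DenseRange, Metric.dense_iff]
  intro x ε hε
  have hpos : 0 < ‖psi t‖ := zero_lt_one.trans h1
  obtain ⟨m, hm⟩ := exists_pow_lt_of_lt_one hε (inv_lt_one_of_one_lt₀ h1)
  obtain ⟨a, ha⟩ := (H678.P.coc_poly F).coc ((show LS F from x) * psi t ^ m)
  obtain ⟨y, hy⟩ : ∃ y : S.integer (RatFunc F), (y : RatFunc F) =
      algebraMap F[X] (RatFunc F) a / algebraMap F[X] (RatFunc F) t ^ m := by
    refine ⟨⟨algebraMap F[X] (RatFunc F) a / algebraMap F[X] (RatFunc F) t ^ m, fun w hw => ?_⟩, rfl⟩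
    rw [← av_le_one, map_div₀, map_pow]
    have h5 : av F w (algebraMap F[X] (RatFunc F) t) = 1 :=
      (av_one F w t).2 (ht2 w fun h => hw (by rw [h]; exact hv))
    rw [h5, one_pow, div_one]
    exact av_int F w a
  have h6 : ‖(show LS F from x) - pK F (y : RatFunc F)‖ < ε := by
    have h7 : psi t ^ m ≠ 0 := pow_ne_zero _ (norm_pos_iff.1 hpos)
    have h8 : (show LS F from x) - pK F (y : RatFunc F) =
        ((show LS F from x) * psi t ^ m - psi a) / psi t ^ m := by
      rw [hy, map_div₀, map_pow, pK_alg, pK_alg, sub_div, mul_div_cancel_right₀ _ h7]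
    rw [h8, norm_div, norm_pow]
    refine lt_of_le_of_lt ?_ hm
    rw [inv_pow, div_eq_mul_inv]
    exact mul_le_of_le_one_left (by positivity) ha
  refine ⟨oi F S (Sum.inl ()) y, ?_, ⟨y, rfl⟩⟩
  rw [Metric.mem_ball, dist_comm, dist_eq_norm]
  exact h6

theorem dense_inr [Finite S] (v : S) : DenseRange (oi F S (Sum.inr v)) := by
  classical
  rw [DenseRange, Metric.dense_iff]
  intro x ε hε
  obtain ⟨y, hy⟩ := approx_S F S (Pi.single v (show Kv F v from x)) hε
  have h1 := hy v
  rw [Pi.single_eq_same] at h1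
  refine ⟨oi F S (Sum.inr v) y, ?_, ⟨y, rfl⟩⟩
  rw [Metric.mem_ball, dist_comm, dist_eq_norm]
  exact h1

theorem dense_oi [Finite S] (hS : S.Nonempty) (i : II F S) : DenseRange (oi F S i) := by
  rcases i with ⟨⟩ | v
  · exact dense_inl F S hS
  · exact dense_inr F S v

end Vale.Agent.P092.H677.FF
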