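import Vale.Agent.P092.H677.PLb
import Vale.Agent.P092.UN.StL

/-!
P092 (helper677), [OKS-L], part 3: **`PSL_n` of the `S`-integers of a number field, `n ≥ 2`, is in the
class `LatticeL` if there are at least two places.**
-/

set_option linter.all false

open Matrix Set Filter Topology NumberField IsDedekindDomain
open NumberField.InfinitePlace NumberField.mixedEmbedding

namespace Vale.Agent.P092.H677.OK

section lie

attribute [local instance 100] LieRing.ofAssociativeRing

/-- **`PSL_n(k)`, `n ≥ 2`, `k` a local field of characteristic `0`, is in the class `IsLie`.** -/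
theorem isLie_psl (k : Type) [NontriviallyNormedField k] [ProperSpace k] [CharZero k] {m : ℕ}
    (hm : 2 ≤ m) : H35.Rp.IsLie k (H259.PQ (SpecialLinearGroup (Fin m) k)) := by
  haveI : Nonempty (Fin m) := ⟨⟨0, by omega⟩⟩
  have hc : 1 < Fintype.card (Fin m) := by rw [Fintype.card_fin]; exact hm
  haveI := H899.Sl.isSimple_sl (K := k) hc
  have h01 : (⟨0, by omega⟩ : Fin m) ≠ ⟨1, by omega⟩ := by
    intro h
    have := congrArg Fin.val h
    simp at this
  refine ⟨slL k (Fin m), inferInstance, inferInstance, _, Module.finBasis k (slL k (Fin m)),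
    Adp k (Fin m), inferInstance, ?_, ?_, ?_, mcf_emb _⟩
  · have hn : IsNilpotent (LieAlgebra.ad k (slL k (Fin m))
        (LieAlgebra.SpecialLinear.single _ _ h01 (1 : k))) := by
      refine LieAlgebra.isNilpotent_ad_of_isNilpotent ⟨2, ?_⟩
      rw [pow_two]
      exact Matrix.single_mul_single_of_ne _ _ _ _ h01.symm _
    refine ⟨LieAlgebra.SpecialLinear.single _ _ h01 (1 : k), ?_, _,
      (H35.Rp.isExp_iff _ _).2 ⟨hn, rfl⟩⟩
    intro h
    have h1 := congrArg (fun X => X.1 ⟨0, by omega⟩ ⟨1, by omega⟩) h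
    simp only [LieAlgebra.SpecialLinear.val_single, Matrix.single_apply_same] at h1
    exact one_ne_zero h1
  · intro g x y
    obtain ⟨g, rfl⟩ := QuotientGroup.mk'_surjective _ g
    exact Ads_lie g x y
  · intro x ψ h
    obtain ⟨g, hg⟩ := exp_mem h
    exact ⟨QuotientGroup.mk g, hg⟩

end lie

section nd

theorem map_tr {A B : Type} [CommRing A] [CommRing B] (f : A →+* B) {n : ℕ} {i j : Fin n}
    (hij : i ≠ j) (y : A) : SpecialLinearGroup.map f (SpecialLinearGroup.transvection hij y) =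
      SpecialLinearGroup.transvection hij (f y) := by
  apply Subtype.ext
  show (Matrix.transvection i j y).map f = Matrix.transvection i j (f y)
  ext a b
  simp only [Matrix.transvection, Matrix.map_apply, Matrix.add_apply, map_add]
  congr 1
  · by_cases hab : a = b
    · subst hab; rw [one_apply_eq, one_apply_eq, map_one]
    · rw [one_apply_ne hab, one_apply_ne hab, map_zero]
  · by_cases h : i = a ∧ j = b
    · simp only [Matrix.single, Matrix.of_apply, h, and_self, if_true]
    · simp only [Matrix.single, Matrix.of_apply, h, if_false, map_zero]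

theorem tr_center {k : Type} [Field k] {n : ℕ} {i j : Fin n} (hij : i ≠ j) {c : k}
    (h : (SpecialLinearGroup.transvection hij c : SpecialLinearGroup (Fin n) k) ∈
      Subgroup.center (SpecialLinearGroup (Fin n) k)) : c = 0 := by
  obtain ⟨r, -, hr⟩ := Matrix.SpecialLinearGroup.mem_center_iff.1 h
  have h1 : (Matrix.scalar (Fin n) r) i j = (Matrix.transvection i j c) i j :=
    congrFun (congrFun hr i) j
  rw [Matrix.scalar_apply, Matrix.diagonal_apply_ne _ hij, Matrix.transvection, Matrix.add_apply,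
    one_apply_ne hij, Matrix.single_apply_same, zero_add] at h1
  exact h1.symm

variable (K : Type) [Field K] [NumberField K] (S : Set (HeightOneSpectrum (𝓞 K)))

theorem non_disc {n : ℕ} (hn : 2 ≤ n) (i : II K S)
    (h : ∀ ε > 0, ∃ x : S.integer K, x ≠ 0 ∧ ‖oi K S i x‖ < ε) :
    ¬ DiscreteTopology (Set.range fun g => pembS K S n g i) := by
  intro hd
  have h01 : (⟨0, by omega⟩ : Fin n) ≠ ⟨1, by omega⟩ := by
    intro h
    have := congrArg Fin.val h
    simp at this
  have h11 : (fun g => pembS K S n g i) 1 = 1 := by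
    show pembS K S n 1 i = 1
    rw [map_one]
    rfl
  have h1 : IsOpen ({⟨1, 1, h11⟩} : Set (Set.range fun g => pembS K S n g i)) :=
    isOpen_discrete _
  obtain ⟨W, hW, hW'⟩ := isOpen_induced_iff.1 h1
  have hW1 : (1 : H259.PQ (SpecialLinearGroup (Fin n) (KK K S i))) ∈ W := by
    have : (⟨1, 1, h11⟩ : Set.range fun g => pembS K S n g i) ∈ Subtype.val ⁻¹' W := by
      rw [hW']; rfl
    exact this
  have hc : Continuous fun c : KK K S i =>
      (QuotientGroup.mk (SpecialLinearGroup.transvection h01 c) :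
        H259.PQ (SpecialLinearGroup (Fin n) (KK K S i))) :=
    Continuous.comp continuous_quotient_mk' (tr_cont h01)
  have h0 : (0 : KK K S i) ∈ (fun c : KK K S i =>
      (QuotientGroup.mk (SpecialLinearGroup.transvection h01 c) :
        H259.PQ (SpecialLinearGroup (Fin n) (KK K S i)))) ⁻¹' W := by
    rw [Set.mem_preimage]
    have e : (SpecialLinearGroup.transvection h01 (0 : KK K S i)) = 1 := by
      apply Subtype.ext
      show Matrix.transvection _ _ (0 : KK K S i) = 1
      rw [Matrix.transvection, Matrix.single_zero, add_zero]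
    rw [e]
    exact hW1
  obtain ⟨ε, hε, hb⟩ := Metric.isOpen_iff.1 (hW.preimage hc) 0 h0
  obtain ⟨x, hx0, hx⟩ := h ε hε
  have h2 := hb (mem_ball_zero_iff.2 hx)
  have h3 : pembS K S n (QuotientGroup.mk (SpecialLinearGroup.transvection h01 x)) i =
      QuotientGroup.mk (SpecialLinearGroup.transvection h01 (oi K S i x)) := by
    rw [← map_tr]
    rfl
  have h4 : (⟨pembS K S n (QuotientGroup.mk (SpecialLinearGroup.transvection h01 x)) i, _, rfl⟩ :
      Set.range fun g => pembS K S n g i) ∈ Subtype.val ⁻¹' W := by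
    rw [Set.mem_preimage]
    rw [Set.mem_preimage, ← h3] at h2
    exact h2
  rw [hW', Set.mem_singleton_iff] at h4
  have h5 : (QuotientGroup.mk (SpecialLinearGroup.transvection h01 (oi K S i x)) :
      H259.PQ (SpecialLinearGroup (Fin n) (KK K S i))) = 1 := by
    rw [← h3]
    exact congrArg Subtype.val h4
  have h6 := tr_center h01 ((QuotientGroup.eq_one_iff _).1 h5)
  exact hx0 (oi_inj K S i (by rw [h6, map_zero]))

end nd

section small

variable (K : Type) [Field K] [NumberField K] (S : Set (HeightOneSpectrum (𝓞 K)))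

/-- the place of an index -/
def plc (j : JJ K) : InfinitePlace K := Sum.elim Subtype.val Subtype.val j

theorem nap_plc (j : JJ K) (x : mixedSpace K) : normAtPlace (plc K j) x = ‖cmp K j x‖ := by
  rcases j with w | w
  · exact normAtPlace_apply_of_isReal w.2 x
  · exact normAtPlace_apply_of_isComplex w.2 x

theorem norm_cmp_pow (j : JJ K) (a : K) (m : ℕ) :
    ‖cmp K j (mixedEmbedding K (a ^ m))‖ = (plc K j a) ^ m := by
  rw [← nap_plc, normAtPlace_apply, map_pow]

theorem small_unit (h : 2 ≤ Fintype.card (InfinitePlace K)) (j : JJ K) {ε : ℝ} (hε : 0 < ε) :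
    ∃ x : 𝓞 K, x ≠ 0 ∧ ‖cmp K j (io K x)‖ < ε := by
  obtain ⟨w, hw⟩ := Fintype.exists_ne_of_one_lt_card (by omega) (plc K j)
  obtain ⟨u, hu⟩ := Units.dirichletUnitTheorem.exists_unit K w
  have h1 := hu _ hw.symm
  have h0 : 0 < plc K j (u : K) := by
    rw [InfinitePlace.pos_iff]
    exact_mod_cast RingOfIntegers.coe_ne_zero_iff.2 u.ne_zero
  have h2 : plc K j (u : K) < 1 := (Real.log_neg_iff h0).1 h1
  obtain ⟨m, hm⟩ := exists_pow_lt_of_lt_one hε h2
  refine ⟨((u ^ m : (𝓞 K)ˣ) : 𝓞 K), (u ^ m).ne_zero, ?_⟩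
  have h3 : io K ((u ^ m : (𝓞 K)ˣ) : 𝓞 K) = mixedEmbedding K ((u : K) ^ m) := by
    show mixedEmbedding K _ = _
    congr 1
  rw [h3, norm_cmp_pow]
  exact hm

theorem small_S {v : HeightOneSpectrum (𝓞 K)} (hv : v ∈ S) (j : JJ K) {ε : ℝ} (hε : 0 < ε) :
    ∃ x : S.integer K, x ≠ 0 ∧ ‖cmp K j (mixedEmbedding K (x : K))‖ < ε := by
  obtain ⟨t, ht0, ht1, ht2⟩ := exists_t1 K v
  have htK : algebraMap (𝓞 K) K t ≠ 0 := by
    rw [Ne, RingOfIntegers.coe_eq_zero_iff]; exact ht0
  obtain ⟨T, hT⟩ : ∃ T : K, T = algebraMap (𝓞 K) K t := ⟨_, rfl⟩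
  rw [← hT] at htK
  obtain ⟨B, hB, hBm⟩ := exists_bdd K 1 one_ne_zero
  choose q hq using fun m : ℕ => hBm (mixedEmbedding K ((T ^ m)⁻¹))
  obtain ⟨y, hy⟩ : ∃ y : ℕ → K, ∀ m, y m = (T ^ m)⁻¹ + algebraMap (𝓞 K) K (q m) :=
    ⟨_, fun _ => rfl⟩
  have hyB : ∀ m, mixedEmbedding K (y m) ∈ B := by
    intro m
    have h1 := hq m
    rw [Nat.cast_one, one_mul] at h1
    rw [hy, map_add]
    exact h1
  have hyS : ∀ m, ∀ w ∉ S, w.valuation K (y m) ≤ 1 := by
    intro m w hw
    rw [← av_le_one, hy]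
    refine (av_add K w _ _).trans (max_le ?_ (av_int K w _))
    have hwv : w ≠ v := fun e => hw (by rw [e]; exact hv)
    have h5 : av K w T = 1 := by rw [hT]; exact (av_one K w t).2 (ht2 w hwv)
    rw [map_inv₀, map_pow, h5, one_pow, inv_one]
  obtain ⟨a, -, φ, hφ, hlim⟩ := hB.tendsto_subseq hyB
  have hlim2 : Tendsto (fun m => cmp K j (mixedEmbedding K (y (φ (m + 1)) - y (φ m)))) atTop
      (𝓝 0) := by
    have h1 : Tendsto (fun m => mixedEmbedding K (y (φ (m + 1))) - mixedEmbedding K (y (φ m)))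
        atTop (𝓝 (a - a)) :=
      (hlim.comp (tendsto_add_atTop_nat 1)).sub hlim
    rw [sub_self] at h1
    have h2 := ((cmp_cont K j).tendsto 0).comp h1
    rw [map_zero] at h2
    refine h2.congr fun m => ?_
    rw [Function.comp_apply, map_sub (mixedEmbedding K)]
  have h3 := (tendsto_zero_iff_norm_tendsto_zero.1 hlim2).eventually (gt_mem_nhds hε)
  obtain ⟨m, hm⟩ := h3.exists
  refine ⟨⟨y (φ (m + 1)) - y (φ m), fun w hw => ?_⟩, ?_, hm⟩
  · exact ((w.valuation K).map_sub _ _).trans (max_le (hyS _ w hw) (hyS _ w hw))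
  · intro h
    have h4 : y (φ (m + 1)) - y (φ m) = 0 := congrArg Subtype.val h
    have hlt : av K v T < 1 := by rw [hT]; exact (av_lt K v t).2 ht1
    have h6 : av K v ((T ^ (φ (m + 1)))⁻¹) ≤ av K v ((T ^ (φ m))⁻¹) ⊔ 1 := by
      have e : (T ^ (φ (m + 1)))⁻¹ = (T ^ (φ m))⁻¹ +
          algebraMap (𝓞 K) K (q (φ m) - q (φ (m + 1))) := by
        rw [hy, hy] at h4
        rw [map_sub]
        linear_combination h4
      rw [e]
      exact (av_add K v _ _).trans (max_le_max le_rfl (av_int K v _))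
    have h7 : 0 < av K v T := (av K v).pos htK
    rw [map_inv₀, map_inv₀, map_pow, map_pow] at h6
    have h8 : φ m < φ (m + 1) := hφ (Nat.lt_succ_self m)
    have h9 : (av K v T) ^ (φ (m + 1)) < (av K v T) ^ (φ m) :=
      pow_lt_pow_right_of_lt_one₀ h7 hlt h8
    have h10 : (av K v T) ^ (φ m) ≤ 1 := pow_le_one₀ h7.le hlt.le
    have h11 : 1 ≤ ((av K v T) ^ (φ m))⁻¹ := (one_le_inv₀ (pow_pos h7 _)).2 h10
    rw [max_eq_left h11, inv_le_inv₀ (pow_pos h7 _) (pow_pos h7 _)] at h6
    exact absurd h6 (not_le.2 h9)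

theorem small_fin (v : S) {ε : ℝ} (hε : 0 < ε) :
    ∃ x : S.integer K, x ≠ 0 ∧ ‖of K S v x‖ < ε := by
  obtain ⟨p, hp0, hp⟩ := exists_p K (v : HeightOneSpectrum (𝓞 K))
  obtain ⟨m, hm⟩ := exists_pow_lt_of_lt_one hε ((av_lt K v p).2 hp)
  refine ⟨algebraMap (𝓞 K) (S.integer K) (p ^ m), fun h => ?_, ?_⟩
  · have h1 : algebraMap (𝓞 K) K (p ^ m) = 0 := congrArg Subtype.val h
    rw [RingOfIntegers.coe_eq_zero_iff] at h1
    exact pow_ne_zero m hp0 h1
  · show ‖ev K v (algebraMap (𝓞 K) K (p ^ m))‖ < ε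
    rw [norm_ev, map_pow, map_pow]
    exact hm

theorem small_all (h : S.Nonempty ∨ 2 ≤ Fintype.card (InfinitePlace K)) (i : II K S) {ε : ℝ}
    (hε : 0 < ε) : ∃ x : S.integer K, x ≠ 0 ∧ ‖oi K S i x‖ < ε := by
  rcases i with j | v
  · rcases h with ⟨v, hv⟩ | h
    · exact small_S K S hv j hε
    · obtain ⟨x, hx0, hx⟩ := small_unit K h j hε
      refine ⟨algebraMap (𝓞 K) (S.integer K) x, fun h => ?_, hx⟩
      have h1 : algebraMap (𝓞 K) K x = 0 := congrArg Subtype.val h
      rw [RingOfIntegers.coe_eq_zero_iff] at h1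
      exact hx0 h1
  · exact small_fin K S v hε

instance charZero_KK (i : II K S) : CharZero (KK K S i) := by
  have h := oi_inj K S i
  exact charZero_of_injective_ringHom h

/-- **`PSL_n` of the `S`-integers of a number field `K`, `S` a finite set of finite places, `n ≥ 2`,
is in the class `LatticeL` if `S` is not empty or `K` has at least two infinite places.** -/
theorem latticeL_OKS (hS : S.Finite) {n : ℕ} (hn : 2 ≤ n)
    (h : S.Nonempty ∨ 2 ≤ Fintype.card (InfinitePlace K)) :
    UN.LatticeL (SpecialLinearGroup (Fin n) (S.integer K) ⧸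
      Subgroup.center (SpecialLinearGroup (Fin n) (S.integer K))) := by
  haveI := hS.to_subtype
  haveI : Infinite (S.integer K) := CharZero.infinite _
  have hlat : H515.St.IsLattice (pembS K S n).range := by
    obtain ⟨m, rfl⟩ : ∃ m, n = m + 2 := ⟨n - 2, by omega⟩
    exact lat_pembS K S m
  refine ⟨fun g hg => H678.icc_psl g hg, II K S, Fintype.ofFinite _,
    fun i => H259.PQ (SpecialLinearGroup (Fin n) (KK K S i)), inferInstance, inferInstance,
    ∀ i, H259.PQ (SpecialLinearGroup (Fin n) (KK K S i)), inferInstance, inferInstance,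
    MonoidHom.id _, pembS K S n, inferInstance, isProperMap_id, ?_, pembS_inj K S _,
    (UN.isLattice_iff _).2 hlat, fun i => ⟨?_, ?_⟩⟩
  · rw [MonoidHom.range_eq_top.2 Function.surjective_id]
    infer_instance
  · exact ⟨KK K S i, inferInstance, inferInstance, locK_KK K S i, inferInstance,
      isLie_psl (KK K S i) hn⟩
  · exact non_disc K S hn i fun ε hε => small_all K S h i hε

end small

end Vale.Agent.P092.H677.OK
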