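import Vale.Agent.P092.H677.FFf
import Vale.Agent.P092.H677.PLc
import Vale.Agent.P092.H714.StF
import Vale.Agent.P092.UN.StZ

/-!
P092 (helper677), [FF-LAT], part 7: `PSL_n` of the `S`-integers of `F(x)`, `n ≥ 2`, `S ≠ ∅`, is in the
class `LatticeZ`.
-/

set_option linter.all false

open Matrix Set Filter Topology IsDedekindDomain
open scoped Polynomial
open Vale.Agent.P092.H678 (LS psi psi_inj)
open Vale.Agent.P092.H677.OK (map_tr tr_center)

namespace Vale.Agent.P092.H677.FF

section cls

open Vale.Agent.P092.H465.DA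

theorem two_le' {n : ℕ} (hn : 2 ≤ n) : 2 ≤ Fintype.card (Fin n) := by
  rwa [Fintype.card_fin]

theorem isSL_quo (k : Type) [NontriviallyNormedField k] [ProperSpace k] {n : ℕ} (hn : 2 ≤ n)
    (G : Type) [Group G] [TopologicalSpace G] (f : SpecialLinearGroup (Fin n) k →* G)
    (hf : IsQuotientMap f) (hker : f.ker ≤ Subgroup.center (SpecialLinearGroup (Fin n) k)) :
    UN.IsSL k G := by
  obtain ⟨e⟩ := PC.StF.exists_iso (k := k) hn
  have h1 := SLD_eq_commutator (n := Fin n) (D := k) (two_le' hn) k (H465.DA.exists_sq_ne k)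
  have h2 : PC.StF.Quo (H465.DA.SLD (Fin n) k) G := PC.StF.quo_of e f hf hker
  rw [h1] at h2
  exact ⟨n, hn, h2⟩

/-- the topological group is isomorphic to its largest subgroup -/
def topH (G : Type) [Group G] [TopologicalSpace G] : G ≃ₜ (⊤ : Subgroup G) where
  toFun g := ⟨g, Subgroup.mem_top g⟩
  invFun g := g.1
  left_inv g := rfl
  right_inv g := rfl
  continuous_toFun := Continuous.subtype_mk continuous_id _
  continuous_invFun := continuous_subtype_val

/-- the same as a homomorphism -/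
def topM (G : Type) [Group G] : G →* (⊤ : Subgroup G) where
  toFun g := ⟨g, Subgroup.mem_top g⟩
  map_one' := rfl
  map_mul' _ _ := rfl

theorem topM_quo (G : Type) [Group G] [TopologicalSpace G] : IsQuotientMap (topM G) :=
  (topH G).isQuotientMap

theorem ker_topM {S G : Type} [Group S] [Group G] (f : S →* G) :
    ((topM G).comp f).ker = f.ker := by
  ext x
  rw [MonoidHom.mem_ker, MonoidHom.mem_ker]
  constructor
  · intro h
    exact congrArg Subtype.val h
  · intro h
    exact Subtype.ext h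

theorem clsV_top {G : Type} [Group G] [TopologicalSpace G] [IsTopologicalGroup G]
    (h : UN.Cls (⊤ : Subgroup G)) : UN.ClsV G :=
  ⟨inferInstance, ⊤, inferInstance, inferInstance, isOpen_univ, h⟩

theorem clsV_psl (k : Type) [NontriviallyNormedField k] [ProperSpace k] (hk : UN.LocK k) {n : ℕ}
    (hn : 2 ≤ n) : UN.ClsV (H259.PQ (SpecialLinearGroup (Fin n) k)) := by
  refine clsV_top ⟨k, inferInstance, inferInstance, hk, Or.inr ⟨k, inferInstance, inferInstance,
    ⟨inferInstance, inferInstance⟩, Or.inl (isSL_quo k hn _ ((topM _).comp (H259.pq _)) ?_ ?_)⟩⟩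
  · exact (topM_quo _).comp isQuotientMap_quotient_mk'
  · rw [ker_topM, QuotientGroup.ker_mk']

end cls

variable (F : Type) [Field F] [Finite F] (S : Set (HeightOneSpectrum F[X]))

theorem small_all [Finite S] (hS : S.Nonempty) (i : II F S) {ε : ℝ} (hε : 0 < ε) :
    ∃ x : S.integer (RatFunc F), x ≠ 0 ∧ ‖oi F S i x‖ < ε := by
  obtain ⟨c, hc0, hc⟩ := NormedField.exists_norm_lt (KK F S i) (half_pos hε)
  obtain ⟨_, hx, ⟨x, rfl⟩⟩ := Metric.dense_iff.1 (dense_oi F S hS i) c ‖c‖ hc0
  rw [Metric.mem_ball, dist_eq_norm] at hx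
  refine ⟨x, ?_, ?_⟩
  · rintro rfl
    rw [map_zero, zero_sub, norm_neg] at hx
    exact lt_irrefl _ hx
  · calc ‖oi F S i x‖ = ‖(oi F S i x - c) + c‖ := by rw [sub_add_cancel]
      _ ≤ ‖oi F S i x - c‖ + ‖c‖ := norm_add_le _ _
      _ < ε := by linarith

theorem non_disc {n : ℕ} (hn : 2 ≤ n) (i : II F S)
    (h : ∀ ε > 0, ∃ x : S.integer (RatFunc F), x ≠ 0 ∧ ‖oi F S i x‖ < ε) :
    ¬ DiscreteTopology (Set.range fun g => pembS F S n g i) := by
  intro hd
  have h01 : (⟨0, by omega⟩ : Fin n) ≠ ⟨1, by omega⟩ := by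
    intro h
    have := congrArg Fin.val h
    simp at this
  have h11 : (fun g => pembS F S n g i) 1 = 1 := by
    show pembS F S n 1 i = 1
    rw [map_one]
    rfl
  have h1 : IsOpen ({⟨1, 1, h11⟩} : Set (Set.range fun g => pembS F S n g i)) :=
    isOpen_discrete _
  obtain ⟨W, hW, hW'⟩ := isOpen_induced_iff.1 h1
  have hW1 : (1 : H259.PQ (SpecialLinearGroup (Fin n) (KK F S i))) ∈ W := by
    have : (⟨1, 1, h11⟩ : Set.range fun g => pembS F S n g i) ∈ Subtype.val ⁻¹' W := by
      rw [hW']; rfl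
    exact this
  have hc : Continuous fun c : KK F S i =>
      (QuotientGroup.mk (SpecialLinearGroup.transvection h01 c) :
        H259.PQ (SpecialLinearGroup (Fin n) (KK F S i))) :=
    Continuous.comp continuous_quotient_mk' (tr_cont h01)
  have h0 : (0 : KK F S i) ∈ (fun c : KK F S i =>
      (QuotientGroup.mk (SpecialLinearGroup.transvection h01 c) :
        H259.PQ (SpecialLinearGroup (Fin n) (KK F S i)))) ⁻¹' W := by
    rw [Set.mem_preimage]
    have e : (SpecialLinearGroup.transvection h01 (0 : KK F S i)) = 1 := by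
      apply Subtype.ext
      show Matrix.transvection _ _ (0 : KK F S i) = 1
      rw [Matrix.transvection, Matrix.single_zero, add_zero]
    rw [e]
    exact hW1
  obtain ⟨ε, hε, hb⟩ := Metric.isOpen_iff.1 (hW.preimage hc) 0 h0
  obtain ⟨x, hx0, hx⟩ := h ε hε
  have h2 := hb (mem_ball_zero_iff.2 hx)
  have h3 : pembS F S n (QuotientGroup.mk (SpecialLinearGroup.transvection h01 x)) i =
      QuotientGroup.mk (SpecialLinearGroup.transvection h01 (oi F S i x)) := by
    rw [← map_tr]
    rfl
  have h4 : (⟨pembS F S n (QuotientGroup.mk (SpecialLinearGroup.transvection h01 x)) i, _, rfl⟩ :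
      Set.range fun g => pembS F S n g i) ∈ Subtype.val ⁻¹' W := by
    rw [Set.mem_preimage]
    rw [Set.mem_preimage, ← h3] at h2
    exact h2
  rw [hW', Set.mem_singleton_iff] at h4
  have h5 : (QuotientGroup.mk (SpecialLinearGroup.transvection h01 (oi F S i x)) :
      H259.PQ (SpecialLinearGroup (Fin n) (KK F S i))) = 1 := by
    rw [← h3]
    exact congrArg Subtype.val h4
  have h6 := tr_center h01 ((QuotientGroup.eq_one_iff _).1 h5)
  exact hx0 (oi_inj F S i (by rw [h6, map_zero]))

/-- **`PSL_n` of the `S`-integers of `F(x)`, `n ≥ 2`, `S ≠ ∅`, is in the class `LatticeZ`.** -/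
theorem latticeZ_FF (hS : S.Finite) (hS' : S.Nonempty) {n : ℕ} (hn : 2 ≤ n) :
    UN.LatticeZ (SpecialLinearGroup (Fin n) (S.integer (RatFunc F)) ⧸
      Subgroup.center (SpecialLinearGroup (Fin n) (S.integer (RatFunc F)))) := by
  haveI := hS.to_subtype
  obtain ⟨n, rfl⟩ : ∃ m, n = m + 2 := ⟨n - 2, by omega⟩
  refine ⟨fun g hg => H678.icc_psl g hg, II F S, Fintype.ofFinite _,
    fun i => H259.PQ (SpecialLinearGroup (Fin (n + 2)) (KK F S i)),
    inferInstance, inferInstance,
    ∀ i, H259.PQ (SpecialLinearGroup (Fin (n + 2)) (KK F S i)),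
    inferInstance, inferInstance,
    MonoidHom.id _, pembS F S (n + 2), inferInstance, isProperMap_id, ?_, pembS_inj F S _,
    (UN.isLattice_iff _).2 (lat_pembS F S n), fun i => Or.inr ⟨Or.inl ?_, ?_⟩⟩
  · rw [MonoidHom.range_eq_top.2 Function.surjective_id]
    infer_instance
  · exact clsV_psl (KK F S i) (locK_KK F S i) hn
  · exact non_disc F S hn i fun ε hε => small_all F S hS' i hε

end Vale.Agent.P092.H677.FF
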