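import Vale.Agent.P092.H677.SPe

/-!
P092 (helper677), [OKS-SP], part 6: **`Sp_{2n}` of the `S`-integers of a number field is a lattice of
the product of the groups `Sp_{2n}` of the completions** at the infinite places and the places of `S`.
-/

set_option linter.all false

open Matrix NumberField IsDedekindDomain Filter Topology MeasureTheory MeasureTheory.Measure Set
open NumberField.mixedEmbedding
open scoped NNReal ENNReal nonZeroDivisors

namespace Vale.Agent.P092.H677.SP

open Vale.Agent.P092.H759 (mp)
open Vale.Agent.P092.H677.OK (Kv ev JJ kk cmp io int_of hom_pi_triv II KK oi oi_inj jj_nonempty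
  cmp_io_inj)

variable (K : Type) [Field K] [NumberField K] (S : Set (HeightOneSpectrum (𝓞 K)))
  (m : Type) [Fintype m] [DecidableEq m]

attribute [local instance] sp_t2 sp_lc sp_sc sp_pol sp_itg

theorem mp_inj {R R' : Type} [CommRing R] [CommRing R'] {f : R →+* R'}
    (hf : Function.Injective f) : Function.Injective (mp f : symplecticGroup m R →* _) := by
  intro x y h
  apply Subtype.ext
  have h1 := congrArg Subtype.val h
  exact Matrix.map_injective hf h1

/-- `Sp_{2n}` of the `S`-integers in the product over the infinite places -/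
noncomputable def q1 : symplecticGroup m (S.integer K) →* ∀ j : JJ K, symplecticGroup m (kk K j) :=
  MonoidHom.pi fun j => mp (((cmp K j).comp (mixedEmbedding K)).comp (algebraMap (S.integer K) K))

/-- from `Sp_{2n}(𝓞 K)` to `Sp_{2n}` of the `S`-integers -/
noncomputable def qO : symplecticGroup m (𝓞 K) →* symplecticGroup m (S.integer K) :=
  mp (algebraMap (𝓞 K) (S.integer K))

theorem q1_qO (δ : symplecticGroup m (𝓞 K)) : q1 K S m (qO K S m δ) = embP K m δ := rfl

theorem q2_qO (δ : symplecticGroup m (𝓞 K)) (v : S) :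
    q2 K S m (qO K S m δ) v ∈ UU K m v := UU_int K m v δ

theorem embP_inj : Function.Injective (embP K m) := by
  obtain ⟨j⟩ := jj_nonempty K
  intro g h hgh
  exact mp_inj m (cmp_io_inj K j) (congrFun hgh j)

theorem int_sp {γ : symplecticGroup m (S.integer K)}
    (h : ∀ v : S, q2 K S m γ v ∈ UU K m v) : ∃ δ, qO K S m δ = γ := by
  have h1 : ∀ i j, ∃ a : 𝓞 K, algebraMap (𝓞 K) K a = (γ.1 i j : S.integer K) := fun i j =>
    int_of K (γ.1 i j) fun v => h v i j
  choose a ha using h1
  have h2 : ∀ i j, algebraMap (𝓞 K) (S.integer K) (a i j) = γ.1 i j := fun i j =>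
    Subtype.ext (ha i j)
  have hinj : Function.Injective (algebraMap (𝓞 K) (S.integer K)) := by
    intro x y hxy
    apply (RingOfIntegers.coe_injective : Function.Injective (algebraMap (𝓞 K) K))
    exact congrArg (fun z : S.integer K => (z : K)) hxy
  have h3 : (Matrix.of a).map (algebraMap (𝓞 K) (S.integer K)) = γ.1 := by
    ext i j
    simp [h2]
  refine ⟨⟨Matrix.of a, ?_⟩, Subtype.ext h3⟩
  rw [SymplecticGroup.mem_iff]
  apply Matrix.map_injective hinj
  have h4 := SymplecticGroup.mem_iff.1 γ.2
  rw [← h3] at h4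
  show (Matrix.of a * J m (𝓞 K) * (Matrix.of a)ᵀ).map (algebraMap (𝓞 K) (S.integer K)) =
    (J m (𝓞 K)).map (algebraMap (𝓞 K) (S.integer K))
  rw [Matrix.map_mul, Matrix.map_mul, map_J, transpose_map]
  exact h4

/-- the embedding -/
noncomputable def q12 : symplecticGroup m (S.integer K) →*
    (∀ j : JJ K, symplecticGroup m (kk K j)) × ∀ v : S, symplecticGroup m (Kv K v) :=
  (q1 K S m).prod (q2 K S m)

theorem q12_disc [Finite S] : DiscreteTopology (q12 K S m).range := by
  have h0 := (lat_embP K m).disc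
  have h1 : IsOpen ({1} : Set (embP K m).range) := isOpen_discrete _
  obtain ⟨W, hW, hW'⟩ := isOpen_induced_iff.1 h1
  have hW1 : (1 : ∀ j : JJ K, symplecticGroup m (kk K j)) ∈ W := by
    have : (1 : (embP K m).range) ∈ Subtype.val ⁻¹' W := by
      rw [hW']; rfl
    exact this
  refine discreteTopology_of_isOpen_singleton_one ?_
  rw [isOpen_induced_iff]
  refine ⟨W ×ˢ {y | ∀ v : S, y v ∈ UU K m v}, hW.prod ?_, ?_⟩
  · rw [setOf_forall]
    exact isOpen_iInter_of_finite fun v => (UU_open K m v).preimage (continuous_apply v)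
  · ext ⟨x, γ, hγ⟩
    constructor
    · rintro ⟨hx1, hx2⟩
      subst hγ
      obtain ⟨δ, rfl⟩ := int_sp K S m (γ := γ) hx2
      have h2 : embP K m δ ∈ W := hx1
      have h3 : (⟨embP K m δ, δ, rfl⟩ : (embP K m).range) ∈ Subtype.val ⁻¹' W := h2
      rw [hW'] at h3
      have h4 : embP K m δ = 1 := congrArg Subtype.val h3
      have h5 : δ = 1 := embP_inj K m (by rw [h4, map_one])
      subst h5
      rw [mem_singleton_iff]
      apply Subtype.ext
      show q12 K S m (qO K S m 1) = 1
      rw [map_one, map_one]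
    · intro hx
      rw [mem_singleton_iff] at hx
      have hx' : x = 1 := congrArg Subtype.val hx
      show x ∈ W ×ˢ {y | ∀ v : S, y v ∈ UU K m v}
      rw [hx']
      exact ⟨hW1, fun v => UU_one K _ _⟩

theorem hom_triv2 [Finite S] (f : ((∀ j : JJ K, symplecticGroup m (kk K j)) ×
      ∀ v : S, symplecticGroup m (Kv K v)) →* (ℝ≥0)ˣ) : f = 1 := by
  classical
  haveI : Fintype S := Fintype.ofFinite _
  have h1 : f.comp (MonoidHom.inl _ _) = 1 := by
    refine hom_pi_triv _ fun j x => ?_
    have h2 : (f.comp (MonoidHom.inl _ _)).comp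
        (MonoidHom.mulSingle (fun j => symplecticGroup m (kk K j)) j) = 1 := by
      have h3 : Infinite (kk K j) := NontriviallyNormedField.infinite _
      exact hom_triv_k _ _
    exact DFunLike.congr_fun h2 x
  have h2 : f.comp (MonoidHom.inr _ _) = 1 := by
    refine hom_pi_triv _ fun v x => ?_
    have h2 : (f.comp (MonoidHom.inr _ _)).comp
        (MonoidHom.mulSingle (fun v : S => symplecticGroup m (Kv K v)) v) = 1 := by
      have h3 : Infinite (Kv K v) := NontriviallyNormedField.infinite _
      exact hom_triv_k _ _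
    exact DFunLike.congr_fun h2 x
  refine MonoidHom.ext fun x => ?_
  have h3 : x = (x.1, 1) * (1, x.2) := by
    rw [Prod.mk_mul_mk, mul_one, one_mul]
  have h4 : f (x.1, 1) = 1 := DFunLike.congr_fun h1 x.1
  have h5 : f (1, x.2) = 1 := DFunLike.congr_fun h2 x.2
  rw [h3, map_mul, h4, h5, mul_one]
  rfl

theorem lat_q12 [Finite S] : H515.IsLattice (q12 K S m).range := by
  haveI := q12_disc K S m
  borelize (∀ j : JJ K, symplecticGroup m (kk K j))
  borelize (∀ v : S, symplecticGroup m (Kv K v))
  obtain ⟨μ₁, hμ₁⟩ : ∃ μ : Measure (∀ j : JJ K, symplecticGroup m (kk K j)),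
    μ = haar := ⟨_, rfl⟩
  obtain ⟨μ₂, hμ₂⟩ : ∃ μ : Measure (∀ v : S, symplecticGroup m (Kv K v)),
    μ = haar := ⟨_, rfl⟩
  haveI hH₁ : IsHaarMeasure μ₁ := by rw [hμ₁]; infer_instance
  haveI hH₂ : IsHaarMeasure μ₂ := by rw [hμ₂]; infer_instance
  haveI t1 : SigmaFinite μ₁ := inferInstance
  haveI t2 : SigmaFinite μ₂ := inferInstance
  haveI t3 : IsHaarMeasure (μ₁.prod μ₂) := inferInstance
  haveI hr : IsMulRightInvariant (μ₁.prod μ₂) :=
    H515.rightInv_of_modChar _ (H515.modChar_of_perfect (hom_triv2 K S m))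
  obtain ⟨F, -, hF, -, hFc, -⟩ := H515.IsLattice.exists_fdom_right μ₁ (lat_embP K m)
  have hU : IsCompact (Set.pi univ fun v : S => UU K m v) :=
    isCompact_univ_pi fun v => UU_cpt K m v
  refine H515.isLattice_of_cover _ (μ₁.prod μ₂)
    (F := F ×ˢ (Set.pi univ fun v : S => UU K m v)) ?_ fun x => ?_
  · rw [Measure.prod_prod]
    exact ENNReal.mul_lt_top hF hU.measure_lt_top
  · obtain ⟨γ, hγ⟩ := strong' K S m x.2
    obtain ⟨⟨_, δ, rfl⟩, hδ, -⟩ := hFc (x.1 * q1 K S m γ)
    refine ⟨⟨q12 K S m (γ * qO K S m δ), _, rfl⟩, ?_, ?_⟩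
    · show x.1 * q1 K S m (γ * qO K S m δ) ∈ F
      rw [map_mul, ← mul_assoc]
      exact hδ
    · intro v _
      show x.2 v * q2 K S m (γ * qO K S m δ) v ∈ UU K m v
      rw [map_mul, Pi.mul_apply, ← mul_assoc]
      exact UU_mul K m (hγ v) (q2_qO K S m δ v)

/-- `Sp_{2n}` of the `S`-integers in the product of the groups `Sp_{2n}` of the completions -/
noncomputable def embS : symplecticGroup m (S.integer K) →* ∀ i, symplecticGroup m (KK K S i) :=
  MonoidHom.pi fun i => mp (oi K S i)

theorem embS_inj : Function.Injective (embS K S m) := by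
  obtain ⟨j⟩ := jj_nonempty K
  intro g h hgh
  exact mp_inj m (oi_inj K S (Sum.inl j)) (congrFun hgh (Sum.inl j))

/-- the splitting of the product -/
noncomputable def spl : ((∀ j : JJ K, symplecticGroup m (kk K j)) ×
      ∀ v : S, symplecticGroup m (Kv K v)) ≃* ∀ i, symplecticGroup m (KK K S i) where
  toFun x i := match i with
    | Sum.inl j => x.1 j
    | Sum.inr v => x.2 v
  invFun y := (fun j => y (Sum.inl j), fun v => y (Sum.inr v))
  left_inv x := rfl
  right_inv y := by funext i; rcases i with j | v <;> rfl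
  map_mul' x y := by funext i; rcases i with j | v <;> rfl

theorem spl_cont : Continuous (spl K S m) := by
  refine continuous_pi fun i => ?_
  rcases i with j | v
  · exact (continuous_apply j).comp continuous_fst
  · exact (continuous_apply v).comp continuous_snd

theorem spl_symm_cont : Continuous (spl K S m).symm :=
  Continuous.prodMk (continuous_pi fun j => continuous_apply (Sum.inl j : II K S))
    (continuous_pi fun v => continuous_apply (Sum.inr v : II K S))

theorem spl_q12 (γ : symplecticGroup m (S.integer K)) :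
    spl K S m (q12 K S m γ) = embS K S m γ := by
  funext i
  rcases i with j | v <;> rfl

/-- **`Sp_{2n}` of the `S`-integers is a lattice of the product of the groups `Sp_{2n}` of the
completions at the infinite places and the places of `S`.** -/
theorem lat_embS [Finite S] : H515.IsLattice (embS K S m).range := by
  have h2 := H515.IsLattice.map_equiv (spl K S m) (spl_cont K S _) (spl_symm_cont K S _)
    (lat_q12 K S m)
  have h3 : (q12 K S m).range.map ((spl K S m : _ ≃* _) : _ →* _) = (embS K S m).range := by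
    ext x
    constructor
    · rintro ⟨_, ⟨γ, rfl⟩, rfl⟩
      exact ⟨γ, (spl_q12 K S _ γ).symm⟩
    · rintro ⟨γ, rfl⟩
      exact ⟨_, ⟨γ, rfl⟩, spl_q12 K S _ γ⟩
  rw [← h3]
  exact h2

end Vale.Agent.P092.H677.SP
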