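import Vale.Agent.P092.H677.FFf
import Vale.Agent.P092.H677.SPf

/-!
P092 (helper677), [FF-LAT], part 8: `Sp_{2n}` of the `S`-integers of `F(x)` is a lattice of the product
of the groups `Sp_{2n}` of the completions.
-/

set_option linter.all false

open Matrix IsDedekindDomain Filter Topology MeasureTheory MeasureTheory.Measure Set
open scoped NNReal ENNReal nonZeroDivisors Polynomial

namespace Vale.Agent.P092.H677.FF.SP

open Vale.Agent.P092.H759 (om om_eq om_add_left om_add_right om_smul_left om_smul_right om_neg_left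
  om_neg_right om_self om_zero_left om_zero_right om_emb om_e0 om_swap tS tS_mulVec mul_mulVec
  one_mulVec' sp_ext mp mp_tS)
open Vale.Agent.P092.H678 (LS psi psi_inj)
open Vale.Agent.P092.H677.OK (hom_pi_triv)
open Vale.Agent.P092.H677.SP (sp_t2 sp_lc sp_sc sp_pol sp_itg sp_emb cont_tS eq_top_of_tS mp_inj
  hom_triv_k)
open Vale.Agent.P092.H677.FF (Kv ev norm_ev av_int kv_add cpt_ball approx_S int_of norm_sum_le II KK
  oi oi_inj pK pK_alg alg_inj)

section strong

variable (F : Type) [Field F] [Finite F] (S : Set (HeightOneSpectrum F[X]))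
  (m : Type) [Fintype m] [DecidableEq m]

attribute [local instance] sp_t2 sp_lc sp_sc sp_pol sp_itg

/-- `Sp_{2n}` of the `S`-integers in the product over `S` -/
noncomputable def q2 : symplecticGroup m (S.integer (RatFunc F)) →* ∀ v : S, symplecticGroup m (Kv F v) :=
  MonoidHom.pi fun v => mp (FF.of F S v)

/-- the matrices with entries of norm `≤ 1` -/
def UU (v : HeightOneSpectrum F[X]) : Set (symplecticGroup m (Kv F v)) :=
  {g | ∀ i j, ‖g.1 i j‖ ≤ 1}

theorem UU_open (v : HeightOneSpectrum F[X]) : IsOpen (UU F m v) := by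
  rw [UU, Set.setOf_forall]
  refine isOpen_iInter_of_finite fun i => ?_
  rw [Set.setOf_forall]
  refine isOpen_iInter_of_finite fun j => ?_
  have h0 : Continuous fun x : symplecticGroup m (Kv F v) => x.1 i j :=
    continuous_subtype_val.matrix_elem i j
  have h1 : IsOpen (Metric.closedBall (0 : Kv F v) 1) :=
    IsUltrametricDist.isOpen_closedBall _ one_ne_zero
  have h2 := h1.preimage h0
  refine (congrArg IsOpen ?_).mp h2
  ext x
  rw [Set.mem_preimage, mem_closedBall_zero_iff]
  rfl

theorem UU_cpt (v : HeightOneSpectrum F[X]) : IsCompact (UU F m v) := by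
  have h1 : IsCompact {M : Matrix (m ⊕ m) (m ⊕ m) (Kv F v) | ∀ i j, ‖M i j‖ ≤ 1} := by
    have h2 : IsCompact (Set.pi Set.univ fun _ : m ⊕ m => Set.pi Set.univ fun _ : m ⊕ m =>
        Metric.closedBall (0 : Kv F v) 1) :=
      isCompact_univ_pi fun _ => isCompact_univ_pi fun _ => cpt_ball F v
    refine (congrArg IsCompact ?_).mp h2
    ext M
    simp only [Set.mem_pi, Set.mem_univ, forall_true_left, mem_closedBall_zero_iff]
    exact Iff.rfl
  exact (sp_emb (l := m) (A := Kv F v)).isCompact_preimage h1

theorem UU_mul {v : HeightOneSpectrum F[X]} {g h : symplecticGroup m (Kv F v)}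
    (hg : g ∈ UU F m v) (hh : h ∈ UU F m v) : g * h ∈ UU F m v := by
  intro i j
  show ‖(g.1 * h.1) i j‖ ≤ 1
  rw [Matrix.mul_apply]
  refine norm_sum_le F _ _ fun k _ => ?_
  rw [norm_mul]
  exact mul_le_one₀ (hg i k) (norm_nonneg _) (hh k j)

theorem UU_one (v : HeightOneSpectrum F[X]) : (1 : symplecticGroup m (Kv F v)) ∈ UU F m v := by
  intro i j
  show ‖(1 : Matrix (m ⊕ m) (m ⊕ m) (Kv F v)) i j‖ ≤ 1
  by_cases h : i = j
  · subst h; rw [one_apply_eq, norm_one]
  · rw [one_apply_ne h, norm_zero]; exact zero_le_one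

theorem UU_int (v : HeightOneSpectrum F[X]) (δ : symplecticGroup m F[X]) :
    mp ((ev F v).comp (algebraMap F[X] (RatFunc F))) δ ∈ UU F m v := by
  intro i j
  show ‖ev F v (algebraMap F[X] (RatFunc F) (δ.1 i j))‖ ≤ 1
  rw [norm_ev]
  exact av_int F v _

/-- **Strong approximation** at the places of `S`. -/
theorem strong [Finite S] : (q2 F S m).range.topologicalClosure = ⊤ := by
  classical
  haveI : Fintype S := Fintype.ofFinite _
  obtain ⟨H, hH⟩ : ∃ H, H = (q2 F S m).range.topologicalClosure := ⟨_, rfl⟩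
  have h1 : ∀ v : S, H.comap
      (MonoidHom.mulSingle (fun v : S => symplecticGroup m (Kv F v)) v) = ⊤ := by
    intro v
    refine eq_top_of_tS _ _ fun u c => ?_
    rw [Subgroup.mem_comap]
    obtain ⟨p, hp⟩ : ∃ p : ∀ w : S, (m ⊕ m → Kv F w) × Kv F w, p = Pi.single v (u, c) := ⟨_, rfl⟩
    -- approximate
    have h2 : (Pi.mulSingle v (tS u c) : ∀ v : S, symplecticGroup m (Kv F v)) ∈
        closure (Set.range fun y : (m ⊕ m → S.integer (RatFunc F)) × S.integer (RatFunc F) => fun w : S =>
          tS (fun i => FF.of F S w (y.1 i)) (FF.of F S w y.2)) := by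
      have h3 : p ∈ closure (Set.range fun y : (m ⊕ m → S.integer (RatFunc F)) × S.integer (RatFunc F) =>
          fun w : S => ((fun i => FF.of F S w (y.1 i) : m ⊕ m → Kv F w), FF.of F S w y.2)) := by
        rw [Metric.mem_closure_iff]
        intro ε hε
        choose y hy using fun i => approx_S F S (fun w => (p w).1 i) hε
        obtain ⟨z, hz⟩ := approx_S F S (fun w => (p w).2) hε
        refine ⟨_, ⟨(y, z), rfl⟩, ?_⟩
        rw [dist_pi_lt_iff hε]
        intro w
        rw [Prod.dist_eq, max_lt_iff]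
        constructor
        · rw [dist_pi_lt_iff hε]
          intro i
          rw [dist_eq_norm]
          exact hy i w
        · rw [dist_eq_norm]
          exact hz w
      have h4 : Continuous fun x : ∀ w : S, (m ⊕ m → Kv F w) × Kv F w => fun w : S =>
          (tS (x w).1 (x w).2 : symplecticGroup m (Kv F w)) :=
        continuous_pi fun w => cont_tS.comp (continuous_apply w)
      have h5 := image_closure_subset_closure_image h4 ⟨_, h3, rfl⟩
      rw [← Set.range_comp] at h5
      have h6 : (fun w : S => (tS (p w).1 (p w).2 : symplecticGroup m (Kv F w))) =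
          Pi.mulSingle v (tS u c) := by
        funext w
        by_cases hw : w = v
        · subst hw
          rw [hp, Pi.single_eq_same, Pi.mulSingle_eq_same]
        · rw [hp, Pi.single_eq_of_ne hw, Pi.mulSingle_eq_of_ne hw]
          refine sp_ext fun y => ?_
          rw [tS_mulVec, one_mulVec']
          simp
      rw [← h6]
      exact h5
    rw [hH]
    refine closure_mono ?_ h2
    rintro _ ⟨y, rfl⟩
    refine ⟨tS y.1 y.2, ?_⟩
    funext w
    exact mp_tS _ _ _
  rw [← hH, eq_top_iff]
  intro x _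
  refine Subgroup.pi_mem_of_mulSingle_mem x fun v => ?_
  have h2 : x v ∈ H.comap
      (MonoidHom.mulSingle (fun v : S => symplecticGroup m (Kv F v)) v) := by
    rw [h1]; exact Subgroup.mem_top _
  exact h2

theorem strong' [Finite S] (y : ∀ v : S, symplecticGroup m (Kv F v)) :
    ∃ γ : symplecticGroup m (S.integer (RatFunc F)), ∀ v : S, y v * q2 F S m γ v ∈ UU F m v := by
  have h1 : IsOpen {g : ∀ v : S, symplecticGroup m (Kv F v) |
      ∀ v : S, y v * g v ∈ UU F m v} := by
    rw [Set.setOf_forall]
    refine isOpen_iInter_of_finite fun v => ?_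
    exact (UU_open F m v).preimage (continuous_const.mul (continuous_apply v))
  have h2 : y⁻¹ ∈ closure ((q2 F S m).range : Set (∀ v : S, symplecticGroup m (Kv F v))) := by
    have h3 : y⁻¹ ∈ (q2 F S m).range.topologicalClosure := by
      rw [strong]; exact Subgroup.mem_top _
    exact h3
  obtain ⟨_, hx, ⟨γ, rfl⟩⟩ := mem_closure_iff.1 h2 _ h1 (fun v => by
    rw [Pi.inv_apply, mul_inv_cancel]
    exact UU_one F _ _)
  exact ⟨γ, hx⟩

end strong

section lat

variable (F : Type) [Field F] [Finite F] (S : Set (HeightOneSpectrum F[X]))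
  (m : Type) [Fintype m] [DecidableEq m]

attribute [local instance] sp_t2 sp_lc sp_sc sp_pol sp_itg

/-- `Sp_{2n}(F[x])` in `Sp_{2n}(F((1/x)))` -/
noncomputable def embP : symplecticGroup m F[X] →* symplecticGroup m (LS F) := mp psi

theorem lat_embP : H515.IsLattice (embP F m).range :=
  H678.P.isLattice_spA (H678.P.coc_poly F) m

/-- `Sp_{2n}` of the `S`-integers in `Sp_{2n}(F((1/x)))` -/
noncomputable def q1 : symplecticGroup m (S.integer (RatFunc F)) →* symplecticGroup m (LS F) :=
  mp ((pK F).comp (algebraMap (S.integer (RatFunc F)) (RatFunc F)))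

/-- from `Sp_{2n}F[X]` to `Sp_{2n}` of the `S`-integers -/
noncomputable def qO : symplecticGroup m F[X] →* symplecticGroup m (S.integer (RatFunc F)) :=
  mp (algebraMap F[X] (S.integer (RatFunc F)))

theorem q1_qO (δ : symplecticGroup m F[X]) : q1 F S m (qO F S m δ) = embP F m δ := by
  apply Subtype.ext
  ext i j
  exact pK_alg F _

theorem q2_qO (δ : symplecticGroup m F[X]) (v : S) :
    q2 F S m (qO F S m δ) v ∈ UU F m v := UU_int F m v δ

theorem embP_inj : Function.Injective (embP F m) := mp_inj m psi_inj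

theorem int_sp {γ : symplecticGroup m (S.integer (RatFunc F))}
    (h : ∀ v : S, q2 F S m γ v ∈ UU F m v) : ∃ δ, qO F S m δ = γ := by
  have h1 : ∀ i j, ∃ a : F[X], algebraMap F[X] (RatFunc F) a = (γ.1 i j : S.integer (RatFunc F)) := fun i j =>
    int_of F (γ.1 i j) fun v => h v i j
  choose a ha using h1
  have h2 : ∀ i j, algebraMap F[X] (S.integer (RatFunc F)) (a i j) = γ.1 i j := fun i j =>
    Subtype.ext (ha i j)
  have hinj := alg_inj F S
  have h3 : (Matrix.of a).map (algebraMap F[X] (S.integer (RatFunc F))) = γ.1 := by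
    ext i j
    simp [h2]
  refine ⟨⟨Matrix.of a, ?_⟩, Subtype.ext h3⟩
  rw [SymplecticGroup.mem_iff]
  apply Matrix.map_injective hinj
  have h4 := SymplecticGroup.mem_iff.1 γ.2
  rw [← h3] at h4
  show (Matrix.of a * J m F[X] * (Matrix.of a)ᵀ).map (algebraMap F[X] (S.integer (RatFunc F))) =
    (J m F[X]).map (algebraMap F[X] (S.integer (RatFunc F)))
  rw [Matrix.map_mul, Matrix.map_mul, map_J, transpose_map]
  exact h4

/-- the embedding -/
noncomputable def q12 : symplecticGroup m (S.integer (RatFunc F)) →*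
    symplecticGroup m (LS F) × ∀ v : S, symplecticGroup m (Kv F v) :=
  (q1 F S m).prod (q2 F S m)

theorem q12_disc [Finite S] : DiscreteTopology (q12 F S m).range := by
  have h0 := (lat_embP F m).disc
  have h1 : IsOpen ({1} : Set (embP F m).range) := isOpen_discrete _
  obtain ⟨W, hW, hW'⟩ := isOpen_induced_iff.1 h1
  have hW1 : (1 : symplecticGroup m (LS F)) ∈ W := by
    have : (1 : (embP F m).range) ∈ Subtype.val ⁻¹' W := by
      rw [hW']; rfl
    exact this
  refine discreteTopology_of_isOpen_singleton_one ?_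
  rw [isOpen_induced_iff]
  refine ⟨W ×ˢ {y | ∀ v : S, y v ∈ UU F m v}, hW.prod ?_, ?_⟩
  · rw [setOf_forall]
    exact isOpen_iInter_of_finite fun v => (UU_open F m v).preimage (continuous_apply v)
  · ext ⟨x, γ, hγ⟩
    constructor
    · rintro ⟨hx1, hx2⟩
      subst hγ
      obtain ⟨δ, rfl⟩ := int_sp F S m (γ := γ) hx2
      have h2 : embP F m δ ∈ W := by
        rw [← q1_qO F S]
        exact hx1
      have h3 : (⟨embP F m δ, δ, rfl⟩ : (embP F m).range) ∈ Subtype.val ⁻¹' W := h2
      rw [hW'] at h3
      have h4 : embP F m δ = 1 := congrArg Subtype.val h3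
      have h5 : δ = 1 := embP_inj F m (by rw [h4, map_one])
      subst h5
      rw [mem_singleton_iff]
      apply Subtype.ext
      show q12 F S m (qO F S m 1) = 1
      rw [map_one, map_one]
    · intro hx
      rw [mem_singleton_iff] at hx
      have hx' : x = 1 := congrArg Subtype.val hx
      show x ∈ W ×ˢ {y | ∀ v : S, y v ∈ UU F m v}
      rw [hx']
      exact ⟨hW1, fun v => UU_one F _ _⟩

theorem hom_triv2 [Finite S] (f : (symplecticGroup m (LS F) ×
      ∀ v : S, symplecticGroup m (Kv F v)) →* (ℝ≥0)ˣ) : f = 1 := by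
  classical
  haveI : Fintype S := Fintype.ofFinite _
  have h1 : f.comp (MonoidHom.inl _ _) = 1 := by
    have h3 : Infinite (LS F) := NontriviallyNormedField.infinite _
    exact hom_triv_k _ _
  have h2 : f.comp (MonoidHom.inr _ _) = 1 := by
    refine hom_pi_triv _ fun v x => ?_
    have h2 : (f.comp (MonoidHom.inr _ _)).comp
        (MonoidHom.mulSingle (fun v : S => symplecticGroup m (Kv F v)) v) = 1 := by
      have h3 : Infinite (Kv F v) := NontriviallyNormedField.infinite _
      exact hom_triv_k _ _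
    exact DFunLike.congr_fun h2 x
  refine MonoidHom.ext fun x => ?_
  have h3 : x = (x.1, 1) * (1, x.2) := by
    rw [Prod.mk_mul_mk, mul_one, one_mul]
  have h4 : f (x.1, 1) = 1 := DFunLike.congr_fun h1 x.1
  have h5 : f (1, x.2) = 1 := DFunLike.congr_fun h2 x.2
  rw [h3, map_mul, h4, h5, mul_one]
  rfl

theorem lat_q12 [Finite S] : H515.IsLattice (q12 F S m).range := by
  haveI := q12_disc F S m
  letI : MeasurableSpace (symplecticGroup m (LS F)) := borel _
  haveI : BorelSpace (symplecticGroup m (LS F)) := ⟨rfl⟩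
  borelize (∀ v : S, symplecticGroup m (Kv F v))
  obtain ⟨μ₁, hμ₁⟩ : ∃ μ : Measure (symplecticGroup m (LS F)),
    μ = haar := ⟨_, rfl⟩
  obtain ⟨μ₂, hμ₂⟩ : ∃ μ : Measure (∀ v : S, symplecticGroup m (Kv F v)),
    μ = haar := ⟨_, rfl⟩
  haveI hH₁ : IsHaarMeasure μ₁ := by rw [hμ₁]; infer_instance
  haveI hH₂ : IsHaarMeasure μ₂ := by rw [hμ₂]; infer_instance
  haveI t1 : SigmaFinite μ₁ := inferInstance
  haveI t2 : SigmaFinite μ₂ := inferInstance
  haveI t3 : IsHaarMeasure (μ₁.prod μ₂) := inferInstance
  haveI hr : IsMulRightInvariant (μ₁.prod μ₂) :=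
    H515.rightInv_of_modChar _ (H515.modChar_of_perfect (hom_triv2 F S m))
  obtain ⟨E, -, hF, -, hFc, -⟩ := H515.IsLattice.exists_fdom_right μ₁ (lat_embP F m)
  have hU : IsCompact (Set.pi univ fun v : S => UU F m v) :=
    isCompact_univ_pi fun v => UU_cpt F m v
  refine H515.isLattice_of_cover _ (μ₁.prod μ₂)
    (F := E ×ˢ (Set.pi univ fun v : S => UU F m v)) ?_ fun x => ?_
  · rw [Measure.prod_prod]
    exact ENNReal.mul_lt_top hF hU.measure_lt_top
  · obtain ⟨γ, hγ⟩ := strong' F S m x.2
    obtain ⟨⟨_, δ, rfl⟩, hδ, -⟩ := hFc (x.1 * q1 F S m γ)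
    refine ⟨⟨q12 F S m (γ * qO F S m δ), _, rfl⟩, ?_, ?_⟩
    · show x.1 * q1 F S m (γ * qO F S m δ) ∈ E
      rw [map_mul, ← mul_assoc, q1_qO]
      exact hδ
    · intro v _
      show x.2 v * q2 F S m (γ * qO F S m δ) v ∈ UU F m v
      rw [map_mul, Pi.mul_apply, ← mul_assoc]
      exact UU_mul F m (hγ v) (q2_qO F S m δ v)

/-- `Sp_{2n}` of the `S`-integers in the product of the groups `Sp_{2n}` of the completions -/
noncomputable def embS : symplecticGroup m (S.integer (RatFunc F)) →* ∀ i, symplecticGroup m (KK F S i) :=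
  MonoidHom.pi fun i => mp (oi F S i)

theorem embS_inj : Function.Injective (embS F S m) := by
  intro g h hgh
  exact mp_inj m (oi_inj F S (Sum.inl ())) (congrFun hgh (Sum.inl ()))

/-- the splitting of the product -/
noncomputable def spl : (symplecticGroup m (LS F) ×
      ∀ v : S, symplecticGroup m (Kv F v)) ≃* ∀ i, symplecticGroup m (KK F S i) where
  toFun x i := match i with
    | Sum.inl _ => x.1
    | Sum.inr v => x.2 v
  invFun y := (y (Sum.inl ()), fun v => y (Sum.inr v))
  left_inv x := rfl
  right_inv y := by funext i; rcases i with j | v <;> rfl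
  map_mul' x y := by funext i; rcases i with j | v <;> rfl

theorem spl_cont : Continuous (spl F S m) := by
  refine continuous_pi fun i => ?_
  rcases i with j | v
  · exact continuous_fst
  · exact (continuous_apply v).comp continuous_snd

theorem spl_symm_cont : Continuous (spl F S m).symm :=
  Continuous.prodMk (continuous_apply (Sum.inl () : II F S))
    (continuous_pi fun v => continuous_apply (Sum.inr v : II F S))

theorem spl_q12 (γ : symplecticGroup m (S.integer (RatFunc F))) :
    spl F S m (q12 F S m γ) = embS F S m γ := by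
  funext i
  rcases i with j | v <;> rfl

/-- **`Sp_{2n}` of the `S`-integers is a lattice of the product of the groups `Sp_{2n}` of the
completions at the infinite places and the places of `S`.** -/
theorem lat_embS [Finite S] : H515.IsLattice (embS F S m).range := by
  have h2 := H515.IsLattice.map_equiv (spl F S m) (spl_cont F S _) (spl_symm_cont F S _)
    (lat_q12 F S m)
  have h3 : (q12 F S m).range.map ((spl F S m : _ ≃* _) : _ →* _) = (embS F S m).range := by
    ext x
    constructor
    · rintro ⟨_, ⟨γ, rfl⟩, rfl⟩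
      exact ⟨γ, (spl_q12 F S _ γ).symm⟩
    · rintro ⟨γ, rfl⟩
      exact ⟨_, ⟨γ, rfl⟩, spl_q12 F S _ γ⟩
  rw [← h3]
  exact h2


end lat

end Vale.Agent.P092.H677.FF.SP
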