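import Vale.Agent.P092.H677.PMc
import Vale.Agent.P092.H677.SPf
import Vale.Agent.P092.H677.PLc

/-!
P092 (helper677), [OKS-SP], part 10: **`PSp_{2n}` of the `S`-integers of a number field, `n ≥ 1`, is in
the class `LatticeL` if there are at least two places.**
-/

set_option linter.all false

open Matrix Set Filter Topology NumberField IsDedekindDomain
open NumberField.InfinitePlace NumberField.mixedEmbedding

namespace Vale.Agent.P092.H677.SP

open Vale.Agent.P092.H759 (om om_swap om_single_inl om_single_inr om_self tS tS_mulVec mp mp_tS neg1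
  neg1_mulVec one_mulVec')
open Vale.Agent.P092.H678.P (of_mem_center mem_center_of icc_psp)
open Vale.Agent.P092.H677.OK (II KK oi oi_inj jj_nonempty locK_KK small_all charZero_KK JJ)

variable (K : Type) [Field K] [NumberField K] (S : Set (HeightOneSpectrum (𝓞 K)))
  (m : Type) [Fintype m] [DecidableEq m]

attribute [local instance] sp_t2 sp_lc sp_sc sp_pol sp_itg

section map

variable {A B : Type} [CommRing A] [IsDomain A] [CommRing B] [IsDomain B] {f : A →+* B}

theorem mp_neg1' (f : A →+* B) : mp f (neg1 m A) = neg1 m B := by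
  apply Subtype.ext
  ext i j
  show f ((-1 : Matrix (m ⊕ m) (m ⊕ m) A) i j) = (-1 : Matrix (m ⊕ m) (m ⊕ m) B) i j
  by_cases hij : i = j
  · subst hij; simp
  · simp [hij]

theorem center_le (h2 : (2 : A) ≠ 0) (f : A →+* B) : Subgroup.center (symplecticGroup m A) ≤
    (Subgroup.center (symplecticGroup m B)).comap (mp f) := by
  intro x hx
  rw [Subgroup.mem_comap]
  apply mem_center_of
  rcases of_mem_center h2 hx with h1 | h1
  · left; rw [h1, map_one]
  · right; rw [h1, mp_neg1']

/-- `PSp_{2n}(A) → PSp_{2n}(B)` -/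
noncomputable def pmap (h2 : (2 : A) ≠ 0) (f : A →+* B) :
    (symplecticGroup m A ⧸ Subgroup.center (symplecticGroup m A)) →*
      (symplecticGroup m B ⧸ Subgroup.center (symplecticGroup m B)) :=
  QuotientGroup.map _ _ (mp f) (center_le m h2 f)

theorem pmap_inj (h2 : (2 : A) ≠ 0) {f : A →+* B} (hf : Function.Injective f) :
    Function.Injective (pmap m h2 f) := by
  rw [injective_iff_map_eq_one]
  intro g hg
  obtain ⟨x, rfl⟩ := QuotientGroup.mk'_surjective _ g
  have h1 : mp f x ∈ Subgroup.center (symplecticGroup m B) := (QuotientGroup.eq_one_iff _).1 hg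
  have h2' : (2 : B) ≠ 0 := by
    intro h0
    apply h2
    apply hf
    rw [map_ofNat, h0, map_zero]
  refine (QuotientGroup.eq_one_iff _).2 (mem_center_of ?_)
  rcases of_mem_center h2' h1 with h3 | h3
  · left
    exact mp_inj m hf (h3.trans (map_one _).symm)
  · right
    exact mp_inj m hf (h3.trans (mp_neg1' m f).symm)

end map

theorem two_OS : (2 : S.integer K) ≠ 0 := two_ne_zero

/-- `PSp_{2n}` of the `S`-integers in the product of the groups `PSp_{2n}` of the completions -/
noncomputable def pembS : (symplecticGroup m (S.integer K) ⧸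
      Subgroup.center (symplecticGroup m (S.integer K))) →*
    ∀ i, symplecticGroup m (KK K S i) ⧸ Subgroup.center (symplecticGroup m (KK K S i)) :=
  MonoidHom.pi fun i => pmap m (two_OS K S) (oi K S i)

theorem pembS_inj : Function.Injective (pembS K S m) := by
  obtain ⟨j⟩ := jj_nonempty K
  intro g h hgh
  exact pmap_inj m (two_OS K S) (oi_inj K S (Sum.inl j)) (congrFun hgh (Sum.inl j))

theorem finite_center (k : Type) [Field k] [CharZero k] :
    Finite (Subgroup.center (symplecticGroup m k)) := by
  have h : ((Subgroup.center (symplecticGroup m k) : Subgroup (symplecticGroup m k)) :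
      Set (symplecticGroup m k)) ⊆ {1, neg1 m k} := fun g hg => of_mem_center two_ne_zero hg
  exact ((Set.toFinite {1, neg1 m k}).subset h).to_subtype

theorem lat_pembS [Finite S] : H515.St.IsLattice (pembS K S m).range := by
  have h0 := lat_embS K S m
  obtain ⟨π, hπ⟩ : ∃ π : (∀ i, symplecticGroup m (KK K S i)) →*
      ∀ i, symplecticGroup m (KK K S i) ⧸ Subgroup.center (symplecticGroup m (KK K S i)),
      π = MonoidHom.pi fun i => (H259.pq _).comp (Pi.evalMonoidHom _ i) := ⟨_, rfl⟩
  have hfin : ∀ i, Finite (Subgroup.center (symplecticGroup m (KK K S i))) :=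
    fun i => finite_center m _
  have hcl : ∀ i, IsClosed ((Subgroup.center (symplecticGroup m (KK K S i)) :
      Subgroup _) : Set (symplecticGroup m (KK K S i))) :=
    fun i => (Set.toFinite _).isClosed
  have hp : IsProperMap π := by
    rw [hπ]
    exact IsProperMap.pi_map fun i => H259.isProperMap_pq (hfin i)
  have hs : Function.Surjective π := by
    rw [hπ]
    intro y
    choose x hx using fun i => QuotientGroup.mk'_surjective _ (y i)
    exact ⟨x, funext hx⟩
  have hr : (embS K S m).range.map π = (pembS K S m).range := by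
    ext x
    constructor
    · rintro ⟨_, ⟨g, rfl⟩, rfl⟩
      exact ⟨QuotientGroup.mk' _ g, by rw [hπ]; rfl⟩
    · rintro ⟨g, rfl⟩
      obtain ⟨y, rfl⟩ := QuotientGroup.mk'_surjective _ g
      exact ⟨_, ⟨y, rfl⟩, by rw [hπ]; rfl⟩
  rw [← hr]
  exact H259.isLattice_map hp hs ⟨h0.disc, h0.covol⟩

theorem tS_center {k : Type} [Field k] [CharZero k] {i : m} {c : k}
    (h : (tS (Pi.single (Sum.inl i) 1) c : symplecticGroup m k) ∈
      Subgroup.center (symplecticGroup m k)) : c = 0 := by
  obtain ⟨e, he⟩ : ∃ e : m ⊕ m → k, e = Pi.single (Sum.inl i) 1 := ⟨_, rfl⟩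
  obtain ⟨f, hf⟩ : ∃ f : m ⊕ m → k, f = Pi.single (Sum.inr i) 1 := ⟨_, rfl⟩
  have hfe : om f e = 1 := by rw [hf, om_single_inr, he, Pi.single_eq_same]
  have hef : om e f = -1 := by rw [om_swap, hfe]
  rw [← he] at h
  rcases of_mem_center two_ne_zero h with h1 | h1
  · have h2 := congrArg (fun g : symplecticGroup m k => om f (g.1 *ᵥ f)) h1
    simp only [tS_mulVec, one_mulVec', H759.om_add_right, H759.om_smul_right, om_self, hfe, hef]
      at h2
    linear_combination -h2
  · exfalso
    have h2 := congrArg (fun g : symplecticGroup m k => om f (g.1 *ᵥ e)) h1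
    simp only [tS_mulVec, neg1_mulVec, H759.om_add_right, H759.om_smul_right, H759.om_neg_right,
      om_self, hfe, mul_zero, zero_mul, add_zero] at h2
    norm_num at h2

theorem non_disc [Nonempty m] (i : II K S)
    (h : ∀ ε > 0, ∃ x : S.integer K, x ≠ 0 ∧ ‖oi K S i x‖ < ε) :
    ¬ DiscreteTopology (Set.range fun g => pembS K S m g i) := by
  intro hd
  obtain ⟨i₀⟩ := (inferInstance : Nonempty m)
  have h11 : (fun g => pembS K S m g i) 1 = 1 := by
    show pembS K S m 1 i = 1
    rw [map_one]
    rfl
  have h1 : IsOpen ({⟨1, 1, h11⟩} : Set (Set.range fun g => pembS K S m g i)) :=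
    isOpen_discrete _
  obtain ⟨W, hW, hW'⟩ := isOpen_induced_iff.1 h1
  have hW1 : (1 : symplecticGroup m (KK K S i) ⧸
      Subgroup.center (symplecticGroup m (KK K S i))) ∈ W := by
    have : (⟨1, 1, h11⟩ : Set.range fun g => pembS K S m g i) ∈ Subtype.val ⁻¹' W := by
      rw [hW']; rfl
    exact this
  have hc0 : Continuous fun c : KK K S i =>
      (tS (Pi.single (Sum.inl i₀) 1) c : symplecticGroup m (KK K S i)) :=
    cont_tS.comp (Continuous.prodMk continuous_const continuous_id)
  have hc : Continuous fun c : KK K S i =>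
      (QuotientGroup.mk (tS (Pi.single (Sum.inl i₀) 1) c) :
        symplecticGroup m (KK K S i) ⧸ Subgroup.center (symplecticGroup m (KK K S i))) :=
    Continuous.comp continuous_quotient_mk' hc0
  have h0 : (0 : KK K S i) ∈ (fun c : KK K S i =>
      (QuotientGroup.mk (tS (Pi.single (Sum.inl i₀) 1) c) :
        symplecticGroup m (KK K S i) ⧸ Subgroup.center (symplecticGroup m (KK K S i)))) ⁻¹' W := by
    rw [Set.mem_preimage, H678.P.tS_zero]
    exact hW1
  obtain ⟨ε, hε, hb⟩ := Metric.isOpen_iff.1 (hW.preimage hc) 0 h0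
  obtain ⟨x, hx0, hx⟩ := h ε hε
  have h2 := hb (mem_ball_zero_iff.2 hx)
  have h3 : pembS K S m (QuotientGroup.mk (tS (Pi.single (Sum.inl i₀) 1) x)) i =
      QuotientGroup.mk (tS (Pi.single (Sum.inl i₀) 1) (oi K S i x)) := by
    have h4 : mp (oi K S i) (tS (Pi.single (Sum.inl i₀) 1) x) =
        tS (Pi.single (Sum.inl i₀) 1) (oi K S i x) := by
      rw [mp_tS]
      congr 1
      funext a
      by_cases ha : a = Sum.inl i₀
      · subst ha; simp
      · simp [ha]
    rw [← h4]
    rfl
  have h4 : (⟨pembS K S m (QuotientGroup.mk (tS (Pi.single (Sum.inl i₀) 1) x)) i, _, rfl⟩ :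
      Set.range fun g => pembS K S m g i) ∈ Subtype.val ⁻¹' W := by
    rw [Set.mem_preimage]
    rw [Set.mem_preimage, ← h3] at h2
    exact h2
  rw [hW', Set.mem_singleton_iff] at h4
  have h5 : (QuotientGroup.mk (tS (Pi.single (Sum.inl i₀) 1) (oi K S i x)) :
      symplecticGroup m (KK K S i) ⧸ Subgroup.center (symplecticGroup m (KK K S i))) = 1 := by
    rw [← h3]
    exact congrArg Subtype.val h4
  have h6 := tS_center m ((QuotientGroup.eq_one_iff _).1 h5)
  exact hx0 (oi_inj K S i (by rw [h6, map_zero]))

/-- **`PSp_{2n}` of the `S`-integers of a number field `K`, `S` a finite set of finite places,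
`n ≥ 1`, is in the class `LatticeL` if `S` is not empty or `K` has at least two infinite places.** -/
theorem latticeL_sp (hS : S.Finite) [Nonempty m]
    (h : S.Nonempty ∨ 2 ≤ Fintype.card (InfinitePlace K)) :
    UN.LatticeL (symplecticGroup m (S.integer K) ⧸
      Subgroup.center (symplecticGroup m (S.integer K))) := by
  haveI := hS.to_subtype
  haveI : Infinite (S.integer K) := CharZero.infinite _
  refine ⟨icc_psp (two_OS K S), II K S, Fintype.ofFinite _,
    fun i => symplecticGroup m (KK K S i) ⧸ Subgroup.center (symplecticGroup m (KK K S i)),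
    inferInstance, inferInstance,
    ∀ i, symplecticGroup m (KK K S i) ⧸ Subgroup.center (symplecticGroup m (KK K S i)),
    inferInstance, inferInstance,
    MonoidHom.id _, pembS K S m, inferInstance, isProperMap_id, ?_, pembS_inj K S _,
    (UN.isLattice_iff _).2 (lat_pembS K S m), fun i => ⟨?_, ?_⟩⟩
  · rw [MonoidHom.range_eq_top.2 Function.surjective_id]
    infer_instance
  · exact ⟨KK K S i, inferInstance, inferInstance, locK_KK K S i, inferInstance,
      isLie_psp (KK K S i) m⟩
  · exact non_disc K S m i fun ε hε => small_all K S h i hε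

/-- the same with `n` in place of the index type -/
theorem latticeL_Sp_OKS (hS : S.Finite) {n : ℕ} (hn : 1 ≤ n)
    (h : S.Nonempty ∨ 2 ≤ Fintype.card (InfinitePlace K)) :
    UN.LatticeL (symplecticGroup (Fin n) (S.integer K) ⧸
      Subgroup.center (symplecticGroup (Fin n) (S.integer K))) := by
  haveI : Nonempty (Fin n) := ⟨⟨0, hn⟩⟩
  exact latticeL_sp K S (Fin n) hS h

end Vale.Agent.P092.H677.SP
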