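import Vale.Agent.P092.H677.FFg
import Vale.Agent.P092.H677.FFh
import Vale.Agent.P092.H677.PMd
import Vale.Agent.P092.H678.P.EuW

/-!
P092 (helper677), [FF-LAT], part 9: `PSp_{2n}` of the `S`-integers of `F(x)`, `F` a finite field of
characteristic `≠ 2`, `n ≥ 1`, `S ≠ ∅`, is in the class `LatticeZ`; `n ≥ 2`, `S = ∅`: `LatticeW`.
-/

set_option linter.all false

open Matrix IsDedekindDomain Filter Topology Set
open scoped NNReal ENNReal nonZeroDivisors Polynomial

namespace Vale.Agent.P092.H677.FF.SP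

open Vale.Agent.P092.H759 (om om_eq om_add_left om_add_right om_smul_left om_smul_right om_neg_left
  om_neg_right om_self om_zero_left om_zero_right om_emb om_e0 om_swap om_single_inr om_single_inl tS
  tS_mulVec mul_mulVec one_mulVec' sp_ext mp mp_tS neg1 neg1_mulVec)
open Vale.Agent.P092.H678 (LS psi psi_inj)
open Vale.Agent.P092.H678.P (of_mem_center mem_center_of icc_psp finite_center SE quoS_psp mem_SE
  isAn_empty)
open Vale.Agent.P092.H677.SP (sp_t2 sp_lc sp_sc sp_pol sp_itg sp_emb cont_tS mp_inj pmap pmap_inj)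
open Vale.Agent.P092.H677.FF (II KK oi oi_inj locK_KK small_all topM topM_quo ker_topM clsV_top
  alg_inj)

attribute [local instance] sp_t2 sp_lc sp_sc sp_pol sp_itg

theorem clsV_psp (k : Type) [NontriviallyNormedField k] [ProperSpace k] (hk : UN.LocK k) {q : ℕ}
    (hq : 1 ≤ q) : UN.ClsV (H678.P.PSp (Fin q) k) := by
  have h0 := quoS_psp k q
  refine clsV_top ⟨k, inferInstance, inferInstance, hk, Or.inl ⟨RingHom.id k, -1, Empty,
    inferInstance, inferInstance, 0, q, SE k q, continuous_id, fun _ => rfl, by ring, rfl,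
    isAn_empty k _ _, hq, mem_SE, Or.inl ⟨Or.inr ⟨rfl, inferInstance⟩, ?_⟩⟩⟩
  obtain ⟨f, hf, hker⟩ := h0
  refine ⟨(topM _).comp f, (topM_quo _).comp hf, ?_⟩
  rw [ker_topM]
  exact hker

variable (F : Type) [Field F] [Finite F] (S : Set (HeightOneSpectrum F[X]))

theorem two_OS {F : Type} [Field F] (S : Set (HeightOneSpectrum F[X])) (h2 : (2 : F) ≠ 0) :
    (2 : S.integer (RatFunc F)) ≠ 0 := by
  intro h
  apply h2
  have h1 : (algebraMap F F[X]) 2 = 0 := by
    rw [map_ofNat]
    apply RatFunc.algebraMap_injective F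
    rw [map_ofNat, map_zero]
    exact congrArg (fun z : S.integer (RatFunc F) => (z : RatFunc F)) h
  exact (injective_iff_map_eq_zero (algebraMap F F[X])).1 (RingHom.injective _) _ h1

theorem two_KK {F : Type} [Field F] [Finite F] {S : Set (HeightOneSpectrum F[X])}
    (h2 : (2 : F) ≠ 0) (i : II F S) : (2 : KK F S i) ≠ 0 := by
  intro h
  apply two_OS S h2
  apply oi_inj F S i
  rw [map_ofNat, h, map_zero]

section m

variable (m : Type) [Fintype m] [DecidableEq m]

variable {F} in
/-- `PSp_{2n}` of the `S`-integers in the product of the groups `PSp_{2n}` of the completions -/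
noncomputable def pembS (h2 : (2 : F) ≠ 0) : (symplecticGroup m (S.integer (RatFunc F)) ⧸
      Subgroup.center (symplecticGroup m (S.integer (RatFunc F)))) →*
    ∀ i, symplecticGroup m (KK F S i) ⧸ Subgroup.center (symplecticGroup m (KK F S i)) :=
  MonoidHom.pi fun i => pmap m (two_OS S h2) (oi F S i)

variable {F}

theorem pembS_inj (h2 : (2 : F) ≠ 0) : Function.Injective (pembS S m h2) := by
  intro g h hgh
  exact pmap_inj m (two_OS S h2) (oi_inj F S (Sum.inl ())) (congrFun hgh (Sum.inl ()))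

theorem lat_pembS [Finite S] (h2 : (2 : F) ≠ 0) : H515.St.IsLattice (pembS S m h2).range := by
  have h0 := lat_embS F S m
  obtain ⟨π, hπ⟩ : ∃ π : (∀ i, symplecticGroup m (KK F S i)) →*
      ∀ i, symplecticGroup m (KK F S i) ⧸ Subgroup.center (symplecticGroup m (KK F S i)),
      π = MonoidHom.pi fun i => (H259.pq _).comp (Pi.evalMonoidHom _ i) := ⟨_, rfl⟩
  have hfin : ∀ i, Finite (Subgroup.center (symplecticGroup m (KK F S i))) :=
    fun i => finite_center (two_KK h2 i)
  have hcl : ∀ i, IsClosed ((Subgroup.center (symplecticGroup m (KK F S i)) :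
      Subgroup _) : Set (symplecticGroup m (KK F S i))) :=
    fun i => (Set.toFinite _).isClosed
  have hp : IsProperMap π := by
    rw [hπ]
    exact IsProperMap.pi_map fun i => H259.isProperMap_pq (hfin i)
  have hs : Function.Surjective π := by
    rw [hπ]
    intro y
    choose x hx using fun i => QuotientGroup.mk'_surjective _ (y i)
    exact ⟨x, funext hx⟩
  have hr : (embS F S m).range.map π = (pembS S m h2).range := by
    ext x
    constructor
    · rintro ⟨_, ⟨g, rfl⟩, rfl⟩
      exact ⟨QuotientGroup.mk' _ g, by rw [hπ]; rfl⟩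
    · rintro ⟨g, rfl⟩
      obtain ⟨y, rfl⟩ := QuotientGroup.mk'_surjective _ g
      exact ⟨_, ⟨y, rfl⟩, by rw [hπ]; rfl⟩
  rw [← hr]
  exact H259.isLattice_map hp hs ⟨h0.disc, h0.covol⟩

theorem tS_center {k : Type} [Field k] (h2 : (2 : k) ≠ 0) {i : m} {c : k}
    (h : (tS (Pi.single (Sum.inl i) 1) c : symplecticGroup m k) ∈
      Subgroup.center (symplecticGroup m k)) : c = 0 := by
  obtain ⟨e, he⟩ : ∃ e : m ⊕ m → k, e = Pi.single (Sum.inl i) 1 := ⟨_, rfl⟩
  obtain ⟨f, hf⟩ : ∃ f : m ⊕ m → k, f = Pi.single (Sum.inr i) 1 := ⟨_, rfl⟩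
  have hfe : om f e = 1 := by rw [hf, om_single_inr, he, Pi.single_eq_same]
  have hef : om e f = -1 := by rw [om_swap, hfe]
  rw [← he] at h
  rcases of_mem_center h2 h with h1 | h1
  · have h3 := congrArg (fun g : symplecticGroup m k => om f (g.1 *ᵥ f)) h1
    simp only [tS_mulVec, one_mulVec', H759.om_add_right, H759.om_smul_right, om_self, hfe, hef]
      at h3
    linear_combination -h3
  · exfalso
    have h3 := congrArg (fun g : symplecticGroup m k => om f (g.1 *ᵥ e)) h1
    simp only [tS_mulVec, neg1_mulVec, H759.om_add_right, H759.om_smul_right, H759.om_neg_right,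
      om_self, hfe, mul_zero, zero_mul, add_zero] at h3
    apply h2
    linear_combination h3

theorem non_disc [Nonempty m] (h2 : (2 : F) ≠ 0) (i : II F S)
    (h : ∀ ε > 0, ∃ x : S.integer (RatFunc F), x ≠ 0 ∧ ‖oi F S i x‖ < ε) :
    ¬ DiscreteTopology (Set.range fun g => pembS S m h2 g i) := by
  intro hd
  obtain ⟨i₀⟩ := (inferInstance : Nonempty m)
  have h11 : (fun g => pembS S m h2 g i) 1 = 1 := by
    show pembS S m h2 1 i = 1
    rw [map_one]
    rfl
  have h1 : IsOpen ({⟨1, 1, h11⟩} : Set (Set.range fun g => pembS S m h2 g i)) :=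
    isOpen_discrete _
  obtain ⟨W, hW, hW'⟩ := isOpen_induced_iff.1 h1
  have hW1 : (1 : symplecticGroup m (KK F S i) ⧸
      Subgroup.center (symplecticGroup m (KK F S i))) ∈ W := by
    have : (⟨1, 1, h11⟩ : Set.range fun g => pembS S m h2 g i) ∈ Subtype.val ⁻¹' W := by
      rw [hW']; rfl
    exact this
  have hc0 : Continuous fun c : KK F S i =>
      (tS (Pi.single (Sum.inl i₀) 1) c : symplecticGroup m (KK F S i)) :=
    cont_tS.comp (Continuous.prodMk continuous_const continuous_id)
  have hc : Continuous fun c : KK F S i =>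
      (QuotientGroup.mk (tS (Pi.single (Sum.inl i₀) 1) c) :
        symplecticGroup m (KK F S i) ⧸ Subgroup.center (symplecticGroup m (KK F S i))) :=
    Continuous.comp continuous_quotient_mk' hc0
  have h0 : (0 : KK F S i) ∈ (fun c : KK F S i =>
      (QuotientGroup.mk (tS (Pi.single (Sum.inl i₀) 1) c) :
        symplecticGroup m (KK F S i) ⧸ Subgroup.center (symplecticGroup m (KK F S i)))) ⁻¹' W := by
    rw [Set.mem_preimage, H678.P.tS_zero]
    exact hW1
  obtain ⟨ε, hε, hb⟩ := Metric.isOpen_iff.1 (hW.preimage hc) 0 h0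
  obtain ⟨x, hx0, hx⟩ := h ε hε
  have h3 := hb (mem_ball_zero_iff.2 hx)
  have h4 : pembS S m h2 (QuotientGroup.mk (tS (Pi.single (Sum.inl i₀) 1) x)) i =
      QuotientGroup.mk (tS (Pi.single (Sum.inl i₀) 1) (oi F S i x)) := by
    have h5 : mp (oi F S i) (tS (Pi.single (Sum.inl i₀) 1) x) =
        tS (Pi.single (Sum.inl i₀) 1) (oi F S i x) := by
      rw [mp_tS]
      congr 1
      funext a
      by_cases ha : a = Sum.inl i₀
      · subst ha; simp
      · simp [ha]
    rw [← h5]
    rfl
  have h5 : (⟨pembS S m h2 (QuotientGroup.mk (tS (Pi.single (Sum.inl i₀) 1) x)) i, _, rfl⟩ :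
      Set.range fun g => pembS S m h2 g i) ∈ Subtype.val ⁻¹' W := by
    rw [Set.mem_preimage]
    rw [Set.mem_preimage, ← h4] at h3
    exact h3
  rw [hW', Set.mem_singleton_iff] at h5
  have h6 : (QuotientGroup.mk (tS (Pi.single (Sum.inl i₀) 1) (oi F S i x)) :
      symplecticGroup m (KK F S i) ⧸ Subgroup.center (symplecticGroup m (KK F S i))) = 1 := by
    rw [← h4]
    exact congrArg Subtype.val h5
  have h7 := tS_center m (two_KK h2 i) ((QuotientGroup.eq_one_iff _).1 h6)
  exact hx0 (oi_inj F S i (by rw [h7, map_zero]))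

end m

/-- **`PSp_{2n}` of the `S`-integers of `F(x)`, `F` a finite field of characteristic `≠ 2`, `S ≠ ∅`
finite, `n ≥ 1`, is in the class `LatticeZ`.** -/
theorem latticeZ_sp {F : Type} [Field F] [Finite F] (h2 : (2 : F) ≠ 0)
    (S : Set (HeightOneSpectrum F[X])) (hS : S.Finite) (hS' : S.Nonempty) {n : ℕ} (hn : 1 ≤ n) :
    UN.LatticeZ (symplecticGroup (Fin n) (S.integer (RatFunc F)) ⧸
      Subgroup.center (symplecticGroup (Fin n) (S.integer (RatFunc F)))) := by
  haveI := hS.to_subtype
  haveI : Nonempty (Fin n) := ⟨⟨0, hn⟩⟩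
  refine ⟨icc_psp (two_OS S h2), II F S, Fintype.ofFinite _,
    fun i => H678.P.PSp (Fin n) (KK F S i),
    inferInstance, inferInstance,
    ∀ i, H678.P.PSp (Fin n) (KK F S i),
    inferInstance, inferInstance,
    MonoidHom.id _, pembS S (Fin n) h2, inferInstance, isProperMap_id, ?_, pembS_inj S _ h2,
    (UN.isLattice_iff _).2 (lat_pembS S (Fin n) h2), fun i => Or.inr ⟨Or.inl ?_, ?_⟩⟩
  · rw [MonoidHom.range_eq_top.2 Function.surjective_id]
    infer_instance
  · exact clsV_psp (KK F S i) (locK_KK F S i) hn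
  · exact non_disc S (Fin n) h2 i fun ε hε => small_all F S hS' i hε

end Vale.Agent.P092.H677.FF.SP
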