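import Vale.Agent.P092.H677.FFi
import Vale.Agent.P092.UN.StE

/-!
P092 (helper677), [FF-LAT], part 10: `S = ∅`: `PSp_{2n}` of the integers of `F(x)`, `n ≥ 2`, `F` of
characteristic `≠ 2`, is in the class `LatticeW`.
-/

set_option linter.all false

open Matrix IsDedekindDomain Filter Topology Set
open scoped NNReal ENNReal nonZeroDivisors Polynomial

namespace Vale.Agent.P092.H677.FF.SP

open Vale.Agent.P092.H759 (mp)
open Vale.Agent.P092.H678 (LS psi psi_inj)
open Vale.Agent.P092.H678.P (icc_psp psp psp_mk psp_lattice coc_poly two_LS isPol_psp PSp)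
open Vale.Agent.P092.H677.SP (pmap pmap_inj mp_inj)
open Vale.Agent.P092.H677.FF (pK alg_inj)

variable {F : Type} [Field F] [Finite F]

/-- the embedding of the `S`-integers in `F((1/x))` -/
noncomputable def pI (F : Type) [Field F] [Finite F] (S : Set (HeightOneSpectrum F[X])) :
    S.integer (RatFunc F) →+* LS F :=
  (pK F).comp (algebraMap (S.integer (RatFunc F)) (RatFunc F))

theorem pI_inj (S : Set (HeightOneSpectrum F[X])) : Function.Injective (pI F S) := by
  have h0 : Function.Injective (algebraMap (S.integer (RatFunc F)) (RatFunc F)) :=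
    Subtype.val_injective
  have h : Function.Injective (pK F) := RingHom.injective _
  exact h.comp h0

theorem pmap_mk (h2 : (2 : F) ≠ 0) (S : Set (HeightOneSpectrum F[X])) (n : ℕ)
    (δ : symplecticGroup (Fin n) F[X]) :
    pmap (Fin n) (two_OS S h2) (pI F S) (QuotientGroup.mk' _ (qO F S (Fin n) δ)) =
      psp (Fin n) (coc_poly F) (two_LS h2) (QuotientGroup.mk' _ δ) := by
  have h1 : mp (pI F S) (qO F S (Fin n) δ) = mp psi δ := q1_qO F S (Fin n) δ
  rw [psp_mk, ← h1]
  rfl

theorem range_eq (h2 : (2 : F) ≠ 0) (n : ℕ) :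
    (pmap (Fin n) (two_OS ∅ h2) (pI F ∅)).range =
      (psp (Fin n) (coc_poly F) (two_LS h2)).range := by
  ext x
  constructor
  · rintro ⟨g, rfl⟩
    obtain ⟨y, rfl⟩ := QuotientGroup.mk'_surjective _ g
    obtain ⟨δ, rfl⟩ := int_sp F ∅ (Fin n) (γ := y) (fun v => v.2.elim)
    exact ⟨_, (pmap_mk h2 ∅ n δ).symm⟩
  · rintro ⟨g, rfl⟩
    obtain ⟨δ, rfl⟩ := QuotientGroup.mk'_surjective _ g
    exact ⟨_, pmap_mk h2 ∅ n δ⟩

theorem infinite_OS (S : Set (HeightOneSpectrum F[X])) : Infinite (S.integer (RatFunc F)) :=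
  Infinite.of_injective _ (alg_inj F S)

theorem latticeW_sp (h2 : (2 : F) ≠ 0) {n : ℕ} (hn : 2 ≤ n) :
    UN.LatticeW (symplecticGroup (Fin n) ((∅ : Set (HeightOneSpectrum F[X])).integer (RatFunc F)) ⧸
      Subgroup.center (symplecticGroup (Fin n)
        ((∅ : Set (HeightOneSpectrum F[X])).integer (RatFunc F)))) := by
  haveI := infinite_OS (F := F) ∅
  have h5 : UN.IsLattice (pmap (Fin n) (two_OS ∅ h2) (pI F ∅)).range := by
    rw [range_eq h2]
    exact ⟨(psp_lattice (coc_poly F) (two_LS h2)).disc,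
      (psp_lattice (coc_poly F) (two_LS h2)).covol⟩
  exact ⟨icc_psp (two_OS ∅ h2), PSp (Fin n) (LS F), inferInstance, inferInstance,
    pmap (Fin n) (two_OS ∅ h2) (pI F ∅),
    Or.inl ⟨LS F, inferInstance, n, inferInstance, inferInstance, hn,
      isPol_psp (LS F) (two_LS h2) n⟩, pmap_inj _ _ (pI_inj ∅), h5⟩

end Vale.Agent.P092.H677.FF.SP
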