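import Vale.Agent.P092.H677.FFj

/-!
P092 (helper677), [FF-LAT], part 11: `PSp_{2n}` of the `S`-integers of `F(x)` in every characteristic.
-/

set_option linter.all false

open Matrix IsDedekindDomain Filter Topology Set
open scoped NNReal ENNReal nonZeroDivisors Polynomial

namespace Vale.Agent.P092.H677.FF.SP

open Vale.Agent.P092.H759 (om om_eq om_add_left om_add_right om_smul_left om_smul_right om_neg_left
  om_neg_right om_self om_zero_left om_zero_right om_emb om_e0 om_swap om_single_inr om_single_inl tS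
  tS_mulVec tS_conj tS_add mul_mulVec one_mulVec' mulVec_inv inv_mulVec sp_ext mp mp_tS neg1
  neg1_mulVec)
open Vale.Agent.P092.H678 (LS psi psi_inj)
open Vale.Agent.P092.H678.P (of_mem_center mem_center_of icc_psp SE quoS_psp mem_SE isAn_empty
  coc_poly spA isLattice_spA of_tS tS_neg tS_zero PSp)
open Vale.Agent.P092.H677.SP (sp_t2 sp_lc sp_sc sp_pol sp_itg sp_emb cont_tS mp_inj mp_neg1')
open Vale.Agent.P092.H677.FF (II KK oi oi_inj locK_KK small_all topM topM_quo ker_topM clsV_top
  alg_inj pK)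

attribute [local instance] sp_t2 sp_lc sp_sc sp_pol sp_itg

section any

variable {l : Type} [Fintype l] [DecidableEq l] {A : Type} [CommRing A] [IsDomain A]

theorem neg_self2 (h2 : (2 : A) = 0) (v : l ⊕ l → A) : -v = v := by
  funext i
  show -(v i) = v i
  linear_combination (-(v i)) * h2

theorem of_tS2 (h2 : (2 : A) = 0) {c : A} (hc : c ≠ 0) {u v : l ⊕ l → A} (h : tS u c = tS v c) :
    u = v := by
  rcases of_tS hc h with h1 | h1
  · exact h1
  · rw [h1, neg_self2 h2]

theorem of_mem_center2 (h2 : (2 : A) = 0) {g : symplecticGroup l A}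
    (hg : g ∈ Subgroup.center (symplecticGroup l A)) : g = 1 := by
  refine sp_ext fun v => ?_
  rw [one_mulVec']
  refine of_tS2 h2 one_ne_zero (c := (1 : A)) ?_
  rw [← tS_conj, (Subgroup.mem_center_iff.1 hg (tS v 1)).symm, mul_inv_cancel_right]

/-- the centre of `Sp_{2n}(A)`, every characteristic -/
theorem of_mem_center' {g : symplecticGroup l A}
    (hg : g ∈ Subgroup.center (symplecticGroup l A)) : g = 1 ∨ g = neg1 l A := by
  by_cases h2 : (2 : A) = 0
  · exact Or.inl (of_mem_center2 h2 hg)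
  · exact of_mem_center h2 hg

/-- `PSp_{2n}(A)` is ICC in characteristic two. -/
theorem icc_psp2 (h2 : (2 : A) = 0) [Infinite A] :
    UN.ICC (symplecticGroup l A ⧸ Subgroup.center (symplecticGroup l A)) := by
  intro y hy hfin
  obtain ⟨g, rfl⟩ := QuotientGroup.mk'_surjective _ y
  apply hy
  have key : g = 1 := by
    refine sp_ext fun v => ?_
    rw [one_mulVec']
    obtain ⟨q, hq⟩ : ∃ q : symplecticGroup l A →*
        symplecticGroup l A ⧸ Subgroup.center (symplecticGroup l A),
        q = QuotientGroup.mk' (Subgroup.center (symplecticGroup l A)) := ⟨_, rfl⟩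
    have hmap : ∀ c : A, q (tS v c * g * (tS v c)⁻¹) ∈
        {y : symplecticGroup l A ⧸ Subgroup.center (symplecticGroup l A) |
          ∃ h, y = h * QuotientGroup.mk' _ g * h⁻¹} := fun c => by
      refine ⟨q (tS v c), ?_⟩
      rw [← hq]
      simp only [map_mul, map_inv]
    obtain ⟨c, -, c', -, hne, he⟩ := (Set.infinite_univ (α := A)).exists_ne_map_eq_of_mapsTo
      (fun c _ => hmap c) hfin
    obtain ⟨T, hT⟩ : ∃ T, T = tS v (c - c') := ⟨_, rfl⟩
    have hT1 : T = (tS v c')⁻¹ * tS v c := by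
      rw [hT, sub_eq_neg_add, ← tS_add, tS_neg]
    have he2 : q (T * g * T⁻¹) = q g := by
      have e1 : T * g * T⁻¹ = (tS v c')⁻¹ * (tS v c * g * (tS v c)⁻¹) * tS v c' := by
        rw [hT1]
        group
      have e2 : g = (tS v c')⁻¹ * (tS v c' * g * (tS v c')⁻¹) * tS v c' := by group
      rw [e1]
      nth_rw 2 [e2]
      simp only [map_mul, map_inv] at he ⊢
      rw [he]
    have hzc : g⁻¹ * (T * g * T⁻¹) ∈ Subgroup.center (symplecticGroup l A) := by
      rw [hq] at he2
      exact QuotientGroup.eq.1 he2.symm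
    have h5 := of_mem_center2 h2 hzc
    have h4 : tS ((g⁻¹).1 *ᵥ v) (c - c') = tS v (c - c') := by
      rw [← tS_conj, ← hT, inv_inv]
      have e3 : g⁻¹ * T * g = g⁻¹ * (T * g * T⁻¹) * T := by group
      rw [e3, h5, one_mul]
    have h6 := of_tS2 h2 (sub_ne_zero.2 hne) h4
    have hv : v = g.1 *ᵥ ((g⁻¹).1 *ᵥ v) := (mulVec_inv g v).symm
    rw [h6] at hv
    exact hv.symm
  rw [key, map_one]

/-- **`PSp_{2n}(A)` is ICC**, `A` an infinite domain. -/
theorem icc_psp' [Infinite A] :
    UN.ICC (symplecticGroup l A ⧸ Subgroup.center (symplecticGroup l A)) := by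
  by_cases h2 : (2 : A) = 0
  · exact icc_psp2 h2
  · exact icc_psp h2

variable {B : Type} [CommRing B] [IsDomain B]

theorem center_le' (m : Type) [Fintype m] [DecidableEq m] (f : A →+* B) :
    Subgroup.center (symplecticGroup m A) ≤
      (Subgroup.center (symplecticGroup m B)).comap (mp f) := by
  intro x hx
  rw [Subgroup.mem_comap]
  apply mem_center_of
  rcases of_mem_center' hx with h1 | h1
  · left; rw [h1, map_one]
  · right; rw [h1, mp_neg1']

/-- `PSp_{2n}(A) → PSp_{2n}(B)` -/
noncomputable def pmapG (m : Type) [Fintype m] [DecidableEq m] (f : A →+* B) :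
    (symplecticGroup m A ⧸ Subgroup.center (symplecticGroup m A)) →*
      (symplecticGroup m B ⧸ Subgroup.center (symplecticGroup m B)) :=
  QuotientGroup.map _ _ (mp f) (center_le' m f)

theorem pmapG_inj (m : Type) [Fintype m] [DecidableEq m] {f : A →+* B}
    (hf : Function.Injective f) : Function.Injective (pmapG m f) := by
  rw [injective_iff_map_eq_one]
  intro g hg
  obtain ⟨x, rfl⟩ := QuotientGroup.mk'_surjective _ g
  have h1 : mp f x ∈ Subgroup.center (symplecticGroup m B) := (QuotientGroup.eq_one_iff _).1 hg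
  refine (QuotientGroup.eq_one_iff _).2 (mem_center_of ?_)
  rcases of_mem_center' h1 with h3 | h3
  · left
    exact mp_inj m hf (h3.trans (map_one _).symm)
  · right
    exact mp_inj m hf (h3.trans (mp_neg1' m f).symm)

theorem finite_center' (m : Type) [Fintype m] [DecidableEq m] (k : Type) [Field k] :
    Finite (Subgroup.center (symplecticGroup m k)) := by
  have h : ((Subgroup.center (symplecticGroup m k) : Subgroup (symplecticGroup m k)) :
      Set (symplecticGroup m k)) ⊆ {1, neg1 m k} := fun g hg => of_mem_center' hg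
  exact ((Set.toFinite {1, neg1 m k}).subset h).to_subtype

theorem tS_center' (m : Type) [Fintype m] [DecidableEq m] {k : Type} [Field k] {i : m} {c : k}
    (h : (tS (Pi.single (Sum.inl i) 1) c : symplecticGroup m k) ∈
      Subgroup.center (symplecticGroup m k)) : c = 0 := by
  obtain ⟨e, he⟩ : ∃ e : m ⊕ m → k, e = Pi.single (Sum.inl i) 1 := ⟨_, rfl⟩
  obtain ⟨f, hf⟩ : ∃ f : m ⊕ m → k, f = Pi.single (Sum.inr i) 1 := ⟨_, rfl⟩
  have hfe : om f e = 1 := by rw [hf, om_single_inr, he, Pi.single_eq_same]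
  have hef : om e f = -1 := by rw [om_swap, hfe]
  rw [← he] at h
  rcases of_mem_center' h with h1 | h1
  · have h3 := congrArg (fun g : symplecticGroup m k => om f (g.1 *ᵥ f)) h1
    simp only [tS_mulVec, one_mulVec', H759.om_add_right, H759.om_smul_right, om_self, hfe, hef]
      at h3
    linear_combination -h3
  · have h3 := congrArg (fun g : symplecticGroup m k => om f (g.1 *ᵥ f)) h1
    simp only [tS_mulVec, neg1_mulVec, H759.om_add_right, H759.om_smul_right, H759.om_neg_right,
      om_self, hfe, hef] at h3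
    linear_combination -h3

end any

section m

variable (F : Type) [Field F] [Finite F] (S : Set (HeightOneSpectrum F[X]))
  (m : Type) [Fintype m] [DecidableEq m]

/-- `PSp_{2n}` of the `S`-integers in the product of the groups `PSp_{2n}` of the completions -/
noncomputable def pembG : (symplecticGroup m (S.integer (RatFunc F)) ⧸
      Subgroup.center (symplecticGroup m (S.integer (RatFunc F)))) →*
    ∀ i, symplecticGroup m (KK F S i) ⧸ Subgroup.center (symplecticGroup m (KK F S i)) :=
  MonoidHom.pi fun i => pmapG m (oi F S i)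

theorem pembG_inj : Function.Injective (pembG F S m) := by
  intro g h hgh
  exact pmapG_inj m (oi_inj F S (Sum.inl ())) (congrFun hgh (Sum.inl ()))

theorem lat_pembG [Finite S] : H515.St.IsLattice (pembG F S m).range := by
  have h0 := lat_embS F S m
  obtain ⟨π, hπ⟩ : ∃ π : (∀ i, symplecticGroup m (KK F S i)) →*
      ∀ i, symplecticGroup m (KK F S i) ⧸ Subgroup.center (symplecticGroup m (KK F S i)),
      π = MonoidHom.pi fun i => (H259.pq _).comp (Pi.evalMonoidHom _ i) := ⟨_, rfl⟩
  have hfin : ∀ i, Finite (Subgroup.center (symplecticGroup m (KK F S i))) :=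
    fun i => finite_center' m _
  have hcl : ∀ i, IsClosed ((Subgroup.center (symplecticGroup m (KK F S i)) :
      Subgroup _) : Set (symplecticGroup m (KK F S i))) :=
    fun i => (Set.toFinite _).isClosed
  have hp : IsProperMap π := by
    rw [hπ]
    exact IsProperMap.pi_map fun i => H259.isProperMap_pq (hfin i)
  have hs : Function.Surjective π := by
    rw [hπ]
    intro y
    choose x hx using fun i => QuotientGroup.mk'_surjective _ (y i)
    exact ⟨x, funext hx⟩
  have hr : (embS F S m).range.map π = (pembG F S m).range := by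
    ext x
    constructor
    · rintro ⟨_, ⟨g, rfl⟩, rfl⟩
      exact ⟨QuotientGroup.mk' _ g, by rw [hπ]; rfl⟩
    · rintro ⟨g, rfl⟩
      obtain ⟨y, rfl⟩ := QuotientGroup.mk'_surjective _ g
      exact ⟨_, ⟨y, rfl⟩, by rw [hπ]; rfl⟩
  rw [← hr]
  exact H259.isLattice_map hp hs ⟨h0.disc, h0.covol⟩

theorem non_discG [Nonempty m] (i : II F S)
    (h : ∀ ε > 0, ∃ x : S.integer (RatFunc F), x ≠ 0 ∧ ‖oi F S i x‖ < ε) :
    ¬ DiscreteTopology (Set.range fun g => pembG F S m g i) := by
  intro hd
  obtain ⟨i₀⟩ := (inferInstance : Nonempty m)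
  have h11 : (fun g => pembG F S m g i) 1 = 1 := by
    show pembG F S m 1 i = 1
    rw [map_one]
    rfl
  have h1 : IsOpen ({⟨1, 1, h11⟩} : Set (Set.range fun g => pembG F S m g i)) :=
    isOpen_discrete _
  obtain ⟨W, hW, hW'⟩ := isOpen_induced_iff.1 h1
  have hW1 : (1 : symplecticGroup m (KK F S i) ⧸
      Subgroup.center (symplecticGroup m (KK F S i))) ∈ W := by
    have : (⟨1, 1, h11⟩ : Set.range fun g => pembG F S m g i) ∈ Subtype.val ⁻¹' W := by
      rw [hW']; rfl
    exact this
  have hc0 : Continuous fun c : KK F S i =>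
      (tS (Pi.single (Sum.inl i₀) 1) c : symplecticGroup m (KK F S i)) :=
    cont_tS.comp (Continuous.prodMk continuous_const continuous_id)
  have hc : Continuous fun c : KK F S i =>
      (QuotientGroup.mk (tS (Pi.single (Sum.inl i₀) 1) c) :
        symplecticGroup m (KK F S i) ⧸ Subgroup.center (symplecticGroup m (KK F S i))) :=
    Continuous.comp continuous_quotient_mk' hc0
  have h0 : (0 : KK F S i) ∈ (fun c : KK F S i =>
      (QuotientGroup.mk (tS (Pi.single (Sum.inl i₀) 1) c) :
        symplecticGroup m (KK F S i) ⧸ Subgroup.center (symplecticGroup m (KK F S i)))) ⁻¹' W := by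
    rw [Set.mem_preimage, H678.P.tS_zero]
    exact hW1
  obtain ⟨ε, hε, hb⟩ := Metric.isOpen_iff.1 (hW.preimage hc) 0 h0
  obtain ⟨x, hx0, hx⟩ := h ε hε
  have h3 := hb (mem_ball_zero_iff.2 hx)
  have h4 : pembG F S m (QuotientGroup.mk (tS (Pi.single (Sum.inl i₀) 1) x)) i =
      QuotientGroup.mk (tS (Pi.single (Sum.inl i₀) 1) (oi F S i x)) := by
    have h5 : mp (oi F S i) (tS (Pi.single (Sum.inl i₀) 1) x) =
        tS (Pi.single (Sum.inl i₀) 1) (oi F S i x) := by
      rw [mp_tS]
      congr 1
      funext a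
      by_cases ha : a = Sum.inl i₀
      · subst ha; simp
      · simp [ha]
    rw [← h5]
    rfl
  have h5 : (⟨pembG F S m (QuotientGroup.mk (tS (Pi.single (Sum.inl i₀) 1) x)) i, _, rfl⟩ :
      Set.range fun g => pembG F S m g i) ∈ Subtype.val ⁻¹' W := by
    rw [Set.mem_preimage]
    rw [Set.mem_preimage, ← h4] at h3
    exact h3
  rw [hW', Set.mem_singleton_iff] at h5
  have h6 : (QuotientGroup.mk (tS (Pi.single (Sum.inl i₀) 1) (oi F S i x)) :
      symplecticGroup m (KK F S i) ⧸ Subgroup.center (symplecticGroup m (KK F S i))) = 1 := by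
    rw [← h4]
    exact congrArg Subtype.val h5
  have h7 := tS_center' m ((QuotientGroup.eq_one_iff _).1 h6)
  exact hx0 (oi_inj F S i (by rw [h7, map_zero]))

end m

/-- **`PSp_{2n}` of the `S`-integers of `F(x)`, `F` a finite field, `S ≠ ∅` finite, `n ≥ 1`, is in the
class `LatticeZ`.** -/
theorem latticeZ_spG (F : Type) [Field F] [Finite F]
    (S : Set (HeightOneSpectrum F[X])) (hS : S.Finite) (hS' : S.Nonempty) {n : ℕ} (hn : 1 ≤ n) :
    UN.LatticeZ (symplecticGroup (Fin n) (S.integer (RatFunc F)) ⧸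
      Subgroup.center (symplecticGroup (Fin n) (S.integer (RatFunc F)))) := by
  haveI := hS.to_subtype
  haveI : Nonempty (Fin n) := ⟨⟨0, hn⟩⟩
  refine ⟨icc_psp', II F S, Fintype.ofFinite _,
    fun i => H678.P.PSp (Fin n) (KK F S i),
    inferInstance, inferInstance,
    ∀ i, H678.P.PSp (Fin n) (KK F S i),
    inferInstance, inferInstance,
    MonoidHom.id _, pembG F S (Fin n), inferInstance, isProperMap_id, ?_, pembG_inj F S _,
    (UN.isLattice_iff _).2 (lat_pembG F S (Fin n)), fun i => Or.inr ⟨Or.inl ?_, ?_⟩⟩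
  · rw [MonoidHom.range_eq_top.2 Function.surjective_id]
    infer_instance
  · exact clsV_psp (KK F S i) (locK_KK F S i) hn
  · exact non_discG F S (Fin n) i fun ε hε => small_all F S hS' i hε

section empty

variable (F : Type) [Field F] [Finite F]

theorem latticeW_spG {n : ℕ} (hn : 2 ≤ n) (h : (2 : F) ≠ 0 ∨ 3 ≤ n) :
    UN.LatticeW (symplecticGroup (Fin n) ((∅ : Set (HeightOneSpectrum F[X])).integer (RatFunc F)) ⧸
      Subgroup.center (symplecticGroup (Fin n)
        ((∅ : Set (HeightOneSpectrum F[X])).integer (RatFunc F)))) := by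
  haveI := infinite_OS (F := F) ∅
  have h0 := isLattice_spA (coc_poly F) (Fin n)
  have h1 : H515.St.IsLattice (spA (Fin n) (psi : F[X] →+* LS F)) := ⟨h0.disc, h0.covol⟩
  have hf : Finite (Subgroup.center (symplecticGroup (Fin n) (LS F))) := finite_center' _ _
  have h3 := H259.isLattice_map (H259.isProperMap_pq hf) H259.pq_surj h1
  have e : (pmapG (Fin n) (pI F ∅)).range =
      (spA (Fin n) (psi : F[X] →+* LS F)).map (H259.pq (symplecticGroup (Fin n) (LS F))) := by
    ext x
    constructor
    · rintro ⟨g, rfl⟩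
      obtain ⟨y, rfl⟩ := QuotientGroup.mk'_surjective _ g
      obtain ⟨δ, rfl⟩ := int_sp F ∅ (Fin n) (γ := y) (fun v => v.2.elim)
      refine ⟨_, ⟨δ, rfl⟩, ?_⟩
      exact congrArg (H259.pq (symplecticGroup (Fin n) (LS F))) (q1_qO F ∅ (Fin n) δ).symm
    · rintro ⟨_, ⟨δ, rfl⟩, rfl⟩
      refine ⟨QuotientGroup.mk' _ (qO F ∅ (Fin n) δ), ?_⟩
      exact congrArg (H259.pq (symplecticGroup (Fin n) (LS F))) (q1_qO F ∅ (Fin n) δ)
  have h5 : UN.IsLattice (pmapG (Fin n) (pI F ∅)).range := by
    rw [e]
    exact ⟨h3.disc, h3.covol⟩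
  have h6 : (2 : LS F) ≠ 0 ∨ 3 ≤ n := h.imp H678.P.two_LS id
  exact ⟨icc_psp', PSp (Fin n) (LS F), inferInstance, inferInstance,
    pmapG (Fin n) (pI F ∅),
    Or.inl ⟨LS F, inferInstance, n, inferInstance, inferInstance, hn,
      RingHom.id (LS F), -1, Empty, inferInstance, inferInstance, 0, SE (LS F) n, continuous_id,
      fun _ => rfl, isAn_empty (LS F) _ _, mem_SE,
      Or.inl ⟨Or.inr ⟨fun _ => rfl, rfl, inferInstance, h6⟩, quoS_psp (LS F) n⟩⟩,
    pmapG_inj _ (pI_inj ∅), h5⟩

end empty

end Vale.Agent.P092.H677.FF.SP
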