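import Mathlib

/-!
P092 (helper677), [OK-LAT], part 1: `SL_{n+1}` over a commutative ring, the stabiliser of `e₀` and a
section of `g ↦ g e₀`.
-/

set_option linter.all false

open Matrix

namespace Vale.Agent.P092.H677.OK

section alg

variable {l : Type} [Fintype l] [DecidableEq l] {R : Type*} [CommRing R]

/-- the first basis vector -/
def e0 : Unit ⊕ l → R := Sum.elim (fun _ => 1) fun _ => 0

@[simp] theorem e0_inl (u : Unit) : (e0 : Unit ⊕ l → R) (Sum.inl u) = 1 := rfl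
@[simp] theorem e0_inr (i : l) : (e0 : Unit ⊕ l → R) (Sum.inr i) = 0 := rfl

/-- `[1 b; 0 S]` -/
def psi (S : SpecialLinearGroup l R) (b : l → R) : SpecialLinearGroup (Unit ⊕ l) R :=
  ⟨fromBlocks 1 (replicateRow Unit b) 0 S.1, by
    rw [det_fromBlocks_zero₂₁, det_one, one_mul, S.2]⟩

/-- `[1 0; z 1]` -/
def lo (z : l → R) : SpecialLinearGroup (Unit ⊕ l) R :=
  ⟨fromBlocks 1 0 (replicateCol Unit z) 1, by
    rw [det_fromBlocks_zero₁₂, det_one, det_one, one_mul]⟩

theorem psi_coe (S : SpecialLinearGroup l R) (b : l → R) :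
    (psi S b).1 = fromBlocks 1 (replicateRow Unit b) 0 S.1 := rfl

theorem psi_mul (S S' : SpecialLinearGroup l R) (b b' : l → R) :
    psi S b * psi S' b' = psi (S * S') (b' + b ᵥ* S'.1) := by
  apply Subtype.ext
  show (psi S b).1 * (psi S' b').1 = _
  rw [psi_coe, psi_coe, psi_coe, fromBlocks_multiply]
  congr 1
  · simp
  · ext i j
    simp [Matrix.mul_apply, vecMul, dotProduct]
  · simp
  · simp

theorem psi_inj {S S' : SpecialLinearGroup l R} {b b' : l → R} (h : psi S b = psi S' b') :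
    S = S' ∧ b = b' := by
  have h1 := congrArg Subtype.val h
  rw [psi_coe, psi_coe, fromBlocks_inj] at h1
  refine ⟨Subtype.ext h1.2.2.2, ?_⟩
  funext j
  exact congrFun (congrFun h1.2.1 ()) j

theorem psi_mulVec (S : SpecialLinearGroup l R) (b : l → R) (x : Unit ⊕ l → R) :
    (psi S b).1 *ᵥ x = Sum.elim (fun _ => x (Sum.inl ()) + b ⬝ᵥ (x ∘ Sum.inr))
      (S.1 *ᵥ (x ∘ Sum.inr)) := by
  rw [psi_coe, fromBlocks_mulVec]
  funext i
  rcases i with i | i
  · simp [mulVec, dotProduct]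
  · simp [mulVec, dotProduct]

theorem lo_mulVec (z : l → R) (x : Unit ⊕ l → R) :
    (lo z).1 *ᵥ x = Sum.elim (fun _ => x (Sum.inl ())) (fun i => z i * x (Sum.inl ()) +
      x (Sum.inr i)) := by
  show (fromBlocks 1 0 (replicateCol Unit z) 1) *ᵥ x = _
  rw [fromBlocks_mulVec]
  funext i
  rcases i with i | i
  · simp [mulVec, dotProduct]
  · simp [mulVec, dotProduct]

theorem psi_e0 (S : SpecialLinearGroup l R) (b : l → R) : (psi S b).1 *ᵥ e0 = e0 := by
  rw [psi_mulVec]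
  funext i
  rcases i with i | i
  · simp [dotProduct]
  · simp [mulVec, dotProduct]

theorem mul_mulVec (g h : SpecialLinearGroup l R) (x : l → R) :
    (g * h).1 *ᵥ x = g.1 *ᵥ (h.1 *ᵥ x) := by
  show (g.1 * h.1) *ᵥ x = _
  rw [Matrix.mulVec_mulVec]

theorem inv_mulVec (g : SpecialLinearGroup l R) (x : l → R) :
    (g⁻¹).1 *ᵥ (g.1 *ᵥ x) = x := by
  rw [← mul_mulVec, inv_mul_cancel]
  show (1 : Matrix l l R) *ᵥ x = x
  rw [Matrix.one_mulVec]

theorem mulVec_inv (g : SpecialLinearGroup l R) (x : l → R) :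
    g.1 *ᵥ ((g⁻¹).1 *ᵥ x) = x := by
  rw [← mul_mulVec, mul_inv_cancel]
  show (1 : Matrix l l R) *ᵥ x = x
  rw [Matrix.one_mulVec]

theorem psi_surj {g : SpecialLinearGroup (Unit ⊕ l) R} (hg : g.1 *ᵥ e0 = e0) :
    ∃ S b, psi S b = g := by
  have h1 : ∀ i, g.1 i (Sum.inl ()) = (e0 : Unit ⊕ l → R) i := by
    intro i
    rw [← congrFun hg i]
    simp [mulVec, dotProduct, Fintype.sum_sum_type]
  have h2 : g.1 = fromBlocks 1 (replicateRow Unit fun j => g.1 (Sum.inl ()) (Sum.inr j)) 0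
      g.1.toBlocks₂₂ := by
    nth_rw 1 [← fromBlocks_toBlocks g.1]
    congr 1
    · ext i j
      simpa [toBlocks₁₁] using h1 (Sum.inl i)
    · ext i j
      simpa [toBlocks₂₁] using h1 (Sum.inr i)
  have h3 : g.1.toBlocks₂₂.det = 1 := by
    have := g.2
    rw [h2, det_fromBlocks_zero₂₁, det_one, one_mul] at this
    exact this
  exact ⟨⟨_, h3⟩, _, Subtype.ext h2.symm⟩

/-- the section of `g ↦ g e₀`; `u'` is the inverse of `x₀` -/
def sec (i₀ : l) (u' : R) (x : Unit ⊕ l → R) : SpecialLinearGroup (Unit ⊕ l) R :=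
  lo (fun i => (x (Sum.inr i) - (Pi.single i₀ 1 : l → R) i) * u') *
    (psi 1 (Pi.single i₀ (x (Sum.inl ()) - 1)) * lo (Pi.single i₀ 1))

theorem sec_e0 {i₀ : l} {u' : R} {x : Unit ⊕ l → R} (h : x (Sum.inl ()) * u' = 1) :
    (sec i₀ u' x).1 *ᵥ e0 = x := by
  have h1 : (1 : SpecialLinearGroup l R).1 = 1 := rfl
  rw [sec, mul_mulVec, mul_mulVec, lo_mulVec, psi_mulVec, lo_mulVec, h1, Matrix.one_mulVec,
    single_dotProduct]
  funext i
  rcases i with i | i
  · simp
  · simp only [Sum.elim_inl, Sum.elim_inr, e0_inl, e0_inr, Function.comp_apply, Pi.single_eq_same,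
      mul_one, add_zero]
    have h2 : (1 + (x (Sum.inl ()) - 1)) = x (Sum.inl ()) := by ring
    rw [h2, mul_assoc, mul_comm u', h]
    ring

variable {R' : Type*} [CommRing R'] (f : R →+* R')

theorem map_psi (S : SpecialLinearGroup l R) (b : l → R) :
    SpecialLinearGroup.map f (psi S b) = psi (SpecialLinearGroup.map f S) (f ∘ b) := by
  apply Subtype.ext
  show (psi S b).1.map f = _
  rw [psi_coe, psi_coe, fromBlocks_map]
  congr 1
  · ext i j
    simp [Matrix.one_apply]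
  · ext i j
    simp

theorem map_e0 : f ∘ (e0 : Unit ⊕ l → R) = e0 := by
  funext i
  rcases i with i | i <;> simp

theorem map_mulVec' (g : SpecialLinearGroup l R) (x : l → R) :
    (SpecialLinearGroup.map f g).1 *ᵥ (f ∘ x) = f ∘ (g.1 *ᵥ x) := by
  show (g.1.map f) *ᵥ (f ∘ x) = _
  funext i
  exact (RingHom.map_mulVec f g.1 x i).symm

end alg

end Vale.Agent.P092.H677.OK
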