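import Vale.Agent.P092.H677.OKa
import Vale.Agent.P092.H515.LatSl

/-!
P092 (helper677), [OK-LAT], part 2: Haar measure of `SL_{n+1}(A)` in the coordinates
`g = s(g e₀) [1 b; 0 S]`, for a topological ring `A` almost all of whose elements are invertible.
-/

set_option linter.all false

open Matrix MeasureTheory MeasureTheory.Measure Set Filter Topology
open scoped ENNReal

namespace Vale.Agent.P092.H677.OK

section top

variable {m : Type} [Fintype m] [DecidableEq m] {A : Type} [CommRing A] [TopologicalSpace A]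
  [IsTopologicalRing A] [T2Space A]

theorem sl_emb : IsClosedEmbedding (Subtype.val : SpecialLinearGroup m A → Matrix m m A) :=
  SpecialLinearGroup.isClosedEmbedding_val

theorem sl_t2 : T2Space (SpecialLinearGroup m A) := sl_emb.isEmbedding.t2Space

theorem sl_lc [LocallyCompactSpace A] : LocallyCompactSpace (SpecialLinearGroup m A) := by
  have : LocallyCompactSpace (Matrix m m A) :=
    inferInstanceAs (LocallyCompactSpace (m → m → A))
  exact sl_emb.locallyCompactSpace

theorem sl_sc [SecondCountableTopology A] : SecondCountableTopology (SpecialLinearGroup m A) := by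
  have : SecondCountableTopology (Matrix m m A) :=
    inferInstanceAs (SecondCountableTopology (m → m → A))
  exact sl_emb.isEmbedding.isInducing.secondCountableTopology

theorem sl_pol [PolishSpace A] : PolishSpace (SpecialLinearGroup m A) := by
  have : PolishSpace (Matrix m m A) := inferInstanceAs (PolishSpace (m → m → A))
  exact sl_emb.polishSpace

theorem cont_sl {X : Type} [TopologicalSpace X] {f : X → SpecialLinearGroup m A}
    (h : Continuous fun x => (f x).1) : Continuous f := continuous_induced_rng.2 h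

theorem cont_mulVec : Continuous fun p : SpecialLinearGroup m A × (m → A) => p.1.1 *ᵥ p.2 :=
  Continuous.matrix_mulVec (continuous_subtype_val.comp continuous_fst) continuous_snd

variable {l : Type} [Fintype l] [DecidableEq l]

theorem cont_psi : Continuous fun h : SpecialLinearGroup l A × (l → A) => psi h.1 h.2 := by
  refine cont_sl ?_
  simp only [psi_coe]
  refine Continuous.matrix_fromBlocks continuous_const ?_ continuous_const
    (continuous_subtype_val.comp continuous_fst)
  exact continuous_matrix fun i j => (continuous_apply j).comp continuous_snd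

theorem cont_lo : Continuous fun z : l → A => lo z := by
  refine cont_sl ?_
  show Continuous fun z : l → A => fromBlocks 1 0 (replicateCol Unit z) 1
  refine Continuous.matrix_fromBlocks continuous_const continuous_const ?_ continuous_const
  exact continuous_matrix fun i j => (continuous_apply i)

theorem cont_sec (i₀ : l) : Continuous fun p : A × (Unit ⊕ l → A) => sec i₀ p.1 p.2 := by
  have h1 : Continuous fun p : A × (Unit ⊕ l → A) =>
      lo (fun i => (p.2 (Sum.inr i) - (Pi.single i₀ 1 : l → A) i) * p.1) := by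
    refine cont_lo.comp (continuous_pi fun i => ?_)
    exact (((continuous_apply (Sum.inr i : Unit ⊕ l)).comp continuous_snd).sub
      continuous_const).mul continuous_fst
  have h2 : Continuous fun p : A × (Unit ⊕ l → A) =>
      psi (1 : SpecialLinearGroup l A) (Pi.single i₀ (p.2 (Sum.inl ()) - 1)) := by
    refine cont_psi.comp (Continuous.prodMk continuous_const ?_)
    have h3 : Continuous fun p : A × (Unit ⊕ l → A) => p.2 (Sum.inl ()) - 1 :=
      ((continuous_apply (Sum.inl () : Unit ⊕ l)).comp continuous_snd).sub continuous_const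
    have h4 : Continuous fun a : A => (Pi.single i₀ a : l → A) :=
      continuous_single (A := fun _ : l => A) i₀
    exact Continuous.comp h4 h3
  exact h1.mul (h2.mul continuous_const)

end top

section meas

variable {l : Type} [Fintype l] [DecidableEq l] {A : Type} [CommRing A] [TopologicalSpace A]
  [IsTopologicalRing A] [T2Space A] [LocallyCompactSpace A] [SecondCountableTopology A]
  [PolishSpace A] [MeasurableSpace A] [BorelSpace A]

attribute [local instance] sl_t2 sl_lc sl_sc sl_pol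

/-- the coordinates of the stabiliser of `e₀` -/
abbrev HH (l : Type) [Fintype l] [DecidableEq l] (A : Type) [CommRing A] : Type :=
  SpecialLinearGroup l A × (l → A)

/-- left multiplication in the coordinates of the stabiliser -/
def Lm (h₀ h : HH l A) : HH l A := (h₀.1 * h.1, h.2 + h₀.2 ᵥ* h.1.1)

theorem psi_Lm (h₀ h : HH l A) : psi h₀.1 h₀.2 * psi h.1 h.2 = psi (Lm h₀ h).1 (Lm h₀ h).2 :=
  psi_mul _ _ _ _

theorem cont_Lm : Continuous fun p : HH l A × HH l A => Lm p.1 p.2 := by
  refine Continuous.prodMk ((continuous_fst.comp continuous_fst).mul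
    (continuous_fst.comp continuous_snd)) ((continuous_snd.comp continuous_snd).add ?_)
  exact Continuous.matrix_vecMul (continuous_snd.comp continuous_fst)
    (continuous_subtype_val.comp (continuous_fst.comp continuous_snd))

variable [MeasurableSpace (SpecialLinearGroup l A)] [BorelSpace (SpecialLinearGroup l A)]
  (μ : Measure (SpecialLinearGroup l A)) [IsHaarMeasure μ] (vA : Measure A) [IsAddHaarMeasure vA]

/-- the Haar measure of the stabiliser in coordinates -/
noncomputable def mH : Measure (HH l A) := μ.prod (Measure.pi fun _ => vA)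

instance : SigmaFinite (mH μ vA) := by unfold mH; infer_instance

theorem mp_Lm (h₀ : HH l A) : MeasurePreserving (Lm h₀) (mH μ vA) (mH μ vA) := by
  have h1 : MeasurePreserving (fun S => h₀.1 * S) μ μ := measurePreserving_mul_left μ _
  refine h1.skew_product (g := fun (S : SpecialLinearGroup l A) (b : l → A) =>
    b + h₀.2 ᵥ* S.1) ?_ (ae_of_all _ fun S => ?_)
  · have h2 : Continuous fun h : HH l A => Lm h₀ h :=
      cont_Lm.comp (Continuous.prodMk continuous_const continuous_id)
    exact (continuous_snd.comp h2).measurable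
  · exact (measurePreserving_add_right (Measure.pi fun _ => vA) _).map_eq

end meas

section haar

variable {l : Type} [Fintype l] [DecidableEq l] {A : Type} [CommRing A] [TopologicalSpace A]
  [IsTopologicalRing A] [T2Space A] [LocallyCompactSpace A] [SecondCountableTopology A]
  [PolishSpace A] [MeasurableSpace A] [BorelSpace A]
  [MeasurableSpace (SpecialLinearGroup l A)] [BorelSpace (SpecialLinearGroup l A)]
  [MeasurableSpace (SpecialLinearGroup (Unit ⊕ l) A)]
  [BorelSpace (SpecialLinearGroup (Unit ⊕ l) A)]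
  (μ : Measure (SpecialLinearGroup l A)) [IsHaarMeasure μ] (vA : Measure A) [IsAddHaarMeasure vA]
  (i₀ : l) (iv : A → A)

attribute [local instance] sl_t2 sl_lc sl_sc sl_pol

/-- invertible elements -/
def Gd (iv : A → A) (u : A) : Prop := u * iv u = 1

theorem meas_sec (hiv : Measurable iv) :
    Measurable fun x : Unit ⊕ l → A => sec i₀ (iv (x (Sum.inl ()))) x := by
  have h2 : Measurable fun x : Unit ⊕ l → A => (iv (x (Sum.inl ())), x) :=
    (hiv.comp (measurable_pi_apply _)).prodMk measurable_id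
  have h3 : Measurable fun p : A × (Unit ⊕ l → A) => sec i₀ p.1 p.2 := (cont_sec i₀).measurable
  exact Measurable.comp (g := fun p : A × (Unit ⊕ l → A) => sec i₀ p.1 p.2)
    (f := fun x : Unit ⊕ l → A => (iv (x (Sum.inl ())), x)) h3 h2

/-- the coordinates of the big group -/
def Phi (p : (Unit ⊕ l → A) × HH l A) : SpecialLinearGroup (Unit ⊕ l) A :=
  sec i₀ (iv (p.1 (Sum.inl ()))) p.1 * psi p.2.1 p.2.2

theorem meas_Phi (hiv : Measurable iv) : Measurable (Phi (l := l) i₀ iv) :=
  ((meas_sec i₀ iv hiv).comp measurable_fst).mul (cont_psi.measurable.comp measurable_snd)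

theorem Phi_e0 {p : (Unit ⊕ l → A) × HH l A} (hp : Gd iv (p.1 (Sum.inl ()))) :
    (Phi i₀ iv p).1 *ᵥ e0 = p.1 := by
  rw [Phi, mul_mulVec, psi_e0, sec_e0 hp]

theorem Phi_injOn : InjOn (Phi (l := l) i₀ iv) {p | Gd iv (p.1 (Sum.inl ()))} := by
  rintro ⟨x, h⟩ hx ⟨x', h'⟩ hx' he
  have h1 : x = x' := by
    have h2 := Phi_e0 i₀ iv hx
    have h3 := Phi_e0 i₀ iv hx'
    rw [he] at h2
    exact h2.symm.trans h3
  subst h1
  have h4 : psi h.1 h.2 = psi h'.1 h'.2 := mul_left_cancel he
  obtain ⟨h5, h6⟩ := psi_inj h4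
  rw [Prod.ext h5 h6]

theorem Phi_surj {g : SpecialLinearGroup (Unit ⊕ l) A} (hg : Gd iv ((g.1 *ᵥ e0) (Sum.inl ()))) :
    ∃ h : HH l A, Phi i₀ iv (g.1 *ᵥ e0, h) = g := by
  obtain ⟨S, b, hh⟩ := psi_surj
    (g := (sec i₀ (iv ((g.1 *ᵥ e0) (Sum.inl ()))) (g.1 *ᵥ e0))⁻¹ * g) (by
    rw [mul_mulVec]
    have h1 := congrArg (fun y => ((sec i₀ (iv ((g.1 *ᵥ e0) (Sum.inl ()))) (g.1 *ᵥ e0))⁻¹).1 *ᵥ y)
      (sec_e0 (i₀ := i₀) hg)
    exact h1.symm.trans (inv_mulVec _ _))
  exact ⟨(S, b), by rw [Phi, hh, mul_inv_cancel_left]⟩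

/-- the measure in the coordinates -/
noncomputable def MM : Measure ((Unit ⊕ l → A) × HH l A) :=
  (Measure.pi fun _ => vA).prod (mH μ vA)

instance : SigmaFinite (MM μ vA) := by unfold MM; infer_instance

/-- the hypotheses on the ring -/
structure RH (A : Type) [CommRing A] [TopologicalSpace A] [MeasurableSpace A] (vA : Measure A)
    (iv : A → A) : Prop where
  meas : Measurable iv
  null : vA {u | ¬ Gd iv u} = 0
  vol : ∀ (m : Type) [Fintype m] [DecidableEq m] (g : SpecialLinearGroup m A),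
    MeasurePreserving (fun x : m → A => g.1 *ᵥ x) (Measure.pi fun _ => vA) (Measure.pi fun _ => vA)

variable {vA iv}

theorem ae_gd (hR : RH A vA iv) :
    ∀ᵐ x ∂(Measure.pi fun _ : Unit ⊕ l => vA), Gd iv (x (Sum.inl ())) := by
  have h1 : ∀ᵐ u ∂vA, Gd iv u := by rw [ae_iff]; exact hR.null
  exact (Measure.quasiMeasurePreserving_eval (fun _ : Unit ⊕ l => vA) (Sum.inl ())).ae h1

theorem ae_coord (hR : RH A vA iv) : ∀ᵐ p ∂(MM μ vA), Gd iv (p.1 (Sum.inl ())) :=
  Measure.quasiMeasurePreserving_fst.ae (ae_gd hR)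

theorem ae_coord' (hR : RH A vA iv) (g : SpecialLinearGroup (Unit ⊕ l) A) :
    ∀ᵐ p ∂(MM μ vA), Gd iv ((g.1 *ᵥ p.1) (Sum.inl ())) :=
  Measure.quasiMeasurePreserving_fst.ae ((hR.vol _ g).quasiMeasurePreserving.ae (ae_gd hR))

theorem exists_iv : ∃ jv : SpecialLinearGroup (Unit ⊕ l) A → HH l A, Measurable jv ∧
    ∀ h, jv (psi h.1 h.2) = h := by
  have h0 : Function.Injective fun h : HH l A => psi h.1 h.2 := fun h h' he => by
    obtain ⟨h5, h6⟩ := psi_inj he
    exact Prod.ext h5 h6
  have h1 : MeasurableEmbedding (fun h : HH l A => psi h.1 h.2) :=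
    cont_psi.measurable.measurableEmbedding h0
  obtain ⟨iv, h2, h3⟩ := h1.exists_measurable_extend measurable_id fun _ => ⟨(1, 0)⟩
  exact ⟨iv, h2, fun h => congrFun h3 h⟩

/-- the measure is left invariant -/
theorem left_inv (hR : RH A vA iv) (g : SpecialLinearGroup (Unit ⊕ l) A) :
    ((MM μ vA).map (Phi i₀ iv)).map (g * ·) = (MM μ vA).map (Phi i₀ iv) := by
  obtain ⟨jv, hjv, hjvp⟩ := exists_iv (l := l) (A := A)
  obtain ⟨se, hse⟩ : ∃ se : (Unit ⊕ l → A) → SpecialLinearGroup (Unit ⊕ l) A,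
      se = fun x => sec i₀ (iv (x (Sum.inl ()))) x := ⟨_, rfl⟩
  have hsem : Measurable se := by rw [hse]; exact meas_sec i₀ iv hR.meas
  have hP : Phi i₀ iv = fun p : (Unit ⊕ l → A) × HH l A => se p.1 * psi p.2.1 p.2.2 := by
    rw [hse]; rfl
  have hse0 : ∀ {x : Unit ⊕ l → A}, Gd iv (x (Sum.inl ())) → (se x).1 *ᵥ e0 = x := by
    intro x hx; rw [hse]; exact sec_e0 hx
  obtain ⟨η, hη⟩ : ∃ η : (Unit ⊕ l → A) → SpecialLinearGroup (Unit ⊕ l) A,
      ∀ x, η x = (se (g.1 *ᵥ x))⁻¹ * (g * se x) := ⟨_, fun _ => rfl⟩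
  have hηm : Measurable η := by
    have h1 : η = fun x => (se (g.1 *ᵥ x))⁻¹ * (g * se x) := funext hη
    rw [h1]
    exact (hsem.comp (hR.vol _ g).measurable).inv.mul (hsem.const_mul g)
  have hT : MeasurePreserving (fun p : (Unit ⊕ l → A) × HH l A =>
      (g.1 *ᵥ p.1, Lm (jv (η p.1)) p.2)) (MM μ vA) (MM μ vA) := by
    refine (hR.vol _ g).skew_product (g := fun x h => Lm (jv (η x)) h) ?_
      (ae_of_all _ fun x => (mp_Lm μ vA _).map_eq)
    exact cont_Lm.measurable.comp
      (((hjv.comp hηm).comp measurable_fst).prodMk measurable_snd)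
  rw [Measure.map_map (measurable_const_mul g) (meas_Phi i₀ iv hR.meas)]
  have h2 : ((fun x => g * x) ∘ Phi i₀ iv) =ᵐ[MM μ vA]
      (Phi i₀ iv ∘ fun p : (Unit ⊕ l → A) × HH l A => (g.1 *ᵥ p.1, Lm (jv (η p.1)) p.2)) := by
    filter_upwards [ae_coord μ hR, ae_coord' μ hR g] with p hp hp'
    have h3 : (η p.1).1 *ᵥ e0 = e0 := by
      rw [hη, mul_mulVec, mul_mulVec, hse0 hp]
      have h1 := congrArg (fun y => ((se (g.1 *ᵥ p.1))⁻¹).1 *ᵥ y) (hse0 hp')
      exact h1.symm.trans (inv_mulVec _ _)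
    obtain ⟨S, b, hh'⟩ := psi_surj h3
    have h4 : psi (jv (η p.1)).1 (jv (η p.1)).2 = η p.1 := by
      rw [← hh', hjvp (S, b)]
    show g * Phi i₀ iv p = Phi i₀ iv (g.1 *ᵥ p.1, Lm (jv (η p.1)) p.2)
    rw [hP]
    simp only
    rw [← psi_Lm, h4, hη]
    simp only [mul_assoc, mul_inv_cancel_left]
  rw [Measure.map_congr h2, ← Measure.map_map (meas_Phi i₀ iv hR.meas) hT.measurable, hT.map_eq]

/-- the set of the elements without coordinates -/
def NN (l : Type) [Fintype l] [DecidableEq l] (iv : A → A) :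
    Set (SpecialLinearGroup (Unit ⊕ l) A) := {g | ¬ Gd iv ((g.1 *ᵥ e0) (Sum.inl ()))}

theorem meas_gd (hR : RH A vA iv) : MeasurableSet {u | Gd iv u} :=
  measurableSet_eq_fun (measurable_id.mul hR.meas) measurable_const

theorem meas_NN (hR : RH A vA iv) : MeasurableSet (NN l iv) := by
  have h0 : Continuous fun g : SpecialLinearGroup (Unit ⊕ l) A => g.1 *ᵥ (e0 : Unit ⊕ l → A) :=
    Continuous.matrix_mulVec continuous_subtype_val continuous_const
  have h1 : Continuous fun g : SpecialLinearGroup (Unit ⊕ l) A =>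
      (g.1 *ᵥ (e0 : Unit ⊕ l → A)) (Sum.inl ()) :=
    (continuous_apply (Sum.inl () : Unit ⊕ l)).comp h0
  exact ((meas_gd hR).preimage h1.measurable).compl

theorem meas_D (hR : RH A vA iv) :
    MeasurableSet {p : (Unit ⊕ l → A) × HH l A | Gd iv (p.1 (Sum.inl ()))} :=
  (meas_gd hR).preimage ((measurable_pi_apply (Sum.inl () : Unit ⊕ l)).comp measurable_fst)

/-- the measure of an image is at most the measure of the set -/
theorem map_image_le (hR : RH A vA iv) {B : Set ((Unit ⊕ l → A) × HH l A)}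
    (hB : MeasurableSet B) :
    (MM μ vA).map (Phi i₀ iv) (Phi i₀ iv '' (B ∩ {p | Gd iv (p.1 (Sum.inl ()))}) ∪ NN l iv) ≤
      MM μ vA B := by
  have h1 : MeasurableSet (Phi i₀ iv '' (B ∩ {p | Gd iv (p.1 (Sum.inl ()))}) ∪ NN l iv) :=
    ((hB.inter (meas_D hR)).image_of_measurable_injOn (meas_Phi i₀ iv hR.meas)
      ((Phi_injOn i₀ iv).mono inter_subset_right)).union (meas_NN hR)
  rw [Measure.map_apply (meas_Phi i₀ iv hR.meas) h1]
  refine measure_mono_ae ?_
  filter_upwards [ae_coord μ hR] with p hp hp'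
  rcases hp' with ⟨q, hq, hqp⟩ | hp'
  · have := Phi_injOn i₀ iv hq.2 hp hqp
    rw [← this]; exact hq.1
  · have h2 : ¬ Gd iv (((Phi i₀ iv p).1 *ᵥ e0) (Sum.inl ())) := hp'
    rw [Phi_e0 i₀ iv hp] at h2
    exact absurd hp h2

theorem cover_all (g : SpecialLinearGroup (Unit ⊕ l) A) :
    g ∈ NN l iv ∨ ∃ p : (Unit ⊕ l → A) × HH l A, Gd iv (p.1 (Sum.inl ())) ∧ Phi i₀ iv p = g := by
  by_cases hg : Gd iv ((g.1 *ᵥ e0) (Sum.inl ()))
  · obtain ⟨h, hh⟩ := Phi_surj i₀ iv hg
    exact Or.inr ⟨_, hg, hh⟩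
  · exact Or.inl hg

theorem sigmaFinite_map (hR : RH A vA iv) : SigmaFinite ((MM μ vA).map (Phi i₀ iv)) := by
  refine ⟨⟨{
    set := fun n => Phi i₀ iv '' (spanningSets (MM μ vA) n ∩ {p | Gd iv (p.1 (Sum.inl ()))}) ∪
      NN l iv
    set_mem := fun _ => trivial
    finite := fun n => (map_image_le μ i₀ hR (measurableSet_spanningSets _ n)).trans_lt
      (measure_spanningSets_lt_top _ n)
    spanning := ?_ }⟩⟩
  rw [eq_univ_iff_forall]
  intro g
  rw [mem_iUnion]
  rcases cover_all i₀ g with hg | ⟨p, hp, hpg⟩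
  · exact ⟨0, Or.inr hg⟩
  · have h1 : p ∈ ⋃ n, spanningSets (MM μ vA) n := by rw [iUnion_spanningSets]; trivial
    obtain ⟨n, hn⟩ := mem_iUnion.1 h1
    exact ⟨n, Or.inl ⟨p, ⟨hn, hp⟩, hpg⟩⟩

/-- **The criterion**: the Haar measure of the image of a set of finite measure is finite. -/
theorem haar_image_lt (hR : RH A vA iv) (ν : Measure (SpecialLinearGroup (Unit ⊕ l) A))
    [IsHaarMeasure ν] {B : Set ((Unit ⊕ l → A) × HH l A)} (hB : MeasurableSet B)
    (hB1 : MM μ vA B < ∞) :
    ν (Phi i₀ iv '' (B ∩ {p | Gd iv (p.1 (Sum.inl ()))}) ∪ NN l iv) < ∞ := by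
  have hσ := sigmaFinite_map μ i₀ hR
  have hL : IsMulLeftInvariant ((MM μ vA).map (Phi i₀ iv)) := ⟨fun g => left_inv μ i₀ hR g⟩
  obtain ⟨ρ, hρ⟩ : ∃ ρ, ρ = (MM μ vA).map (Phi i₀ iv) := ⟨_, rfl⟩
  rw [← hρ] at hσ hL
  have h0 : ρ univ ≠ 0 := by
    rw [hρ, Measure.map_apply (meas_Phi i₀ iv hR.meas) MeasurableSet.univ, preimage_univ, MM, mH,
      ← univ_prod_univ, Measure.prod_prod, ← univ_prod_univ, Measure.prod_prod]
    refine mul_ne_zero (measure_univ_ne_zero.2 (NeZero.ne _)) (mul_ne_zero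
      (measure_univ_ne_zero.2 (NeZero.ne _)) (measure_univ_ne_zero.2 (NeZero.ne _)))
  obtain ⟨s, hs1, hs2⟩ : ∃ s, (ρ + ν) s < ∞ ∧ ρ s ≠ 0 := by
    by_contra hcon
    push Not at hcon
    refine h0 ?_
    rw [← iUnion_spanningSets (ρ + ν), measure_iUnion_null_iff]
    exact fun n => hcon _ (measure_spanningSets_lt_top _ n)
  rw [Measure.add_apply, ENNReal.add_lt_top] at hs1
  have h1 := measure_mul_measure_eq ν ρ s
    (Phi i₀ iv '' (B ∩ {p | Gd iv (p.1 (Sum.inl ()))}) ∪ NN l iv) hs2 hs1.1.ne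
  have h2 : ρ (Phi i₀ iv '' (B ∩ {p | Gd iv (p.1 (Sum.inl ()))}) ∪ NN l iv) < ∞ := by
    rw [hρ]; exact (map_image_le μ i₀ hR hB).trans_lt hB1
  have h3 : ρ s * ν (Phi i₀ iv '' (B ∩ {p | Gd iv (p.1 (Sum.inl ()))}) ∪ NN l iv) < ∞ := by
    rw [← h1]; exact ENNReal.mul_lt_top hs1.2 h2
  exact ENNReal.lt_top_of_mul_ne_top_right h3.ne hs2

end haar

end Vale.Agent.P092.H677.OK
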