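import Vale.Agent.P092.H677.OKc

/-!
P092 (helper677), [OK-LAT], part 4: Minkowski's theorem for `g (𝓞 K)^m`, units (Dirichlet), bounded
representatives modulo `N 𝓞 K`.
-/

set_option linter.all false

open Matrix MeasureTheory MeasureTheory.Measure Set Filter Topology NumberField
open NumberField.InfinitePlace NumberField.mixedEmbedding Module
open scoped ENNReal

namespace Vale.Agent.P092.H677.OK

variable (K : Type) [Field K] [NumberField K]

/-- the integers in the mixed space -/
noncomputable def io : 𝓞 K →+* mixedSpace K := (mixedEmbedding K).comp (algebraMap (𝓞 K) K)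

theorem io_inj : Function.Injective (io K) :=
  (NumberField.mixedEmbedding_injective K).comp RingOfIntegers.coe_injective

theorem mem_span_io {x : mixedSpace K} :
    x ∈ Submodule.span ℤ (Set.range (latticeBasis K)) ↔ ∃ a, io K a = x := by
  rw [mem_span_latticeBasis]
  rfl

section bounded

/-- **bounded representatives** modulo `N 𝓞 K` -/
theorem exists_bdd (N : ℕ) (hN : N ≠ 0) : ∃ B : Set (mixedSpace K), IsCompact B ∧
    ∀ x, ∃ a : 𝓞 K, x + io K (N * a) ∈ B := by
  classical
  have h1 := ZSpan.fundamentalDomain_isBounded (latticeBasis K)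
  obtain ⟨B, hB⟩ : ∃ B : Set (mixedSpace K),
      B = closure ((fun y => (N : ℝ) • y) '' (ZSpan.fundamentalDomain (latticeBasis K))) := ⟨_, rfl⟩
  refine ⟨B, ?_, fun x => ?_⟩
  · rw [hB]
    exact (h1.smul₀ (N : ℝ)).isCompact_closure
  · obtain ⟨a, ha⟩ := (mem_span_io K).1 (ZSpan.floor (latticeBasis K) ((N : ℝ)⁻¹ • x)).2
    refine ⟨-a, ?_⟩
    rw [hB]
    refine subset_closure ⟨ZSpan.fract (latticeBasis K) ((N : ℝ)⁻¹ • x),
      ZSpan.fract_mem_fundamentalDomain _ _, ?_⟩
    have hN' : (N : ℝ) ≠ 0 := by exact_mod_cast hN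
    show (N : ℝ) • ZSpan.fract (latticeBasis K) ((N : ℝ)⁻¹ • x) = _
    rw [ZSpan.fract_apply, ← ha, smul_sub, smul_smul, mul_inv_cancel₀ hN', one_smul, mul_neg,
      map_neg, map_mul, map_natCast, ← sub_eq_add_neg]
    congr 1

end bounded

section minkowski

variable (m : Type) [Fintype m] [DecidableEq m]

theorem mem_span_pi {x : m → mixedSpace K}
    (hx : x ∈ Submodule.span ℤ (Set.range (Pi.basis fun _ : m => latticeBasis K))) :
    ∃ v : m → 𝓞 K, x = io K ∘ v := by
  have h1 : ∀ i, ∃ a, io K a = x i := by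
    intro i
    rw [← mem_span_io]
    induction hx using Submodule.span_induction with
    | mem y hy =>
      obtain ⟨⟨j, k⟩, rfl⟩ := hy
      rw [Pi.basis_apply]
      by_cases hij : i = j
      · subst hij
        rw [Pi.single_eq_same]
        exact Submodule.subset_span ⟨k, rfl⟩
      · rw [Pi.single_eq_of_ne hij]
        exact zero_mem _
    | zero => exact zero_mem _
    | add y z _ _ h1 h2 => exact add_mem h1 h2
    | smul c y _ h1 => exact Submodule.smul_mem _ c h1
  choose v hv using h1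
  exact ⟨v, funext fun i => (hv i).symm⟩

/-- **Minkowski**, uniformly in `g`. -/
theorem minkowski [Nonempty m] : ∃ B : Set (m → mixedSpace K), IsCompact B ∧
    ∀ g : SpecialLinearGroup m (mixedSpace K), ∃ v : m → 𝓞 K, v ≠ 0 ∧
      g.1 *ᵥ (io K ∘ v) ∈ B := by
  have hH : IsAddHaarMeasure (Measure.pi fun _ : m => vK K) := Measure.pi.isAddHaarMeasure _
  classical
  obtain ⟨μ, hμ⟩ : ∃ μ : Measure (m → mixedSpace K), μ = Measure.pi fun _ => vK K := ⟨_, rfl⟩
  have hμH : IsAddHaarMeasure μ := by rw [hμ]; exact hH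
  obtain ⟨b, hb⟩ : ∃ b, b = Pi.basis fun _ : m => latticeBasis K := ⟨_, rfl⟩
  have hfd := ZSpan.isAddFundamentalDomain' b μ
  have hF : μ (ZSpan.fundamentalDomain b) < ∞ :=
    (ZSpan.fundamentalDomain_isBounded b).measure_lt_top
  have hcount : Countable (Submodule.span ℤ (Set.range b)).toAddSubgroup :=
    inferInstanceAs (Countable (Submodule.span ℤ (Set.range b)))
  have hnt : NoncompactSpace (m → mixedSpace K) := by
    have : Nontrivial (m → mixedSpace K) := inferInstance
    exact NormedSpace.noncompactSpace ℝ _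
  obtain ⟨R, hR⟩ : ∃ R : ℝ, μ (ZSpan.fundamentalDomain b) * 2 ^ finrank ℝ (m → mixedSpace K) <
      μ (Metric.closedBall 0 R) := by
    by_contra hcon
    push Not at hcon
    have h1 : μ univ ≤ μ (ZSpan.fundamentalDomain b) * 2 ^ finrank ℝ (m → mixedSpace K) := by
      rw [← Metric.iUnion_closedBall_nat (0 : m → mixedSpace K)]
      have h2 : Monotone fun n : ℕ => Metric.closedBall (0 : m → mixedSpace K) n :=
        fun a c hac => Metric.closedBall_subset_closedBall (by exact_mod_cast hac)
      rw [h2.measure_iUnion]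
      exact iSup_le fun n => hcon n
    rw [measure_univ_of_isAddLeftInvariant] at h1
    have h3 : μ (ZSpan.fundamentalDomain b) * 2 ^ finrank ℝ (m → mixedSpace K) < ∞ :=
      ENNReal.mul_lt_top hF (by finiteness)
    exact absurd h1 (not_le.2 h3)
  refine ⟨Metric.closedBall 0 R, isCompact_closedBall _ _, fun g => ?_⟩
  have hpres : μ ((fun x : m → mixedSpace K => g.1 *ᵥ x) ⁻¹' Metric.closedBall 0 R) =
      μ (Metric.closedBall 0 R) := by
    have h4 := vol_pres K m g
    rw [← hμ] at h4
    exact h4.measure_preimage Metric.isClosed_closedBall.measurableSet.nullMeasurableSet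
  obtain ⟨x, hx0, hx⟩ := exists_ne_zero_mem_lattice_of_measure_mul_two_pow_lt_measure
    (μ := μ) (s := (fun x : m → mixedSpace K => g.1 *ᵥ x) ⁻¹' Metric.closedBall 0 R) hfd
    (fun x hx => by
      rw [mem_preimage, Matrix.mulVec_neg, mem_closedBall_zero_iff, norm_neg]
      simpa using hx)
    ((convex_closedBall _ _).linear_preimage (lm K g.1)) (by rw [hpres]; exact hR)
  obtain ⟨v, hv⟩ := mem_span_pi K m (x := (x : m → mixedSpace K)) (by rw [← hb]; exact x.2)
  refine ⟨v, ?_, ?_⟩
  · rintro rfl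
    apply hx0
    apply Subtype.ext
    rw [hv]
    funext i
    simp
  · rw [← hv]
    exact hx

end minkowski

section units

theorem nap_cmp (j : JJ K) (x : mixedSpace K) : ∃ w : InfinitePlace K,
    normAtPlace w x = ‖cmp K j x‖ := by
  rcases j with w | w
  · exact ⟨w.1, normAtPlace_apply_of_isReal w.2 x⟩
  · exact ⟨w.1, normAtPlace_apply_of_isComplex w.2 x⟩

theorem one_le_norm {a : 𝓞 K} (ha : a ≠ 0) : 1 ≤ mixedEmbedding.norm (io K a) := by
  have h1 : mixedEmbedding.norm (io K a) = |((Algebra.norm ℤ a : ℤ) : ℝ)| := by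
    have h2 : io K a = mixedEmbedding K (a : K) := rfl
    rw [h2, norm_eq_norm, ← Algebra.coe_norm_int]
    push_cast
    rfl
  rw [h1]
  have h3 : (Algebra.norm ℤ a) ≠ 0 := by
    rw [Ne, Algebra.norm_eq_zero_iff]; exact ha
  have h4 : (1 : ℤ) ≤ |Algebra.norm ℤ a| := Int.one_le_abs h3
  exact_mod_cast h4

/-- lower bound for the elements of the fundamental cone with norm at least one -/
theorem cone_bound : ∃ c : ℝ, 0 < c ∧ ∀ y ∈ fundamentalCone K, 1 ≤ mixedEmbedding.norm y →
    ∀ w, c ≤ normAtPlace w y := by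
  classical
  obtain ⟨B, hB0, hB⟩ : ∃ B : ℝ, 0 ≤ B ∧ ∀ y ∈ fundamentalCone K, ∀ w, |logMap y w| ≤ B := by
    obtain ⟨B, hB⟩ := (ZSpan.fundamentalDomain_isBounded
      ((Units.basisUnitLattice K).ofZLatticeBasis ℝ _)).exists_norm_le
    refine ⟨max B 0, le_max_right _ _, fun y hy w => ?_⟩
    have h1 := hB _ hy.1
    exact (norm_le_pi_norm (logMap y) w).trans (h1.trans (le_max_left _ _))
  obtain ⟨d, hd⟩ : ∃ d : ℝ, d = finrank ℚ K := ⟨_, rfl⟩
  have hd1 : 1 ≤ d := by
    rw [hd]; exact_mod_cast Module.finrank_pos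
  refine ⟨Real.exp (-(B * d)), Real.exp_pos _, fun y hy hn w => ?_⟩
  have hpos := fundamentalCone.normAtPlace_pos_of_mem hy
  rw [← Real.le_log_iff_exp_le (hpos w)]
  have hmult : ∀ w : InfinitePlace K, (1 : ℝ) ≤ mult w := fun w => by exact_mod_cast one_le_mult
  have hln : 0 ≤ Real.log (mixedEmbedding.norm y) := Real.log_nonneg hn
  obtain ⟨L, hL⟩ : ∃ L, L = Real.log (mixedEmbedding.norm y) * d⁻¹ := ⟨_, rfl⟩
  have hL0 : 0 ≤ L := by rw [hL]; positivity
  have h1 : ∀ w : InfinitePlace K, w ≠ Units.dirichletUnitTheorem.w₀ →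
      |(mult w : ℝ) * (Real.log (normAtPlace w y) - L)| ≤ B := by
    intro w hw
    have := hB y hy ⟨w, hw⟩
    rw [logMap_apply, ← hd, ← hL] at this
    exact this
  by_cases hw : w = Units.dirichletUnitTheorem.w₀
  · -- product formula
    have h2 : Real.log (mixedEmbedding.norm y) =
        ∑ w : InfinitePlace K, (mult w : ℝ) * Real.log (normAtPlace w y) := by
      rw [mixedEmbedding.norm_apply, Real.log_prod]
      · refine Finset.sum_congr rfl fun w _ => ?_
        rw [Real.log_pow]
      · intro w _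
        exact pow_ne_zero _ (hpos w).ne'
    have h3 : ∑ w : InfinitePlace K, (mult w : ℝ) = d := by
      rw [hd, ← sum_mult_eq]
      push_cast
      rfl
    have h4 : Real.log (mixedEmbedding.norm y) = d * L := by
      rw [hL]; field_simp
    have h5 : ∑ w : InfinitePlace K, (mult w : ℝ) * (Real.log (normAtPlace w y) - L) = 0 := by
      simp only [mul_sub, Finset.sum_sub_distrib]
      rw [← h2, ← Finset.sum_mul, h3, h4, sub_self]
    rw [← Finset.add_sum_erase _ _ (Finset.mem_univ w)] at h5
    have h6 : ∑ w' ∈ Finset.univ.erase w, (mult w' : ℝ) * (Real.log (normAtPlace w' y) - L) ≤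
        ∑ w' ∈ Finset.univ.erase w, (mult w' : ℝ) * B := by
      refine Finset.sum_le_sum fun w' hw' => ?_
      have h7 := (abs_le.1 (h1 w' (fun h => (Finset.ne_of_mem_erase hw') (h.trans hw.symm)))).2
      nlinarith [hmult w', h7, hB0]
    have h8 : ∑ w' ∈ Finset.univ.erase w, (mult w' : ℝ) * B ≤ B * d := by
      rw [← Finset.sum_mul, ← h3, mul_comm]
      refine mul_le_mul_of_nonneg_left ?_ hB0
      exact Finset.sum_le_sum_of_subset_of_nonneg (Finset.erase_subset _ _)
        fun i _ _ => Nat.cast_nonneg _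
    have h9 : -(B * d) ≤ (mult w : ℝ) * (Real.log (normAtPlace w y) - L) := by linarith
    by_contra hcon
    push Not at hcon
    have h10 : Real.log (normAtPlace w y) - L < 0 := by
      have : 0 ≤ B * d := by positivity
      linarith
    nlinarith [hmult w]
  · have h2 := (abs_le.1 (h1 w hw)).1
    by_contra hcon
    push Not at hcon
    have h10 : Real.log (normAtPlace w y) - L < 0 := by
      have : 0 ≤ B * d := by positivity
      linarith
    have h11 : B ≤ B * d := by nlinarith
    nlinarith [hmult w]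

/-- **Dirichlet**: every nonzero integer has an associate which is large at all places. -/
theorem exists_unit : ∃ c : ℝ, 0 < c ∧ ∀ a : 𝓞 K, a ≠ 0 → ∃ u : (𝓞 K)ˣ,
    ∀ j, c ≤ ‖cmp K j (io K (u * a))‖ := by
  obtain ⟨c, hc, h⟩ := cone_bound K
  refine ⟨c, hc, fun a ha => ?_⟩
  have h1 := one_le_norm K ha
  obtain ⟨u, hu⟩ := fundamentalCone.exists_unit_smul_mem (x := io K a) (by linarith)
  refine ⟨u, fun j => ?_⟩
  obtain ⟨w, hw⟩ := nap_cmp K j (io K (u * a))
  rw [← hw]
  have h2 : u • io K a = io K (u * a) := by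
    rw [map_mul]; rfl
  have h3 := h _ hu (by rw [norm_unit_smul]; exact h1) w
  rw [h2] at h3
  exact h3

end units

end Vale.Agent.P092.H677.OK
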