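import Mathlib

/-!
P092 (helper677), [OK-LAT], part 5: `SL_m(R)`, `R` a Dedekind domain with finite class group, has
finitely many orbits on the lines of `K^m`.
-/

set_option linter.all false

open Matrix
open scoped nonZeroDivisors

namespace Vale.Agent.P092.H677.OK

section ded

variable {R K : Type} [CommRing R] [IsDedekindDomain R] [Field K] [Algebra R K]
  [IsFractionRing R K]

open FractionalIdeal

/-- `e` maps a product of fractional ideals to the standard lattice -/
def AdmE (R : Type) {K : Type} [CommRing R] [IsDedekindDomain R] [Field K] [Algebra R K]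
    [IsFractionRing R K] {l : Type} (e : (l → K) ≃ₗ[K] (l → K)) : Prop :=
  ∃ I : l → FractionalIdeal R⁰ K, (∀ i, I i ≠ 0) ∧
    ∀ x, (∀ i, e x i ∈ (1 : FractionalIdeal R⁰ K)) ↔ ∀ i, x i ∈ I i

/-- every nonzero vector is the first column of an admissible matrix -/
def PE (R K : Type) [CommRing R] [IsDedekindDomain R] [Field K] [Algebra R K]
    [IsFractionRing R K] (l : Type) [DecidableEq l] (b : l) : Prop :=
  ∀ u : l → K, u ≠ 0 → ∃ e : (l → K) ≃ₗ[K] (l → K), e (Pi.single b 1) = u ∧ AdmE R e

theorem mem_ss_mul {a x : K} (ha : a ≠ 0) {I : FractionalIdeal R⁰ K} :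
    x ∈ spanSingleton R⁰ a * I ↔ a⁻¹ * x ∈ I := by
  rw [mem_singleton_mul]
  constructor
  · rintro ⟨y, hy, rfl⟩
    rwa [inv_mul_cancel_left₀ ha]
  · intro h
    exact ⟨_, h, by rw [mul_inv_cancel_left₀ ha]⟩

/-- the arithmetic of the `2 × 2` step -/
theorem step_ideal (u₀ : K) {b : FractionalIdeal R⁰ K} (hb : b ≠ 0) :
    ∃ (m : FractionalIdeal R⁰ K) (z y : K), m ≠ 0 ∧ u₀ * z + y = 1 ∧
      ∀ x₀ x₁ : K, (u₀ * x₀ - y * x₁ ∈ (1 : FractionalIdeal R⁰ K) ∧ x₀ + z * x₁ ∈ b) ↔
        (x₀ ∈ m ∧ x₁ ∈ m⁻¹ * b) := by
  obtain ⟨S, hS⟩ : ∃ S : FractionalIdeal R⁰ K, S = spanSingleton R⁰ u₀ + b⁻¹ := ⟨_, rfl⟩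
  have hb' : b⁻¹ ≠ 0 := inv_ne_zero hb
  have hbS : b⁻¹ ≤ S := by rw [hS]; exact le_add_self
  have huS : spanSingleton R⁰ u₀ ≤ S := by rw [hS]; exact le_self_add
  have hS0 : S ≠ 0 := by
    intro h
    rw [h] at hbS
    exact hb' (le_antisymm hbS (zero_le _))
  obtain ⟨m, hm⟩ : ∃ m, m = S⁻¹ := ⟨_, rfl⟩
  have hm0 : m ≠ 0 := by rw [hm]; exact inv_ne_zero hS0
  have hSm : S * m = 1 := by rw [hm]; exact mul_inv_cancel₀ hS0
  have hmi : m⁻¹ = S := by rw [hm, inv_inv]
  have hum : spanSingleton R⁰ u₀ * m ≤ 1 := by
    rw [← hSm]; exact mul_le_mul_left huS m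
  have hbm : b⁻¹ * m ≤ 1 := by
    rw [← hSm]; exact mul_le_mul_left hbS m
  have hmb : m ≤ b := by
    calc m = b * (b⁻¹ * m) := by rw [mul_inv_cancel_left₀ hb]
      _ ≤ b * 1 := mul_le_mul_right hbm b
      _ = b := mul_one b
  have h1 : (1 : K) ∈ S * m := by rw [hSm]; exact one_mem_one R⁰
  rw [hS, add_mul, mem_add] at h1
  obtain ⟨p, hp, y, hy, hpy⟩ := h1
  obtain ⟨z, hz, rfl⟩ := mem_singleton_mul.1 hp
  refine ⟨m, z, y, hm0, hpy, fun x₀ x₁ => ⟨?_, ?_⟩⟩
  · rintro ⟨h0, h1⟩
    constructor
    · have e1 : x₀ = (u₀ * x₀ - y * x₁) * z + y * (x₀ + z * x₁) := by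
        linear_combination (-x₀) * hpy
      rw [e1]
      have e2 : (1 : FractionalIdeal R⁰ K) * m + b⁻¹ * m * b = m + m := by
        rw [one_mul, mul_comm b⁻¹ m, mul_assoc, inv_mul_cancel₀ hb, mul_one]
      have e3 : (u₀ * x₀ - y * x₁) * z + y * (x₀ + z * x₁) ∈
          (1 : FractionalIdeal R⁰ K) * m + b⁻¹ * m * b :=
        (mem_add _ _ _).2 ⟨_, mul_mem_mul h0 hz, _, mul_mem_mul hy h1, rfl⟩
      rw [e2] at e3
      have e4 : m + m = m := by rw [← sup_eq_add, sup_idem]
      rwa [e4] at e3
    · have e1 : x₁ = -(u₀ * x₀ - y * x₁) + u₀ * (x₀ + z * x₁) := by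
        linear_combination (-x₁) * hpy
      rw [e1]
      have e5 : (1 : FractionalIdeal R⁰ K) ≤ m⁻¹ * b := by
        calc (1 : FractionalIdeal R⁰ K) = m⁻¹ * m := (inv_mul_cancel₀ hm0).symm
          _ ≤ m⁻¹ * b := mul_le_mul_right hmb _
      have e6 : -(u₀ * x₀ - y * x₁) ∈ m⁻¹ * b :=
        Submodule.neg_mem _ (e5 h0)
      have e7 : u₀ ∈ m⁻¹ := by rw [hmi]; exact huS (mem_spanSingleton_self R⁰ u₀)
      exact Submodule.add_mem _ e6 (mul_mem_mul e7 h1)
  · rintro ⟨h0, h1⟩
    constructor
    · have e1 : u₀ * x₀ ∈ (1 : FractionalIdeal R⁰ K) :=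
        hum (mul_mem_mul (mem_spanSingleton_self R⁰ u₀) h0)
      have e2 : y * x₁ ∈ (1 : FractionalIdeal R⁰ K) := by
        have e3 := mul_mem_mul hy h1
        have e4 : b⁻¹ * m * (m⁻¹ * b) = 1 := by
          rw [mul_assoc, mul_inv_cancel_left₀ hm0, inv_mul_cancel₀ hb]
        rwa [e4] at e3
      exact Submodule.sub_mem _ e1 e2
    · have e1 : z * x₁ ∈ b := by
        have e3 := mul_mem_mul hz h1
        rwa [mul_inv_cancel_left₀ hm0] at e3
      exact Submodule.add_mem _ (hmb h0) e1

theorem pe_unit : PE R K Unit () := by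
  intro u hu
  have hu0 : u () ≠ 0 := fun h => hu (funext fun _ => h)
  refine ⟨LinearEquiv.smulOfNeZero K (Unit → K) (u ()) hu0, ?_, fun _ => spanSingleton R⁰ (u ())⁻¹,
    fun _ => ?_, fun x => ?_⟩
  · funext i
    show u () • (Pi.single () 1 : Unit → K) i = _
    simp
  · rw [Ne, spanSingleton_eq_zero_iff]
    exact inv_ne_zero hu0
  · refine forall_congr' fun i => ?_
    have h1 : spanSingleton R⁰ (u ())⁻¹ = spanSingleton R⁰ (u ())⁻¹ * 1 := (mul_one _).symm
    rw [h1, mem_ss_mul (inv_ne_zero hu0), inv_inv]
    rfl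

theorem pe_step {l : Type} [DecidableEq l] {b : l} (h : PE R K l b) :
    PE R K (Unit ⊕ l) (Sum.inl ()) := by
  intro u hu
  by_cases hr : (u ∘ Sum.inr) = 0
  · have hu0 : u (Sum.inl ()) ≠ 0 := by
      intro h0
      refine hu (funext fun i => ?_)
      rcases i with i | i
      · exact h0
      · exact congrFun hr i
    refine ⟨{ toFun := fun x => Sum.elim (fun _ => u (Sum.inl ()) * x (Sum.inl ())) (x ∘ Sum.inr)
              invFun := fun x => Sum.elim (fun _ => (u (Sum.inl ()))⁻¹ * x (Sum.inl ()))
                (x ∘ Sum.inr)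
              map_add' := ?_
              map_smul' := ?_
              left_inv := ?_
              right_inv := ?_ }, ?_, Sum.elim (fun _ => spanSingleton R⁰ (u (Sum.inl ()))⁻¹)
                (fun _ => 1), ?_, ?_⟩
    · intro x y
      funext i
      rcases i with i | i
      · simp [mul_add]
      · simp
    · intro c x
      funext i
      rcases i with i | i
      · simp; ring
      · simp
    · intro x
      funext i
      rcases i with i | i
      · simp [hu0]
      · simp
    · intro x
      funext i
      rcases i with i | i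
      · simp [hu0]
      · simp
    · funext i
      rcases i with i | i
      · simp
      · have := congrFun hr i
        simp at this
        simp [this]
    · rintro (i | i)
      · show spanSingleton R⁰ (u (Sum.inl ()))⁻¹ ≠ 0
        rw [Ne, spanSingleton_eq_zero_iff]
        exact inv_ne_zero hu0
      · exact one_ne_zero
    · intro x
      have h1 : spanSingleton R⁰ (u (Sum.inl ()))⁻¹ = spanSingleton R⁰ (u (Sum.inl ()))⁻¹ * 1 :=
        (mul_one _).symm
      refine forall_congr' fun i => ?_
      rcases i with i | i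
      · show u (Sum.inl ()) * x (Sum.inl ()) ∈ (1 : FractionalIdeal R⁰ K) ↔
          x (Sum.inl ()) ∈ spanSingleton R⁰ (u (Sum.inl ()))⁻¹
        rw [h1, mem_ss_mul (inv_ne_zero hu0), inv_inv]
      · exact Iff.rfl
  · obtain ⟨e', he', I', hI', hI⟩ := h _ hr
    obtain ⟨m, z, y, hm, hzy, key⟩ := step_ideal (u (Sum.inl ())) (hI' b)
    obtain ⟨N, hN⟩ : ∃ N : (Unit ⊕ l → K) ≃ₗ[K] (Unit ⊕ l → K), ∀ x, N x =
        Sum.elim (fun _ => u (Sum.inl ()) * x (Sum.inl ()) - y * x (Sum.inr b))
          (Function.update (x ∘ Sum.inr) b (x (Sum.inl ()) + z * x (Sum.inr b))) := by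
      refine ⟨{ toFun := fun x => Sum.elim
                  (fun _ => u (Sum.inl ()) * x (Sum.inl ()) - y * x (Sum.inr b))
                  (Function.update (x ∘ Sum.inr) b (x (Sum.inl ()) + z * x (Sum.inr b)))
                invFun := fun x => Sum.elim (fun _ => z * x (Sum.inl ()) + y * x (Sum.inr b))
                  (Function.update (x ∘ Sum.inr) b
                    (-x (Sum.inl ()) + u (Sum.inl ()) * x (Sum.inr b)))
                map_add' := ?_
                map_smul' := ?_
                left_inv := ?_
                right_inv := ?_ }, fun x => rfl⟩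
      · intro x x'
        funext i
        rcases i with i | i
        · simp only [Sum.elim_inl, Sum.elim_inr, Function.comp_apply, Function.update_self, Pi.add_apply, Pi.smul_apply, smul_eq_mul, RingHom.id_apply]; ring
        · by_cases hi : i = b
          · subst hi; simp only [Sum.elim_inl, Sum.elim_inr, Function.comp_apply, Function.update_self, Pi.add_apply, Pi.smul_apply, smul_eq_mul, RingHom.id_apply]; ring
          · simp only [Sum.elim_inl, Sum.elim_inr, Function.comp_apply, Function.update_of_ne hi, Pi.add_apply, Pi.smul_apply, smul_eq_mul, RingHom.id_apply]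
      · intro c x
        funext i
        rcases i with i | i
        · simp only [Sum.elim_inl, Sum.elim_inr, Function.comp_apply, Function.update_self, Pi.add_apply, Pi.smul_apply, smul_eq_mul, RingHom.id_apply]; ring
        · by_cases hi : i = b
          · subst hi; simp only [Sum.elim_inl, Sum.elim_inr, Function.comp_apply, Function.update_self, Pi.add_apply, Pi.smul_apply, smul_eq_mul, RingHom.id_apply]; ring
          · simp only [Sum.elim_inl, Sum.elim_inr, Function.comp_apply, Function.update_of_ne hi, Pi.add_apply, Pi.smul_apply, smul_eq_mul, RingHom.id_apply]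
      · intro x
        funext i
        rcases i with i | i
        · simp only [Sum.elim_inl, Sum.elim_inr, Function.comp_apply, Function.update_self, Pi.add_apply, Pi.smul_apply, smul_eq_mul, RingHom.id_apply]
          linear_combination (x (Sum.inl ())) * hzy
        · by_cases hi : i = b
          · subst hi
            simp only [Sum.elim_inl, Sum.elim_inr, Function.comp_apply, Function.update_self, Pi.add_apply, Pi.smul_apply, smul_eq_mul, RingHom.id_apply]
            linear_combination (x (Sum.inr i)) * hzy
          · simp only [Sum.elim_inl, Sum.elim_inr, Function.comp_apply, Function.update_of_ne hi, Pi.add_apply, Pi.smul_apply, smul_eq_mul, RingHom.id_apply]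
      · intro x
        funext i
        rcases i with i | i
        · simp only [Sum.elim_inl, Sum.elim_inr, Function.comp_apply, Function.update_self, Pi.add_apply, Pi.smul_apply, smul_eq_mul, RingHom.id_apply]
          linear_combination (x (Sum.inl ())) * hzy
        · by_cases hi : i = b
          · subst hi
            simp only [Sum.elim_inl, Sum.elim_inr, Function.comp_apply, Function.update_self, Pi.add_apply, Pi.smul_apply, smul_eq_mul, RingHom.id_apply]
            linear_combination (x (Sum.inr i)) * hzy
          · simp only [Sum.elim_inl, Sum.elim_inr, Function.comp_apply, Function.update_of_ne hi, Pi.add_apply, Pi.smul_apply, smul_eq_mul, RingHom.id_apply]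
    obtain ⟨E, hE⟩ : ∃ E : (Unit ⊕ l → K) ≃ₗ[K] (Unit ⊕ l → K), ∀ x, E x =
        Sum.elim (fun _ => x (Sum.inl ())) (e' (x ∘ Sum.inr)) := by
      refine ⟨{ toFun := fun x => Sum.elim (fun _ => x (Sum.inl ())) (e' (x ∘ Sum.inr))
                invFun := fun x => Sum.elim (fun _ => x (Sum.inl ())) (e'.symm (x ∘ Sum.inr))
                map_add' := ?_
                map_smul' := ?_
                left_inv := ?_
                right_inv := ?_ }, fun x => rfl⟩
      · intro x x'
        have h1 : (x + x') ∘ Sum.inr = x ∘ Sum.inr + x' ∘ (Sum.inr : l → Unit ⊕ l) := rfl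
        funext i
        rcases i with i | i
        · rfl
        · show e' ((x + x') ∘ Sum.inr) i = _
          rw [h1, map_add]; rfl
      · intro c x
        have h1 : (c • x) ∘ Sum.inr = c • (x ∘ (Sum.inr : l → Unit ⊕ l)) := rfl
        funext i
        rcases i with i | i
        · rfl
        · show e' ((c • x) ∘ Sum.inr) i = _
          rw [h1, map_smul]; rfl
      · intro x
        funext i
        rcases i with i | i
        · rfl
        · show e'.symm (e' (x ∘ Sum.inr)) i = _
          rw [LinearEquiv.symm_apply_apply]; rfl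
      · intro x
        funext i
        rcases i with i | i
        · rfl
        · show e' (e'.symm (x ∘ Sum.inr)) i = _
          rw [LinearEquiv.apply_symm_apply]; rfl
    have hNE : ∀ x, (N.trans E) x =
        Sum.elim (fun _ => u (Sum.inl ()) * x (Sum.inl ()) - y * x (Sum.inr b))
          (e' (Function.update (x ∘ Sum.inr) b (x (Sum.inl ()) + z * x (Sum.inr b)))) := by
      intro x
      rw [LinearEquiv.trans_apply, hE, hN]
      rfl
    refine ⟨N.trans E, ?_, Sum.elim (fun _ => m) (Function.update I' b (m⁻¹ * I' b)), ?_, ?_⟩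
    · rw [hNE]
      have h1 : (Function.update ((Pi.single (Sum.inl ()) 1 : Unit ⊕ l → K) ∘ Sum.inr) b
          ((Pi.single (Sum.inl ()) 1 : Unit ⊕ l → K) (Sum.inl ()) +
            z * (Pi.single (Sum.inl ()) 1 : Unit ⊕ l → K) (Sum.inr b))) = Pi.single b 1 := by
        funext i
        by_cases hi : i = b
        · subst hi; simp
        · simp [hi]
      rw [h1, he']
      funext i
      rcases i with i | i
      · simp
      · rfl
    · rintro (i | i)
      · exact hm
      · show Function.update I' b (m⁻¹ * I' b) i ≠ 0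
        by_cases hi : i = b
        · subst hi
          rw [Function.update_self]
          exact mul_ne_zero (inv_ne_zero hm) (hI' i)
        · rw [Function.update_of_ne hi]
          exact hI' i
    · intro x
      rw [hNE]
      have h1 : (∀ i, (Sum.elim (fun _ => u (Sum.inl ()) * x (Sum.inl ()) - y * x (Sum.inr b))
          (e' (Function.update (x ∘ Sum.inr) b (x (Sum.inl ()) + z * x (Sum.inr b)))) :
            Unit ⊕ l → K) i ∈ (1 : FractionalIdeal R⁰ K)) ↔
          (u (Sum.inl ()) * x (Sum.inl ()) - y * x (Sum.inr b) ∈ (1 : FractionalIdeal R⁰ K)) ∧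
          ∀ i, e' (Function.update (x ∘ Sum.inr) b (x (Sum.inl ()) + z * x (Sum.inr b))) i ∈
            (1 : FractionalIdeal R⁰ K) :=
        ⟨fun h => ⟨h (Sum.inl ()), fun i => h (Sum.inr i)⟩, fun h i => by
          rcases i with i | i
          · exact h.1
          · exact h.2 i⟩
      rw [h1, hI]
      constructor
      · rintro ⟨h2, h3⟩
        have h4 := h3 b
        rw [Function.update_self] at h4
        obtain ⟨h5, h6⟩ := (key _ _).1 ⟨h2, h4⟩
        rintro (i | i)
        · exact h5
        · show x (Sum.inr i) ∈ Function.update I' b (m⁻¹ * I' b) i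
          by_cases hi : i = b
          · subst hi
            rw [Function.update_self]
            exact h6
          · rw [Function.update_of_ne hi]
            have h7 := h3 i
            rw [Function.update_of_ne hi] at h7
            exact h7
      · intro h2
        have h5 := h2 (Sum.inl ())
        have h6 := h2 (Sum.inr b)
        have h6' : x (Sum.inr b) ∈ Function.update I' b (m⁻¹ * I' b) b := h6
        rw [Function.update_self] at h6'
        obtain ⟨h7, h8⟩ := (key _ _).2 ⟨h5, h6'⟩
        refine ⟨h7, fun i => ?_⟩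
        by_cases hi : i = b
        · subst hi
          rw [Function.update_self]
          exact h8
        · rw [Function.update_of_ne hi]
          have h9 : x (Sum.inr i) ∈ Function.update I' b (m⁻¹ * I' b) i := h2 (Sum.inr i)
          rw [Function.update_of_ne hi] at h9
          exact h9

end ded

end Vale.Agent.P092.H677.OK
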