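import Vale.Agent.P092.H677.OKe

/-!
P092 (helper677), [OK-LAT], part 6: finitely many orbits of `SL_m(R)` on the lines of `K^m`.
-/

set_option linter.all false

open Matrix
open scoped nonZeroDivisors

namespace Vale.Agent.P092.H677.OK

section orb

variable {R K : Type} [CommRing R] [IsDedekindDomain R] [Field K] [Algebra R K]
  [IsFractionRing R K] {l : Type} [Fintype l] [DecidableEq l]

open FractionalIdeal

/-- the ideal classes -/
abbrev QQ (R K : Type) [CommRing R] [IsDedekindDomain R] [Field K] [Algebra R K]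
    [IsFractionRing R K] : Type :=
  (FractionalIdeal R⁰ K)ˣ ⧸ (toPrincipalIdeal R K).range

/-- `M` maps the product of the representatives of the classes `c` to the standard lattice -/
def TC (M : Matrix l l K) (c : l → QQ R K) : Prop :=
  ∀ x : l → K, (∀ i, (M *ᵥ x) i ∈ (1 : FractionalIdeal R⁰ K)) ↔
    ∀ i, x i ∈ ((c i).out : FractionalIdeal R⁰ K)

theorem out_mem {I : FractionalIdeal R⁰ K} (hI : I ≠ 0) : ∃ (c : QQ R K) (t : K), t ≠ 0 ∧
    ∀ x : K, x ∈ (c.out : FractionalIdeal R⁰ K) ↔ t * x ∈ I := by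
  obtain ⟨h, hh⟩ := QuotientGroup.mk_out_eq_mul (toPrincipalIdeal R K).range (Units.mk0 I hI)
  obtain ⟨s, hs⟩ := h.2
  refine ⟨QuotientGroup.mk (Units.mk0 I hI), (s : K)⁻¹, inv_ne_zero s.ne_zero, fun x => ?_⟩
  have h1 : ((QuotientGroup.mk (Units.mk0 I hI) : QQ R K).out : FractionalIdeal R⁰ K) =
      spanSingleton R⁰ (s : K) * I := by
    rw [hh, Units.val_mul, Units.val_mk0, ← hs, coe_toPrincipalIdeal, mul_comm]
  rw [h1, mem_ss_mul s.ne_zero]

theorem norm_form {b : l} (hP : PE R K l b) {u : l → K} (hu : u ≠ 0) :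
    ∃ (M : Matrix l l K) (t : K) (c : l → QQ R K), t ≠ 0 ∧ M.det ≠ 0 ∧
      M *ᵥ Pi.single b 1 = t • u ∧ TC M c := by
  obtain ⟨e, he, I, hI, hIe⟩ := hP u hu
  choose c t ht hct using fun i => out_mem (hI i)
  obtain ⟨D, hD⟩ : ∃ D : (l → K) ≃ₗ[K] (l → K), ∀ x i, D x i = t i * x i :=
    ⟨{ toFun := fun x i => t i * x i
       invFun := fun x i => (t i)⁻¹ * x i
       map_add' := fun x y => by funext i; exact mul_add _ _ _
       map_smul' := fun a x => by
         funext i
         show t i * (a * x i) = a * (t i * x i)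
         ring
       left_inv := fun x => by funext i; exact inv_mul_cancel_left₀ (ht i) _
       right_inv := fun x => by funext i; exact mul_inv_cancel_left₀ (ht i) _ }, fun _ _ => rfl⟩
  have hM : ∀ x, LinearMap.toMatrix' ((D.trans e : (l → K) ≃ₗ[K] (l → K)) : (l → K) →ₗ[K] (l → K))
      *ᵥ x = e (D x) := fun x => LinearMap.toMatrix'_mulVec _ _
  refine ⟨LinearMap.toMatrix' ((D.trans e : (l → K) ≃ₗ[K] (l → K)) : (l → K) →ₗ[K] (l → K)), t b,
    c, ht b, ?_, ?_, fun x => ?_⟩
  · rw [LinearMap.det_toMatrix']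
    exact (LinearEquiv.isUnit_det' _).ne_zero
  · rw [hM]
    have h1 : D (Pi.single b 1) = t b • (Pi.single b 1 : l → K) := by
      funext i
      rw [hD, Pi.smul_apply, smul_eq_mul]
      by_cases hi : i = b
      · subst hi; rfl
      · rw [Pi.single_eq_of_ne hi, mul_zero, mul_zero]
    rw [h1, map_smul, he]
  · rw [hM, hIe]
    refine forall_congr' fun i => ?_
    rw [hD, hct]

theorem exists_int {A : Matrix l l K}
    (h : ∀ X : l → K, (∀ i, X i ∈ (1 : FractionalIdeal R⁰ K)) →
      ∀ i, (A *ᵥ X) i ∈ (1 : FractionalIdeal R⁰ K)) :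
    ∃ B : Matrix l l R, B.map (algebraMap R K) = A := by
  have h1 : ∀ i j, ∃ a : R, algebraMap R K a = A i j := by
    intro i j
    have h2 := h (Pi.single j 1) (fun i' => by
      by_cases hi : i' = j
      · subst hi
        rw [Pi.single_eq_same]
        exact one_mem_one R⁰
      · rw [Pi.single_eq_of_ne hi]
        exact Submodule.zero_mem _) i
    rw [mulVec_single_one] at h2
    exact (mem_one_iff R⁰).1 h2
  choose B hB using h1
  exact ⟨B, by ext i j; exact hB i j⟩

theorem exists_orbits {b b' : l} (hbb : b ≠ b') (hP : PE R K l b) [Finite (QQ R K)] :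
    ∃ (ι : Type) (_ : Finite ι) (h : ι → SpecialLinearGroup l K), ∀ u : l → K, u ≠ 0 →
      ∃ i, ∃ t : K, t ≠ 0 ∧ ∃ γ : SpecialLinearGroup l R,
        u = t • ((SpecialLinearGroup.map (algebraMap R K) γ * h i).1 *ᵥ Pi.single b 1) := by
  classical
  have hinj : Function.Injective (algebraMap R K) := IsFractionRing.injective R K
  have hR : ∀ c : l → QQ R K, ∃ g : SpecialLinearGroup l K,
      ∀ (M : Matrix l l K), M.det ≠ 0 → TC M c → ∃ γ : SpecialLinearGroup l R,
        M *ᵥ Pi.single b 1 = (SpecialLinearGroup.map (algebraMap R K) γ * g).1 *ᵥ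
          Pi.single b 1 := by
    intro c
    by_cases hc : ∃ M₀ : Matrix l l K, M₀.det ≠ 0 ∧ TC M₀ c
    · obtain ⟨M₀, hM₀, hT₀⟩ := hc
      have hu₀ : IsUnit M₀.det := isUnit_iff_ne_zero.2 hM₀
      -- diagonal matrices at `b'`
      obtain ⟨D, hD⟩ : ∃ D : K → Matrix l l K, ∀ a, D a =
          Matrix.diagonal (Function.update 1 b' a) := ⟨_, fun _ => rfl⟩
      have hDdet : ∀ a, (D a).det = a := by
        intro a
        rw [hD, det_diagonal, Finset.prod_update_of_mem (Finset.mem_univ _)]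
        simp
      have hDb : ∀ a, D a *ᵥ Pi.single b 1 = Pi.single b 1 := by
        intro a
        rw [hD]
        funext i
        rw [mulVec_diagonal]
        by_cases hi : i = b
        · subst hi
          rw [Function.update_of_ne hbb, Pi.one_apply, one_mul]
        · rw [Pi.single_eq_of_ne hi, mul_zero]
      refine ⟨⟨M₀ * D (M₀.det)⁻¹, by rw [det_mul, hDdet, mul_inv_cancel₀ hM₀]⟩,
        fun M hM hT => ?_⟩
      have hu : IsUnit M.det := isUnit_iff_ne_zero.2 hM
      obtain ⟨ε, hε⟩ : ∃ ε, ε = M₀.det * (M.det)⁻¹ := ⟨_, rfl⟩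
      have hε0 : ε ≠ 0 := by rw [hε]; exact mul_ne_zero hM₀ (inv_ne_zero hM)
      -- `ε` is an integer
      have key : ∀ {M M' : Matrix l l K}, M.det ≠ 0 → M'.det ≠ 0 → TC M c → TC M' c →
          ∃ B : Matrix l l R, B.map (algebraMap R K) = M' * M⁻¹ := by
        intro M M' hM hM' hT hT'
        refine exists_int fun X hX => ?_
        have hu : IsUnit M.det := isUnit_iff_ne_zero.2 hM
        rw [← mulVec_mulVec]
        refine (hT' _).2 ((hT _).1 ?_)
        rw [mulVec_mulVec, mul_nonsing_inv _ hu, one_mulVec]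
        exact hX
      obtain ⟨B₁, hB₁⟩ := key hM hM₀ hT hT₀
      have hεR : algebraMap R K B₁.det = ε := by
        have h1 : (algebraMap R K) B₁.det = (B₁.map (algebraMap R K)).det :=
          RingHom.map_det _ _
        rw [h1, hB₁, det_mul, det_nonsing_inv, Ring.inverse_eq_inv', hε]
      obtain ⟨B, hB⟩ : ∃ B : Matrix l l R, B.map (algebraMap R K) = M * D ε * M₀⁻¹ := by
        refine exists_int fun X hX => ?_
        rw [← mulVec_mulVec, ← mulVec_mulVec]
        refine (hT _).2 fun i => ?_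
        have h2 : ∀ i, (M₀⁻¹ *ᵥ X) i ∈ ((c i).out : FractionalIdeal R⁰ K) := by
          refine (hT₀ _).1 ?_
          rw [mulVec_mulVec, mul_nonsing_inv _ hu₀, one_mulVec]
          exact hX
        rw [hD, mulVec_diagonal]
        by_cases hi : i = b'
        · subst hi
          rw [Function.update_self, ← hεR, ← Algebra.smul_def]
          exact Submodule.smul_mem _ _ (h2 i)
        · rw [Function.update_of_ne hi, Pi.one_apply, one_mul]
          exact h2 i
      have hBdet : B.det = 1 := by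
        apply hinj
        have h1 : (algebraMap R K) B.det = (B.map (algebraMap R K)).det :=
          RingHom.map_det _ _
        rw [h1, hB, det_mul, det_mul, hDdet, det_nonsing_inv, Ring.inverse_eq_inv', hε, map_one]
        field_simp
      refine ⟨⟨B, hBdet⟩, ?_⟩
      show _ = ((B.map (algebraMap R K)) * (M₀ * D (M₀.det)⁻¹)) *ᵥ Pi.single b 1
      have h3 : M * D ε * M₀⁻¹ * (M₀ * D (M₀.det)⁻¹) = M * (D ε * D (M₀.det)⁻¹) := by
        rw [Matrix.mul_assoc, ← Matrix.mul_assoc M₀⁻¹, nonsing_inv_mul _ hu₀, Matrix.one_mul,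
          Matrix.mul_assoc]
      rw [hB, h3, ← mulVec_mulVec, ← mulVec_mulVec, hDb, hDb]
    · refine ⟨1, fun M hM hT => (hc ⟨M, hM, hT⟩).elim⟩
  choose h hh using hR
  refine ⟨l → QQ R K, inferInstance, h, fun u hu => ?_⟩
  obtain ⟨M, t, c, ht, hM, hMu, hT⟩ := norm_form hP hu
  obtain ⟨γ, hγ⟩ := hh c M hM hT
  refine ⟨c, t⁻¹, inv_ne_zero ht, γ, ?_⟩
  rw [← hγ, hMu, smul_smul, inv_mul_cancel₀ ht, one_smul]

end orb

end Vale.Agent.P092.H677.OK
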