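import Vale.Agent.P092.H677.OKd
import Vale.Agent.P092.H677.OKf

/-!
P092 (helper677), [OK-LAT], part 7: congruences, units congruent to one, denominators.
-/

set_option linter.all false

open Matrix MeasureTheory MeasureTheory.Measure Set Filter Topology NumberField
open NumberField.InfinitePlace NumberField.mixedEmbedding Module
open scoped ENNReal nonZeroDivisors

namespace Vale.Agent.P092.H677.OK

/-! ### Index types -/

/-- `n + 1` elements -/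
def T : ℕ → Type
  | 0 => Unit
  | n + 1 => Unit ⊕ T n

instance instFT : ∀ n, Fintype (T n)
  | 0 => inferInstanceAs (Fintype Unit)
  | n + 1 => by
    haveI := instFT n
    exact inferInstanceAs (Fintype (Unit ⊕ T n))

instance instDT : ∀ n, DecidableEq (T n)
  | 0 => inferInstanceAs (DecidableEq Unit)
  | n + 1 => by
    haveI := instDT n
    exact inferInstanceAs (DecidableEq (Unit ⊕ T n))

/-- the first element -/
def b0 : ∀ n, T n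
  | 0 => ()
  | n + 1 => (Sum.inl () : Unit ⊕ T n)

theorem pe_T (R K : Type) [CommRing R] [IsDedekindDomain R] [Field K] [Algebra R K]
    [IsFractionRing R K] : ∀ n, PE R K (T n) (b0 n)
  | 0 => pe_unit
  | n + 1 => pe_step (pe_T R K n)

theorem card_T : ∀ n, Fintype.card (T n) = n + 1
  | 0 => by
    show Fintype.card Unit = 1
    simp
  | n + 1 => by
    show Fintype.card (Unit ⊕ T n) = n + 1 + 1
    rw [Fintype.card_sum, card_T n]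
    simp [add_comm]

section arith

variable (K : Type) [Field K] [NumberField K]

instance finite_QQ : Finite (QQ (𝓞 K) K) :=
  Finite.of_equiv _ (ClassGroup.equiv (R := 𝓞 K) K).toEquiv

/-- congruent to one modulo `N` -/
def Cg {l : Type} [DecidableEq l] [Fintype l] (N : ℕ) (γ : SpecialLinearGroup l (𝓞 K)) : Prop :=
  ∃ E : Matrix l l (𝓞 K), γ.1 = 1 + (N : 𝓞 K) • E

theorem finite_quot {N : ℕ} (hN : N ≠ 0) :
    Finite (𝓞 K ⧸ Ideal.span {((N : ℕ) : 𝓞 K)}) := by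
  refine Ideal.finiteQuotientOfFreeOfNeBot _ ?_
  rw [Ne, Ideal.span_singleton_eq_bot]
  exact_mod_cast hN

/-- **units congruent to one** -/
theorem exists_unit_cg {N : ℕ} (hN : N ≠ 0) : ∃ c : ℝ, 0 < c ∧ ∀ a : 𝓞 K, a ≠ 0 →
    ∃ u : (𝓞 K)ˣ, (∃ e, (u : 𝓞 K) = 1 + N * e) ∧ (∃ e, ((u⁻¹ : (𝓞 K)ˣ) : 𝓞 K) = 1 + N * e) ∧
      ∀ j, c ≤ ‖cmp K j (io K (u * a))‖ := by
  classical
  have hfin := finite_quot K hN
  obtain ⟨ρ, hρ⟩ : ∃ ρ : 𝓞 K →+* 𝓞 K ⧸ Ideal.span {((N : ℕ) : 𝓞 K)},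
      ρ = Ideal.Quotient.mk _ := ⟨_, rfl⟩
  have hρ1 : ∀ x : 𝓞 K, ρ x = 1 → ∃ e, x = 1 + N * e := by
    intro x hx
    have h1 : ρ x = ρ 1 := by rw [hx, map_one]
    rw [hρ, Ideal.Quotient.mk_eq_mk_iff_sub_mem, Ideal.mem_span_singleton] at h1
    obtain ⟨e, he⟩ := h1
    exact ⟨e, by linear_combination he⟩
  obtain ⟨w, hw⟩ : ∃ w : (𝓞 K ⧸ Ideal.span {((N : ℕ) : 𝓞 K)}) → (𝓞 K)ˣ,
      ∀ u : (𝓞 K)ˣ, ρ (w (ρ u)) = ρ u := by
    have h1 : ∀ r, ∃ w : (𝓞 K)ˣ, ∀ u : (𝓞 K)ˣ, ρ u = r → ρ w = r := by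
      intro r
      by_cases h : ∃ u : (𝓞 K)ˣ, ρ u = r
      · obtain ⟨u, hu⟩ := h
        exact ⟨u, fun _ _ => hu⟩
      · exact ⟨1, fun u hu => (h ⟨u, hu⟩).elim⟩
    choose w hw using h1
    exact ⟨w, fun u => hw _ u rfl⟩
  obtain ⟨s, hs0, hs⟩ : ∃ s : ℝ, 0 < s ∧ ∀ r j, s ≤ ‖cmp K j (io K ((w r)⁻¹ : (𝓞 K)ˣ))‖ := by
    have hne : ∀ r j, 0 < ‖cmp K j (io K ((w r)⁻¹ : (𝓞 K)ˣ))‖ := by
      intro r j
      rw [norm_pos_iff]
      have h1 : IsUnit (cmp K j (io K ((w r)⁻¹ : (𝓞 K)ˣ))) :=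
        (((w r)⁻¹).isUnit.map (io K)).map (cmp K j)
      exact h1.ne_zero
    rcases isEmpty_or_nonempty ((𝓞 K ⧸ Ideal.span {((N : ℕ) : 𝓞 K)}) × JJ K) with he | he
    · exact ⟨1, one_pos, fun r j => (he.false (r, j)).elim⟩
    · obtain ⟨p, hp⟩ := Finite.exists_min
        (fun p : (𝓞 K ⧸ Ideal.span {((N : ℕ) : 𝓞 K)}) × JJ K =>
          ‖cmp K p.2 (io K ((w p.1)⁻¹ : (𝓞 K)ˣ))‖)
      exact ⟨_, hne p.1 p.2, fun r j => hp (r, j)⟩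
  obtain ⟨c, hc, h⟩ := exists_unit K
  refine ⟨c * s, mul_pos hc hs0, fun a ha => ?_⟩
  obtain ⟨u₀, hu₀⟩ := h a ha
  have h5 : ρ (u₀ * (w (ρ u₀))⁻¹ : (𝓞 K)ˣ) = 1 := by
    have h6 := hw u₀
    have h7 : ρ (u₀ * (w (ρ u₀))⁻¹ : (𝓞 K)ˣ) = ρ u₀ * ρ ((w (ρ u₀))⁻¹ : (𝓞 K)ˣ) := by
      rw [← map_mul, Units.val_mul]
    have h8 : ρ (w (ρ u₀)) * ρ ((w (ρ u₀))⁻¹ : (𝓞 K)ˣ) = 1 := by
      rw [← map_mul, Units.mul_inv, map_one]
    rw [h7]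
    exact (congrArg (· * ρ ((w (ρ u₀))⁻¹ : (𝓞 K)ˣ)) h6.symm).trans h8
  have h5' : ρ ((u₀ * (w (ρ u₀))⁻¹)⁻¹ : (𝓞 K)ˣ) = 1 := by
    have h7 : ρ ((u₀ * (w (ρ u₀))⁻¹ : (𝓞 K)ˣ) * ((u₀ * (w (ρ u₀))⁻¹)⁻¹ : (𝓞 K)ˣ)) = 1 := by
      rw [Units.mul_inv, map_one]
    rw [map_mul, h5, one_mul] at h7
    exact h7
  refine ⟨u₀ * (w (ρ u₀))⁻¹, hρ1 _ h5, hρ1 _ h5', fun j => ?_⟩
  have h8 : io K ((u₀ * (w (ρ u₀))⁻¹ : (𝓞 K)ˣ) * a) =
      io K (u₀ * a) * io K ((w (ρ u₀))⁻¹ : (𝓞 K)ˣ) := by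
    rw [← map_mul, Units.val_mul]
    congr 1
    ring
  rw [h8, map_mul, norm_mul]
  exact mul_le_mul (hu₀ j) (hs _ j) hs0.le (norm_nonneg _)

/-- common denominators -/
theorem exists_den {ι : Type} [Finite ι] (x : ι → K) : ∃ D : ℕ, D ≠ 0 ∧
    ∀ i, ∃ a : 𝓞 K, (a : K) = D * x i := by
  classical
  haveI := Fintype.ofFinite ι
  obtain ⟨b, hb⟩ := IsLocalization.exist_integer_multiples (𝓞 K)⁰ (Finset.univ : Finset ι) x
  have hb0 : (b : 𝓞 K) ≠ 0 := nonZeroDivisors.ne_zero b.2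
  have h1 := Ideal.absNorm_mem (Ideal.span {(b : 𝓞 K)})
  rw [Ideal.mem_span_singleton] at h1
  obtain ⟨e, he⟩ := h1
  refine ⟨Ideal.absNorm (Ideal.span {(b : 𝓞 K)}), ?_, fun i => ?_⟩
  · rw [Ne, Ideal.absNorm_eq_zero_iff, Ideal.span_singleton_eq_bot]
    exact hb0
  · obtain ⟨a, ha⟩ := hb i (Finset.mem_univ i)
    refine ⟨e * a, ?_⟩
    have h2 : ((Ideal.absNorm (Ideal.span {(b : 𝓞 K)}) : ℕ) : K) =
        ((b : 𝓞 K) : K) * (e : K) := by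
      have := congrArg (fun z : 𝓞 K => (z : K)) he
      simpa using this
    have h3 : (a : K) = ((b : 𝓞 K) : K) * x i := by
      have : algebraMap (𝓞 K) K a = (b : 𝓞 K) • x i := ha
      rw [Algebra.smul_def] at this
      exact this
    rw [h2]
    have h4 : ((e * a : 𝓞 K) : K) = (e : K) * (a : K) := by simp
    rw [h4, h3]
    ring

end arith

end Vale.Agent.P092.H677.OK
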