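import Vale.Agent.P092.H677.OKg

/-!
P092 (helper677), [OK-LAT], part 8: the covering step.
-/

set_option linter.all false

open Matrix MeasureTheory MeasureTheory.Measure Set Filter Topology NumberField
open NumberField.InfinitePlace NumberField.mixedEmbedding Module
open scoped ENNReal nonZeroDivisors

namespace Vale.Agent.P092.H677.OK

section conj

variable (K : Type) [Field K] [NumberField K] {l : Type} [Fintype l] [DecidableEq l]

/-- from `𝓞 K` to `K` -/
noncomputable abbrev mK (l : Type) [Fintype l] [DecidableEq l] :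
    SpecialLinearGroup l (𝓞 K) →* SpecialLinearGroup l K :=
  SpecialLinearGroup.map (algebraMap (𝓞 K) K)

/-- from `K` to the mixed space -/
noncomputable abbrev mM (l : Type) [Fintype l] [DecidableEq l] :
    SpecialLinearGroup l K →* SpecialLinearGroup l (mixedSpace K) :=
  SpecialLinearGroup.map (mixedEmbedding K)

/-- from `𝓞 K` to the mixed space -/
noncomputable abbrev mO (l : Type) [Fintype l] [DecidableEq l] :
    SpecialLinearGroup l (𝓞 K) →* SpecialLinearGroup l (mixedSpace K) :=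
  SpecialLinearGroup.map (io K)

theorem mM_mK (γ : SpecialLinearGroup l (𝓞 K)) : mM K l (mK K l γ) = mO K l γ := rfl

theorem conj_int {h : SpecialLinearGroup l K} {D : ℕ} {H H' : Matrix l l (𝓞 K)}
    (h1 : H.map (algebraMap (𝓞 K) K) = (D : K) • h.1)
    (h2 : H'.map (algebraMap (𝓞 K) K) = (D : K) • (h⁻¹).1)
    {δ : SpecialLinearGroup l (𝓞 K)} (hδ : Cg K (D * D) δ) :
    ∃ γ : SpecialLinearGroup l (𝓞 K), mK K l γ = h * mK K l δ * h⁻¹ := by
  obtain ⟨E, hE⟩ := hδ
  have h3 : h.1 * (h⁻¹).1 = 1 := by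
    have := congrArg Subtype.val (mul_inv_cancel h)
    exact this
  have h4 : (1 + H * E * H').map (algebraMap (𝓞 K) K) = h.1 * (mK K l δ).1 * (h⁻¹).1 := by
    have h5 : (mK K l δ).1 = 1 + (((D * D : ℕ) : 𝓞 K) • E).map (algebraMap (𝓞 K) K) := by
      show δ.1.map (algebraMap (𝓞 K) K) = _
      rw [hE, Matrix.map_add _ (map_add _), Matrix.map_one _ (map_zero _) (map_one _)]
    have h6 : (((D * D : ℕ) : 𝓞 K) • E).map (algebraMap (𝓞 K) K) =
        ((D : K) * D) • E.map (algebraMap (𝓞 K) K) := by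
      ext i j
      simp
    rw [h5, h6, Matrix.map_add _ (map_add _), Matrix.map_one _ (map_zero _) (map_one _),
      Matrix.map_mul, Matrix.map_mul, h1, h2]
    simp only [Matrix.mul_add, Matrix.add_mul, Matrix.mul_one, Matrix.smul_mul, Matrix.mul_smul,
      smul_smul, h3]
  have h7 : (1 + H * E * H').det = 1 := by
    apply (RingOfIntegers.coe_injective : Function.Injective (algebraMap (𝓞 K) K))
    have h8 : (algebraMap (𝓞 K) K) (1 + H * E * H').det =
        ((1 + H * E * H').map (algebraMap (𝓞 K) K)).det := RingHom.map_det _ _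
    rw [h8, h4, map_one]
    exact (h * mK K l δ * h⁻¹).2
  exact ⟨⟨_, h7⟩, Subtype.ext h4⟩

/-- diagonal matrices -/
noncomputable def dg (ε : (𝓞 K)ˣ) (i₀ : l) : SpecialLinearGroup (Unit ⊕ l) (𝓞 K) :=
  ⟨Matrix.diagonal (Sum.elim (fun _ => (ε : 𝓞 K))
    (Function.update 1 i₀ ((ε⁻¹ : (𝓞 K)ˣ) : 𝓞 K))), by
    rw [det_diagonal, Fintype.prod_sum_type]
    simp only [Sum.elim_inl, Sum.elim_inr, Finset.univ_unique, Finset.prod_singleton]
    rw [Finset.prod_update_of_mem (Finset.mem_univ _)]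
    simp⟩

theorem dg_e0 (ε : (𝓞 K)ˣ) (i₀ : l) :
    (dg K ε i₀).1 *ᵥ e0 = (ε : 𝓞 K) • (e0 : Unit ⊕ l → 𝓞 K) := by
  show Matrix.diagonal _ *ᵥ e0 = _
  funext i
  rw [mulVec_diagonal, Pi.smul_apply, smul_eq_mul]
  rcases i with i | i
  · rfl
  · simp

theorem dg_cg {N : ℕ} {ε : (𝓞 K)ˣ} (i₀ : l) (h1 : ∃ e, (ε : 𝓞 K) = 1 + N * e)
    (h2 : ∃ e, ((ε⁻¹ : (𝓞 K)ˣ) : 𝓞 K) = 1 + N * e) : Cg K N (dg K ε i₀) := by
  obtain ⟨e, he⟩ := h1
  obtain ⟨e', he'⟩ := h2
  refine ⟨Matrix.diagonal (Sum.elim (fun _ => e) (Function.update 0 i₀ e')), ?_⟩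
  show Matrix.diagonal _ = _
  ext1 i j
  rw [Matrix.add_apply, Matrix.smul_apply, smul_eq_mul]
  by_cases hij : i = j
  · subst hij
    rw [diagonal_apply_eq, diagonal_apply_eq, one_apply_eq]
    rcases i with i | i
    · simp [he]
    · by_cases hi : i = i₀
      · subst hi; simp [he']
      · simp [hi]
  · rw [diagonal_apply_ne _ hij, diagonal_apply_ne _ hij, one_apply_ne hij, mul_zero, add_zero]

theorem psi_cg {N : ℕ} {δ : SpecialLinearGroup l (𝓞 K)} (hδ : Cg K N δ) (a : l → 𝓞 K) :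
    Cg K N (psi δ fun k => N * a k) := by
  obtain ⟨E, hE⟩ := hδ
  refine ⟨fromBlocks 0 (replicateRow Unit a) 0 E, ?_⟩
  rw [psi_coe, hE]
  ext1 i j
  rw [Matrix.add_apply, Matrix.smul_apply, smul_eq_mul]
  rcases i with i | i <;> rcases j with j | j
  · simp
  · simp
  · simp
  · simp [Matrix.one_apply]

end conj

section fm

variable (K : Type) [Field K] [NumberField K] {l : Type} [Fintype l] [DecidableEq l]

/-- finite Haar measure -/
def FM (F : Set (SpecialLinearGroup l (mixedSpace K))) : Prop :=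
  ∀ (_ : MeasurableSpace (SpecialLinearGroup l (mixedSpace K)))
    (_ : BorelSpace (SpecialLinearGroup l (mixedSpace K)))
    (μ : Measure (SpecialLinearGroup l (mixedSpace K))), IsHaarMeasure μ → μ F < ∞

/-- the statement of the induction -/
def PF (l : Type) [Fintype l] [DecidableEq l] : Prop :=
  ∀ N : ℕ, N ≠ 0 → ∃ F : Set (SpecialLinearGroup l (mixedSpace K)), FM K F ∧
    ∀ S, ∃ δ : SpecialLinearGroup l (𝓞 K), Cg K N δ ∧ S * mO K l δ ∈ F

attribute [local instance] sl_t2 sl_lc sl_sc sl_pol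

theorem rightInv [MeasurableSpace (SpecialLinearGroup l (mixedSpace K))]
    [BorelSpace (SpecialLinearGroup l (mixedSpace K))]
    (μ : Measure (SpecialLinearGroup l (mixedSpace K))) [IsHaarMeasure μ] :
    IsMulRightInvariant μ :=
  H515.rightInv_of_modChar μ fun g => H515.modChar_of_perfect (fun f => hom_triv K l f) g

theorem FM.iUnion {ι : Type} [Finite ι] {F : ι → Set (SpecialLinearGroup l (mixedSpace K))}
    (h : ∀ i, FM K (F i)) : FM K (⋃ i, F i) := by
  intro ms bs μ hμ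
  haveI := Fintype.ofFinite ι
  refine (measure_iUnion_le _).trans_lt ?_
  rw [tsum_fintype]
  exact ENNReal.sum_lt_top.2 fun i _ => h i ms bs μ hμ

theorem FM.trans {F : Set (SpecialLinearGroup l (mixedSpace K))} (h : FM K F)
    (c : SpecialLinearGroup l (mixedSpace K)) : FM K {x | x * c ∈ F} := by
  intro ms bs μ hμ
  haveI := rightInv K μ
  have h1 : μ {x | x * c ∈ F} = μ F := measure_preimage_mul_right μ c F
  rw [h1]
  exact h ms bs μ hμ

/-- bounded sets of vectors -/
theorem exists_cpt (m : Type) [Fintype m] (R : ℝ) : ∃ X : Set (m → mixedSpace K), IsCompact X ∧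
    ∀ x : m → mixedSpace K, (∀ i j, ‖cmp K j (x i)‖ ≤ R) → x ∈ X := by
  refine ⟨Set.pi univ fun _ => glu K '' (Set.pi univ fun j => Metric.closedBall 0 R),
    isCompact_univ_pi fun _ => (isCompact_univ_pi fun j => isCompact_closedBall _ _).image
      (glu_cont K), fun x hx => ?_⟩
  intro i _
  refine ⟨fun j => cmp K j (x i), fun j _ => ?_, ?_⟩
  · rw [mem_closedBall_zero_iff]
    exact hx i j
  · exact cmp_ext K fun j => cmp_glu K _ j

theorem exists_bound {m : Type} [Fintype m] {X : Set (m → mixedSpace K)} (hX : IsCompact X) :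
    ∃ R : ℝ, 0 ≤ R ∧ ∀ x ∈ X, ∀ i j, ‖cmp K j (x i)‖ ≤ R := by
  classical
  haveI : Fintype (JJ K) := Fintype.ofFinite _
  have hc : Continuous fun x : m → mixedSpace K => ∑ i, ∑ j, ‖cmp K j (x i)‖ :=
    continuous_finset_sum _ fun i _ => continuous_finset_sum _ fun j _ =>
      ((cmp_cont K j).comp (continuous_apply i)).norm
  obtain ⟨R, hR⟩ := hX.bddAbove_image hc.continuousOn
  refine ⟨max R 0, le_max_right _ _, fun x hx i j => ?_⟩
  have h1 : ∑ i, ∑ j, ‖cmp K j (x i)‖ ≤ R := hR ⟨x, hx, rfl⟩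
  have h2 : ‖cmp K j (x i)‖ ≤ ∑ j, ‖cmp K j (x i)‖ :=
    Finset.single_le_sum (f := fun j => ‖cmp K j (x i)‖) (fun _ _ => norm_nonneg _)
      (Finset.mem_univ j)
  have h3 : ∑ j, ‖cmp K j (x i)‖ ≤ ∑ i, ∑ j, ‖cmp K j (x i)‖ :=
    Finset.single_le_sum (f := fun i => ∑ j, ‖cmp K j (x i)‖)
      (fun _ _ => Finset.sum_nonneg fun _ _ => norm_nonneg _) (Finset.mem_univ i)
  exact (h2.trans (h3.trans h1)).trans (le_max_left _ _)

end fm

end Vale.Agent.P092.H677.OK
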