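import Vale.Agent.P092.H677.OKh

/-!
P092 (helper677), [OK-LAT], part 9: the induction; `SL_m(𝓞 K)` is a lattice of `SL_m(K ⊗ ℝ)`.
-/

set_option linter.all false

open Matrix MeasureTheory MeasureTheory.Measure Set Filter Topology NumberField
open NumberField.InfinitePlace NumberField.mixedEmbedding Module
open scoped ENNReal nonZeroDivisors

namespace Vale.Agent.P092.H677.OK

section cover

variable (K : Type) [Field K] [NumberField K] {l : Type} [Fintype l] [DecidableEq l]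

attribute [local instance] sl_t2 sl_lc sl_sc sl_pol

/-- the box -/
def box (X : Set (Unit ⊕ l → mixedSpace K)) (F : Set (SpecialLinearGroup l (mixedSpace K)))
    (B : Set (mixedSpace K)) : Set ((Unit ⊕ l → mixedSpace K) × HH l (mixedSpace K)) :=
  X ×ˢ (F ×ˢ (Set.pi univ fun _ => B))

theorem meas_box [MeasurableSpace (SpecialLinearGroup l (mixedSpace K))]
    [BorelSpace (SpecialLinearGroup l (mixedSpace K))] {X : Set (Unit ⊕ l → mixedSpace K)}
    {F : Set (SpecialLinearGroup l (mixedSpace K))} {B : Set (mixedSpace K)} (hX : IsCompact X)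
    (hF : MeasurableSet F) (hB : IsCompact B) : MeasurableSet (box K X F B) :=
  hX.isClosed.measurableSet.prod (hF.prod
    (isClosed_set_pi fun _ _ => hB.isClosed).measurableSet)

theorem box_lt [MeasurableSpace (SpecialLinearGroup l (mixedSpace K))]
    [BorelSpace (SpecialLinearGroup l (mixedSpace K))]
    (μ : Measure (SpecialLinearGroup l (mixedSpace K))) [IsHaarMeasure μ]
    {X : Set (Unit ⊕ l → mixedSpace K)}
    {F : Set (SpecialLinearGroup l (mixedSpace K))} {B : Set (mixedSpace K)} (hX : IsCompact X)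
    (hF : μ F < ∞) (hB : IsCompact B) : MM μ (vK K) (box K X F B) < ∞ := by
  haveI h1 : IsAddHaarMeasure (Measure.pi fun _ : Unit ⊕ l => vK K) :=
    Measure.pi.isAddHaarMeasure _
  haveI h2 : IsAddHaarMeasure (Measure.pi fun _ : l => vK K) := Measure.pi.isAddHaarMeasure _
  rw [box, MM, Measure.prod_prod, mH, Measure.prod_prod]
  exact ENNReal.mul_lt_top hX.measure_lt_top (ENNReal.mul_lt_top hF
    (isCompact_univ_pi fun _ => hB).measure_lt_top)

theorem step_cover (i₀ : l) (hP : PE (𝓞 K) K (Unit ⊕ l) (Sum.inl ())) (hPF : PF K l) :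
    ∃ F : Set (SpecialLinearGroup (Unit ⊕ l) (mixedSpace K)), FM K F ∧
      ∀ g, ∃ γ : SpecialLinearGroup (Unit ⊕ l) (𝓞 K), g * mO K (Unit ⊕ l) γ ∈ F := by
  classical
  obtain ⟨ι, hι, h, hh⟩ := exists_orbits (b := (Sum.inl () : Unit ⊕ l)) (b' := Sum.inr i₀)
    (by simp) hP
  -- denominators
  obtain ⟨D, hD0, hD⟩ := exists_den K (fun p : (ι × (Unit ⊕ l) × (Unit ⊕ l)) ⊕
    (ι × (Unit ⊕ l) × (Unit ⊕ l)) => Sum.elim (fun q => (h q.1).1 q.2.1 q.2.2)
      (fun q => ((h q.1)⁻¹).1 q.2.1 q.2.2) p)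
  have hDK : (D : K) ≠ 0 := by exact_mod_cast hD0
  have hH : ∀ i, ∃ H : Matrix (Unit ⊕ l) (Unit ⊕ l) (𝓞 K),
      H.map (algebraMap (𝓞 K) K) = (D : K) • (h i).1 := by
    intro i
    choose H hH using fun a b => hD (Sum.inl (i, a, b))
    exact ⟨Matrix.of H, by ext a b; exact hH a b⟩
  have hH' : ∀ i, ∃ H : Matrix (Unit ⊕ l) (Unit ⊕ l) (𝓞 K),
      H.map (algebraMap (𝓞 K) K) = (D : K) • ((h i)⁻¹).1 := by
    intro i
    choose H hH using fun a b => hD (Sum.inr (i, a, b))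
    exact ⟨Matrix.of H, by ext a b; exact hH a b⟩
  choose H hH using hH
  choose H' hH' using hH'
  have hN : D * D ≠ 0 := mul_ne_zero hD0 hD0
  obtain ⟨c, hc, hunit⟩ := exists_unit_cg K hN
  obtain ⟨V, hV, hmink⟩ := minkowski K (Unit ⊕ l)
  obtain ⟨R, hR0, hR⟩ := exists_bound K hV
  obtain ⟨X, hX, hXm⟩ := exists_cpt K (Unit ⊕ l) (R * (D * c⁻¹))
  obtain ⟨B, hB, hBm⟩ := exists_bdd K (D * D) hN
  obtain ⟨F, hF, hFm⟩ := hPF (D * D) hN
  borelize (SpecialLinearGroup l (mixedSpace K))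
  obtain ⟨μ, hμ⟩ : ∃ μ : Measure (SpecialLinearGroup l (mixedSpace K)), μ = haar := ⟨_, rfl⟩
  haveI hμH : IsHaarMeasure μ := by rw [hμ]; infer_instance
  have hFμ : μ (toMeasurable μ F) < ∞ := by
    rw [measure_toMeasurable]
    exact hF _ ⟨rfl⟩ μ hμH
  obtain ⟨W, hW⟩ : ∃ W : Set (SpecialLinearGroup (Unit ⊕ l) (mixedSpace K)),
      W = Phi i₀ (iv K) '' (box K X (toMeasurable μ F) B ∩ {p | Gd (iv K) (p.1 (Sum.inl ()))}) ∪
        NN l (iv K) := ⟨_, rfl⟩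
  have hWF : FM K W := by
    intro ms bs ν hν
    rw [hW]
    exact haar_image_lt μ i₀ (rh K) ν (meas_box K hX (measurableSet_toMeasurable _ _) hB)
      (box_lt K μ hX hFμ hB)
  refine ⟨⋃ i, {x | x * mM K (Unit ⊕ l) (h i) ∈ W}, FM.iUnion K fun i => hWF.trans K _,
    fun g => ?_⟩
  -- Minkowski
  obtain ⟨v, hv0, hv⟩ := hmink g
  obtain ⟨u, hu⟩ : ∃ u : Unit ⊕ l → K, u = algebraMap (𝓞 K) K ∘ v := ⟨_, rfl⟩
  have hu0 : u ≠ 0 := by
    intro h0
    refine hv0 (funext fun j => ?_)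
    apply (RingOfIntegers.coe_injective : Function.Injective (algebraMap (𝓞 K) K))
    have := congrFun h0 j
    rw [hu] at this
    rw [Pi.zero_apply, map_zero]
    exact this
  obtain ⟨i, t, ht, γ, hut⟩ := hh u hu0
  -- the scalar is almost an integer
  obtain ⟨a, ha⟩ : ∃ a : 𝓞 K, algebraMap (𝓞 K) K a = D * t := by
    refine ⟨(H' i *ᵥ ((γ⁻¹).1 *ᵥ v)) (Sum.inl ()), ?_⟩
    have e1 : algebraMap (𝓞 K) K ((H' i *ᵥ ((γ⁻¹).1 *ᵥ v)) (Sum.inl ())) =
        ((H' i).map (algebraMap (𝓞 K) K) *ᵥ ((mK K _ γ⁻¹).1 *ᵥ u)) (Sum.inl ()) := by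
      rw [RingHom.map_mulVec, hu, map_mulVec']
    rw [e1, hH' i, hut, Matrix.mulVec_smul, mul_mulVec, map_inv, inv_mulVec, Matrix.mulVec_smul,
      Matrix.smul_mulVec, inv_mulVec]
    simp [mul_comm]
  have ha0 : a ≠ 0 := by
    rintro rfl
    rw [map_zero] at ha
    exact (mul_ne_zero hDK ht) ha.symm
  obtain ⟨ε, hε1, hε2, hεc⟩ := hunit a ha0
  obtain ⟨γ₁, hγ₁⟩ := conj_int K (hH i) (hH' i) (dg_cg K (ε := ε⁻¹) i₀ hε2 (by
    rw [inv_inv]; exact hε1))
  obtain ⟨g₂, hg₂⟩ : ∃ g₂, g₂ = g * mO K _ (γ * γ₁) * mM K _ (h i) := ⟨_, rfl⟩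
  obtain ⟨x, hx⟩ : ∃ x, x = g₂.1 *ᵥ e0 := ⟨_, rfl⟩
  -- the first column
  have hcol : ∀ k, mixedEmbedding K (((ε : 𝓞 K) : K) * t) * x k =
      (g.1 *ᵥ (io K ∘ v)) k := by
    have e1 : (mK K _ (γ * γ₁) * h i).1 *ᵥ (Pi.single (Sum.inl ()) 1) =
        (((ε⁻¹ : (𝓞 K)ˣ) : 𝓞 K) : K) • (t⁻¹ • u) := by
      have e2 : mK K _ (γ * γ₁) * h i = mK K _ γ * h i * mK K _ (dg K ε⁻¹ i₀) := by
        rw [map_mul, hγ₁]
        simp only [mul_assoc, inv_mul_cancel, mul_one]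
      have e3 : (Pi.single (Sum.inl ()) 1 : Unit ⊕ l → K) = algebraMap (𝓞 K) K ∘ e0 := by
        rw [map_e0]
        funext k
        rcases k with k | k
        · simp
        · simp
      have e4 : (mK K _ (dg K ε⁻¹ i₀)).1 *ᵥ (algebraMap (𝓞 K) K ∘ e0) =
          (((ε⁻¹ : (𝓞 K)ˣ) : 𝓞 K) : K) • (algebraMap (𝓞 K) K ∘ (e0 : Unit ⊕ l → 𝓞 K)) := by
        rw [map_mulVec', dg_e0]
        funext k
        simp
      rw [e2, mul_mulVec, e3, e4, Matrix.mulVec_smul, ← e3]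
      congr 1
      rw [hut, smul_smul, inv_mul_cancel₀ ht, one_smul]
    have e5 : x = g.1 *ᵥ (mixedEmbedding K ∘ ((((ε⁻¹ : (𝓞 K)ˣ) : 𝓞 K) : K) • (t⁻¹ • u))) := by
      rw [← e1, ← map_mulVec', hx, hg₂, mul_assoc, mul_mulVec]
      have e6 : mixedEmbedding K ∘ (Pi.single (Sum.inl ()) 1 : Unit ⊕ l → K) = e0 := by
        funext k
        rcases k with k | k
        · simp
        · simp
      have e66 : SpecialLinearGroup.map (mixedEmbedding K) (mK K _ (γ * γ₁) * h i) =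
          mO K _ (γ * γ₁) * mM K _ (h i) := by
        rw [map_mul]; rfl
      rw [e6, e66]
    intro k
    have e7 : (mixedEmbedding K (((ε : 𝓞 K) : K) * t)) • x = g.1 *ᵥ (io K ∘ v) := by
      rw [e5, ← Matrix.mulVec_smul]
      congr 1
      funext k
      rw [Pi.smul_apply, smul_eq_mul, Function.comp_apply, ← map_mul, hu]
      show mixedEmbedding K _ = mixedEmbedding K _
      congr 1
      simp only [Pi.smul_apply, smul_eq_mul, Function.comp_apply]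
      have e8 : (((ε : 𝓞 K) : K)) * (((ε⁻¹ : (𝓞 K)ˣ) : 𝓞 K) : K) = 1 := by
        have := congrArg (algebraMap (𝓞 K) K) (Units.mul_inv ε)
        rwa [map_mul, map_one] at this
      have e9 : t * t⁻¹ = 1 := mul_inv_cancel₀ ht
      linear_combination (algebraMap (𝓞 K) K (v k)) * e9 +
        (t * t⁻¹ * algebraMap (𝓞 K) K (v k)) * e8
    exact congrFun e7 k
  have hxX : x ∈ X := by
    refine hXm x fun k j => ?_
    have f1 := congrArg (fun y => ‖cmp K j y‖) (hcol k)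
    simp only [map_mul, norm_mul] at f1
    have f2 := hR _ hv k j
    rw [← f1] at f2
    have f3 : c ≤ D * (‖cmp K j (mixedEmbedding K ((ε : 𝓞 K) : K))‖ *
        ‖cmp K j (mixedEmbedding K t)‖) := by
      refine (hεc j).trans (le_of_eq ?_)
      have f4 : io K (ε * a) = mixedEmbedding K (D * (((ε : 𝓞 K) : K) * t)) := by
        show mixedEmbedding K (algebraMap (𝓞 K) K (ε * a)) = _
        rw [map_mul (algebraMap (𝓞 K) K), ha]
        congr 1
        ring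
      rw [f4, map_mul, map_mul, map_mul, map_mul, norm_mul, norm_mul, map_natCast, map_natCast]
      congr 1
      rcases j with w | w
      · show ‖((D : ℕ) : ℝ)‖ = _
        simp
      · show ‖((D : ℕ) : ℂ)‖ = _
        simp
    have hDpos : (0 : ℝ) < D := by exact_mod_cast Nat.pos_of_ne_zero hD0
    have f5 : c * ‖cmp K j (x k)‖ ≤ D * R := by
      have f6 : c * ‖cmp K j (x k)‖ ≤ D * (‖cmp K j (mixedEmbedding K ((ε : 𝓞 K) : K))‖ *
        ‖cmp K j (mixedEmbedding K t)‖) * ‖cmp K j (x k)‖ :=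
        mul_le_mul_of_nonneg_right f3 (norm_nonneg _)
      refine f6.trans ?_
      rw [mul_assoc]
      exact mul_le_mul_of_nonneg_left f2 hDpos.le
    rw [← mul_assoc, ← div_eq_mul_inv, le_div_iff₀ hc]
    linarith
  borelize (SpecialLinearGroup (Unit ⊕ l) (mixedSpace K))
  by_cases hgd : Gd (iv K) (x (Sum.inl ()))
  · rw [hx] at hgd
    obtain ⟨⟨S, b⟩, hSb⟩ := Phi_surj i₀ (iv K) hgd
    obtain ⟨δ, hδ, hδF⟩ := hFm S
    choose q hq using fun k => hBm ((b ᵥ* (mO K l δ).1) k)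
    obtain ⟨γ₂, hγ₂⟩ := conj_int K (hH i) (hH' i) (psi_cg K hδ q)
    refine ⟨γ * γ₁ * γ₂, mem_iUnion.2 ⟨i, ?_⟩⟩
    show g * mO K _ (γ * γ₁ * γ₂) * mM K _ (h i) ∈ W
    rw [hW]
    refine Or.inl ⟨(g₂.1 *ᵥ e0, (S * mO K l δ, fun k => io K (((D * D : ℕ) : 𝓞 K) * q k) +
      (b ᵥ* (mO K l δ).1) k)), ⟨⟨by rw [← hx]; exact hxX, subset_toMeasurable _ _ hδF, ?_⟩, hgd⟩,
      ?_⟩
    · intro k _
      show io K (((D * D : ℕ) : 𝓞 K) * q k) + (b ᵥ* (mO K l δ).1) k ∈ B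
      rw [add_comm]
      exact hq k
    · have e1 : mO K _ γ₂ = mM K _ (h i) * mO K _ (psi δ fun k => ((D * D : ℕ) : 𝓞 K) * q k) *
          (mM K _ (h i))⁻¹ := by
        rw [← mM_mK, hγ₂, map_mul, map_mul, map_inv]
        rfl
      have e2 : g * mO K _ (γ * γ₁ * γ₂) * mM K _ (h i) =
          g₂ * mO K _ (psi δ fun k => ((D * D : ℕ) : 𝓞 K) * q k) := by
        rw [hg₂, map_mul (mO K _) (γ * γ₁) γ₂, e1]
        simp only [mul_assoc, inv_mul_cancel, mul_one]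
      rw [e2]
      have e3 : mO K _ (psi δ fun k => ((D * D : ℕ) : 𝓞 K) * q k) =
          psi (mO K l δ) (fun k => io K (((D * D : ℕ) : 𝓞 K) * q k)) := map_psi _ _ _
      rw [e3]
      have e4 : psi S b * psi (mO K l δ) (fun k => io K (((D * D : ℕ) : 𝓞 K) * q k)) =
          psi (S * mO K l δ) ((fun k => io K (((D * D : ℕ) : 𝓞 K) * q k)) +
            b ᵥ* (mO K l δ).1) := psi_mul _ _ _ _
      have e5 : sec i₀ (iv K ((g₂.1 *ᵥ e0) (Sum.inl ()))) (g₂.1 *ᵥ e0) * psi S b = g₂ := hSb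
      have e6 := congrArg (fun z => sec i₀ (iv K ((g₂.1 *ᵥ e0) (Sum.inl ()))) (g₂.1 *ᵥ e0) * z)
        e4.symm
      have e7 := congrArg (fun z => z * psi (mO K l δ)
        (fun k => io K (((D * D : ℕ) : 𝓞 K) * q k))) e5
      exact e6.trans ((mul_assoc _ _ _).symm.trans e7)
  · refine ⟨γ * γ₁, mem_iUnion.2 ⟨i, ?_⟩⟩
    show g * mO K _ (γ * γ₁) * mM K _ (h i) ∈ W
    rw [← hg₂, hW]
    refine Or.inr ?_
    show ¬ Gd (iv K) ((g₂.1 *ᵥ e0) (Sum.inl ()))
    rw [← hx]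
    exact hgd

end cover

end Vale.Agent.P092.H677.OK
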