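import Vale.Agent.P092.H677.OKi

/-!
P092 (helper677), [OK-LAT], part 10: the induction; **`SL_m(𝓞 K)` is a lattice of `SL_m` of the
mixed space** `K ⊗ ℝ`, for every number field `K`.
-/

set_option linter.all false

open Matrix MeasureTheory MeasureTheory.Measure Set Filter Topology NumberField
open NumberField.InfinitePlace NumberField.mixedEmbedding Module
open scoped ENNReal nonZeroDivisors

namespace Vale.Agent.P092.H677.OK

variable (K : Type) [Field K] [NumberField K]

section pf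

variable {l : Type} [Fintype l] [DecidableEq l]

attribute [local instance] sl_t2 sl_lc sl_sc sl_pol

/-- passage to congruence subgroups -/
theorem pf_of_cover (h : ∃ F : Set (SpecialLinearGroup l (mixedSpace K)), FM K F ∧
    ∀ g, ∃ γ : SpecialLinearGroup l (𝓞 K), g * mO K l γ ∈ F) : PF K l := by
  classical
  intro N hN
  obtain ⟨F, hF, hcov⟩ := h
  have hfin := finite_quot K hN
  have hfin2 : Finite (Matrix l l (𝓞 K ⧸ Ideal.span {((N : ℕ) : 𝓞 K)})) := Pi.finite
  have hfin3 : Finite (SpecialLinearGroup l (𝓞 K ⧸ Ideal.span {((N : ℕ) : 𝓞 K)})) :=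
    Subtype.finite
  obtain ⟨ρ, hρ⟩ : ∃ ρ : SpecialLinearGroup l (𝓞 K) →*
      SpecialLinearGroup l (𝓞 K ⧸ Ideal.span {((N : ℕ) : 𝓞 K)}),
      ρ = SpecialLinearGroup.map (Ideal.Quotient.mk _) := ⟨_, rfl⟩
  have hρ1 : ∀ x, ρ x = 1 → Cg K N x := by
    intro x hx
    have h1 : ∀ i j, ∃ e, x.1 i j = (1 : Matrix l l (𝓞 K)) i j + N * e := by
      intro i j
      have h2 : Ideal.Quotient.mk (Ideal.span {((N : ℕ) : 𝓞 K)}) (x.1 i j) =
          Ideal.Quotient.mk _ ((1 : Matrix l l (𝓞 K)) i j) := by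
        rw [← map_one (SpecialLinearGroup.map
          (Ideal.Quotient.mk (Ideal.span {((N : ℕ) : 𝓞 K)}))), hρ] at hx
        exact congrArg (fun y => y.1 i j) hx
      rw [Ideal.Quotient.mk_eq_mk_iff_sub_mem, Ideal.mem_span_singleton] at h2
      obtain ⟨e, he⟩ := h2
      exact ⟨e, by linear_combination he⟩
    choose E hE using h1
    exact ⟨Matrix.of E, by ext1 i j; simp [hE]⟩
  have h1 : ∀ r, ∃ w : SpecialLinearGroup l (𝓞 K), ∀ u, ρ u = r → ρ w = r := by
    intro r
    by_cases h : ∃ u, ρ u = r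
    · obtain ⟨u, hu⟩ := h
      exact ⟨u, fun _ _ => hu⟩
    · exact ⟨1, fun u hu => (h ⟨u, hu⟩).elim⟩
  choose w hw using h1
  refine ⟨⋃ r, {x | x * mO K l (w r) ∈ F}, FM.iUnion K fun r => hF.trans K _, fun S => ?_⟩
  obtain ⟨γ, hγ⟩ := hcov S
  refine ⟨γ * (w (ρ γ))⁻¹, hρ1 _ ?_, mem_iUnion.2 ⟨ρ γ, ?_⟩⟩
  · rw [map_mul, map_inv, hw _ γ rfl, mul_inv_cancel]
  · show S * mO K l (γ * (w (ρ γ))⁻¹) * mO K l (w (ρ γ)) ∈ F
    rw [mul_assoc, ← map_mul, inv_mul_cancel_right]
    exact hγ

theorem pf_unit : PF K Unit := by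
  intro N hN
  refine ⟨univ, ?_, fun S => ⟨1, ⟨0, by simp⟩, mem_univ _⟩⟩
  intro ms bs μ hμ
  exact (Set.subsingleton_univ.isCompact).measure_lt_top

theorem pf_T : ∀ n, PF K (T n)
  | 0 => pf_unit K
  | n + 1 => pf_of_cover K (step_cover K (b0 n) (pe_T (𝓞 K) K (n + 1)) (pf_T n))

end pf

section lattice

variable (m : Type) [Fintype m] [DecidableEq m]

theorem exists_nhd : ∃ U : Set (mixedSpace K), IsOpen U ∧ 0 ∈ U ∧
    ∀ a : 𝓞 K, io K a ∈ U → io K a = 0 := by
  have h1 : IsOpen ({0} : Set (mixedEmbedding.integerLattice K)) := isOpen_discrete _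
  obtain ⟨U, hU, hU'⟩ := isOpen_induced_iff.1 h1
  refine ⟨U, hU, ?_, fun a ha => ?_⟩
  · have : (0 : mixedEmbedding.integerLattice K) ∈ Subtype.val ⁻¹' U := by
      rw [hU']; rfl
    exact this
  · have h2 : io K a ∈ mixedEmbedding.integerLattice K := ⟨a, rfl⟩
    have h3 : (⟨io K a, h2⟩ : mixedEmbedding.integerLattice K) ∈ Subtype.val ⁻¹' U := ha
    rw [hU'] at h3
    exact congrArg Subtype.val h3

theorem disc : DiscreteTopology (mO K m).range := by
  obtain ⟨U, hU, hU0, hUa⟩ := exists_nhd K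
  refine discreteTopology_of_isOpen_singleton_one ?_
  rw [isOpen_induced_iff]
  refine ⟨{x | ∀ i j, x.1 i j - (1 : Matrix m m (mixedSpace K)) i j ∈ U}, ?_, ?_⟩
  · rw [setOf_forall]
    refine isOpen_iInter_of_finite fun i => ?_
    rw [setOf_forall]
    refine isOpen_iInter_of_finite fun j => ?_
    have h0 : Continuous fun x : SpecialLinearGroup m (mixedSpace K) => x.1 i j :=
      (continuous_subtype_val (p := fun M : Matrix m m (mixedSpace K) => M.det = 1)).matrix_elem i j
    exact hU.preimage (h0.sub continuous_const)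
  · ext ⟨x, γ, hγ⟩
    constructor
    · intro hx
      have hx' : ∀ i j, x.1 i j - (1 : Matrix m m (mixedSpace K)) i j ∈ U := hx
      rw [mem_singleton_iff]
      apply Subtype.ext
      apply Subtype.ext
      ext1 i j
      have h1 : x.1 i j - (1 : Matrix m m (mixedSpace K)) i j =
          io K (γ.1 i j - (1 : Matrix m m (𝓞 K)) i j) := by
        rw [← hγ, map_sub]
        have h2 : io K ((1 : Matrix m m (𝓞 K)) i j) = (1 : Matrix m m (mixedSpace K)) i j := by
          by_cases hij : i = j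
          · subst hij; rw [one_apply_eq, one_apply_eq, map_one]
          · rw [one_apply_ne hij, one_apply_ne hij, map_zero]
        rw [h2]
        rfl
      have h3 := hx' i j
      rw [h1] at h3
      have h4 := hUa _ h3
      rw [← h1, sub_eq_zero] at h4
      exact h4
    · intro hx
      rw [mem_singleton_iff] at hx
      have hx' : x = 1 := congrArg Subtype.val hx
      show ∀ i j, x.1 i j - (1 : Matrix m m (mixedSpace K)) i j ∈ U
      intro i j
      rw [hx']
      have : (1 : SpecialLinearGroup m (mixedSpace K)).1 i j -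
          (1 : Matrix m m (mixedSpace K)) i j = 0 := sub_self _
      rw [this]
      exact hU0

attribute [local instance] sl_t2 sl_lc sl_sc sl_pol

theorem lat_of_pf (h : PF K m) : H515.IsLattice (mO K m).range := by
  haveI := disc K m
  borelize (SpecialLinearGroup m (mixedSpace K))
  obtain ⟨μ, hμ⟩ : ∃ μ : Measure (SpecialLinearGroup m (mixedSpace K)), μ = haar := ⟨_, rfl⟩
  haveI hμH : IsHaarMeasure μ := by rw [hμ]; infer_instance
  haveI := rightInv K μ
  obtain ⟨F, hF, hcov⟩ := h 1 one_ne_zero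
  refine H515.isLattice_of_cover _ μ (hF _ ⟨rfl⟩ μ hμH) fun x => ?_
  obtain ⟨δ, -, hδ⟩ := hcov x
  exact ⟨⟨mO K m δ, δ, rfl⟩, hδ⟩

/-- **`SL_{n+1}(𝓞 K)` is a lattice of `SL_{n+1}(K ⊗ ℝ)`.** -/
theorem lat_T (n : ℕ) : H515.IsLattice (mO K (T n)).range := lat_of_pf K _ (pf_T K n)

end lattice

end Vale.Agent.P092.H677.OK
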