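import Vale.Agent.P092.H677.OKj
import Vale.Agent.P092.H678.SLt
import Vale.Agent.P092.H259.Grp
import Vale.Agent.P092.H259.Lat
import Vale.Agent.P092.UN.StA
import Vale.Agent.P092.UN.Eqv

/-!
P092 (helper677), [OK-LAT], part 11: for every number field `K` and `n ≥ 3` the group `PSL_n(𝓞 K)`
is in the class `LatticeA` (so is `SL_n(𝓞 K)` if `1` is the only `n`-th root of unity of `K`).
-/

set_option linter.all false

open Matrix Set Filter Topology NumberField
open NumberField.InfinitePlace NumberField.mixedEmbedding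

namespace Vale.Agent.P092.H677.OK

section rdx

variable {l m : Type} [Fintype l] [DecidableEq l] [Fintype m] [DecidableEq m] (e : l ≃ m)

/-- renumbering -/
def rdx (A : Type) [CommRing A] : SpecialLinearGroup l A ≃* SpecialLinearGroup m A where
  toFun g := ⟨reindex e e g.1, by rw [det_reindex_self, g.2]⟩
  invFun g := ⟨reindex e.symm e.symm g.1, by rw [det_reindex_self, g.2]⟩
  left_inv g := by apply Subtype.ext; ext1 i j; simp
  right_inv g := by apply Subtype.ext; ext1 i j; simp
  map_mul' g h := Subtype.ext (by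
    show reindex e e (g.1 * h.1) = reindex e e g.1 * reindex e e h.1
    simp only [reindex_apply]
    exact (submatrix_mul_equiv g.1 h.1 _ _ _).symm)

theorem rdx_cont (A : Type) [CommRing A] [TopologicalSpace A] : Continuous (rdx e A) :=
  continuous_induced_rng.2 (continuous_matrix fun a b =>
    (continuous_subtype_val (p := fun M : Matrix l l A => M.det = 1)).matrix_elem _ _)

theorem rdx_symm (A : Type) [CommRing A] : (rdx e A).symm = rdx e.symm A := rfl

end rdx

variable (K : Type) [Field K] [NumberField K]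

attribute [local instance] sl_t2 sl_lc sl_sc sl_pol

/-- `SL_n(𝓞 K)` in the product of the groups `SL_n` of the completions -/
noncomputable def emb (n : ℕ) : SpecialLinearGroup (Fin n) (𝓞 K) →*
    ∀ j, SpecialLinearGroup (Fin n) (kk K j) :=
  MonoidHom.pi fun j => SpecialLinearGroup.map ((cmp K j).comp (io K))

/-- **`SL_n(𝓞 K)` is a lattice of the product of the groups `SL_n` of the completions.** -/
theorem lat_emb (n : ℕ) : H515.IsLattice (emb K (n + 1)).range := by
  have e0 : T n ≃ Fin (n + 1) := Fintype.equivFinOfCardEq (card_T n)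
  have h2 := H515.IsLattice.map_equiv
    ((rdx e0 (mixedSpace K)).trans (slE K (Fin (n + 1))).toMulEquiv)
    ((slE K (Fin (n + 1))).continuous_toFun.comp (rdx_cont e0 _))
    ((rdx_cont e0.symm _).comp (slE K (Fin (n + 1))).continuous_invFun) (lat_T K n)
  have h3 : (mO K (T n)).range.map (((rdx e0 (mixedSpace K)).trans
      (slE K (Fin (n + 1))).toMulEquiv : _ ≃* _) : _ →* _) = (emb K (n + 1)).range := by
    ext x
    constructor
    · rintro ⟨_, ⟨γ, rfl⟩, rfl⟩
      exact ⟨rdx e0 _ γ, rfl⟩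
    · rintro ⟨γ, rfl⟩
      refine ⟨_, ⟨(rdx e0 _).symm γ, rfl⟩, ?_⟩
      have h4 : rdx e0 _ ((rdx e0 _).symm γ) = γ := (rdx e0 _).apply_symm_apply γ
      exact congrArg (emb K (n + 1)) h4
  rw [← h3]
  exact h2

theorem jj_nonempty : Nonempty (JJ K) := by
  obtain ⟨w⟩ := (inferInstance : Nonempty (InfinitePlace K))
  rcases isReal_or_isComplex w with h | h
  · exact ⟨Sum.inl ⟨w, h⟩⟩
  · exact ⟨Sum.inr ⟨w, h⟩⟩

theorem cmp_io_inj (j : JJ K) : Function.Injective ((cmp K j).comp (io K)) := by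
  have h : Function.Injective ((cmp K j).comp (mixedEmbedding K)) := RingHom.injective _
  exact h.comp RingOfIntegers.coe_injective

theorem emb_inj (n : ℕ) : Function.Injective (emb K n) := by
  obtain ⟨j⟩ := jj_nonempty K
  intro g h hgh
  have h1 := congrFun hgh j
  apply Subtype.ext
  ext1 a b
  apply cmp_io_inj K j
  exact congrArg (fun x : SpecialLinearGroup (Fin n) (kk K j) => x.1 a b) h1

theorem locK_kk (j : JJ K) : UN.LocK (kk K j) := by
  rcases j with w | w
  · exact UN.LocK.real (RingEquiv.refl ℝ) fun _ => rfl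
  · exact UN.LocK.cplx (RingEquiv.refl ℂ) fun _ => rfl

/-- `PSL_n(𝓞 K)` in the product of the groups `PSL_n` of the completions -/
noncomputable def pemb (n : ℕ) : H259.PQ (SpecialLinearGroup (Fin n) (𝓞 K)) →*
    ∀ j, H259.PQ (SpecialLinearGroup (Fin n) (kk K j)) :=
  MonoidHom.pi fun j => H387.N.pmap ((cmp K j).comp (io K)) n

theorem pemb_inj (n : ℕ) : Function.Injective (pemb K n) := by
  obtain ⟨j⟩ := jj_nonempty K
  rw [injective_iff_map_eq_one]
  intro g h
  obtain ⟨x, rfl⟩ := QuotientGroup.mk'_surjective _ g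
  have h1 : QuotientGroup.mk' _ (SpecialLinearGroup.map ((cmp K j).comp (io K)) x) =
      (1 : H259.PQ (SpecialLinearGroup (Fin n) (kk K j))) := congrFun h j
  exact (QuotientGroup.eq_one_iff x).2
    (H387.N.mem_center_of_map _ (cmp_io_inj K j) ((QuotientGroup.eq_one_iff _).1 h1))

theorem lat_pemb (n : ℕ) : H515.St.IsLattice (pemb K (n + 1)).range := by
  have h0 := lat_emb K n
  obtain ⟨π, hπ⟩ : ∃ π : (∀ j, SpecialLinearGroup (Fin (n + 1)) (kk K j)) →*
      ∀ j, H259.PQ (SpecialLinearGroup (Fin (n + 1)) (kk K j)),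
      π = MonoidHom.pi fun j => (H259.pq _).comp (Pi.evalMonoidHom _ j) := ⟨_, rfl⟩
  have hfin : ∀ j, Finite (Subgroup.center (SpecialLinearGroup (Fin (n + 1)) (kk K j))) :=
    fun j => H387.N.finite_center.to_subtype
  have hcl : ∀ j, IsClosed ((Subgroup.center (SpecialLinearGroup (Fin (n + 1)) (kk K j)) :
      Subgroup _) : Set (SpecialLinearGroup (Fin (n + 1)) (kk K j))) :=
    fun j => H387.N.finite_center.isClosed
  have hp : IsProperMap π := by
    rw [hπ]
    exact IsProperMap.pi_map fun j => H259.isProperMap_pq (hfin j)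
  have hs : Function.Surjective π := by
    rw [hπ]
    intro y
    choose x hx using fun j => QuotientGroup.mk'_surjective _ (y j)
    exact ⟨x, funext hx⟩
  have hr : (emb K (n + 1)).range.map π = (pemb K (n + 1)).range := by
    ext x
    constructor
    · rintro ⟨_, ⟨g, rfl⟩, rfl⟩
      exact ⟨QuotientGroup.mk' _ g, by rw [hπ]; rfl⟩
    · rintro ⟨g, rfl⟩
      obtain ⟨y, rfl⟩ := QuotientGroup.mk'_surjective _ g
      exact ⟨_, ⟨y, rfl⟩, by rw [hπ]; rfl⟩
  rw [← hr]
  exact H259.isLattice_map hp hs ⟨h0.disc, h0.covol⟩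

/-- **`PSL_n(𝓞 K)`, `K` a number field, `n ≥ 3`, is in the class `LatticeA`.** -/
theorem latticeA_OK {n : ℕ} (hn : 3 ≤ n) : UN.LatticeA (SpecialLinearGroup (Fin n) (𝓞 K) ⧸
    Subgroup.center (SpecialLinearGroup (Fin n) (𝓞 K))) := by
  obtain ⟨n, rfl⟩ : ∃ m, n = m + 1 := ⟨n - 1, by omega⟩
  haveI : Infinite (𝓞 K) := CharZero.infinite _
  refine ⟨fun g hg => H678.icc_psl g hg, JJ K, Fintype.ofFinite _,
    fun j => H259.PQ (SpecialLinearGroup (Fin (n + 1)) (kk K j)), inferInstance, inferInstance,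
    pemb K (n + 1), fun j => ?_, pemb_inj K _, (UN.isLattice_iff _).2 (lat_pemb K n)⟩
  exact ⟨kk K j, inferInstance, n + 1, inferInstance, locK_kk K j, hn, H259.pq _,
    isQuotientMap_quotient_mk', by rw [QuotientGroup.ker_mk']⟩

/-- `SL_n(𝓞 K)`, `K` a number field whose only `n`-th root of unity is `1`, `n ≥ 3`. -/
theorem latticeA_SL {n : ℕ} (hn : 3 ≤ n) (h : ∀ r : 𝓞 K, r ^ n = 1 → r = 1) :
    UN.LatticeA (SpecialLinearGroup (Fin n) (𝓞 K)) := by
  obtain ⟨n, rfl⟩ : ∃ m, n = m + 1 := ⟨n - 1, by omega⟩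
  haveI : Infinite (𝓞 K) := CharZero.infinite _
  have h0 := lat_emb K n
  refine ⟨fun g hg => H678.icc_sl h g hg, JJ K, Fintype.ofFinite _,
    fun j => SpecialLinearGroup (Fin (n + 1)) (kk K j), inferInstance, inferInstance,
    emb K (n + 1), fun j => ?_, emb_inj K _,
    (UN.isLattice_iff _).2 ⟨h0.disc, h0.covol⟩⟩
  refine ⟨kk K j, inferInstance, n + 1, inferInstance, locK_kk K j, hn, MonoidHom.id _,
    IsQuotientMap.id, ?_⟩
  rw [MonoidHom.ker_id]
  exact bot_le

end Vale.Agent.P092.H677.OK
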