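import Vale.Agent.P092.H677.OKn

/-!
P092 (helper677), [OKS-LAT], part 4: `SL_n` of the `S`-integers is a lattice.
-/

set_option linter.all false

open Matrix NumberField IsDedekindDomain Filter Topology MeasureTheory MeasureTheory.Measure Set
open NumberField.mixedEmbedding
open scoped NNReal ENNReal nonZeroDivisors

namespace Vale.Agent.P092.H677.OK

section lat

variable (K : Type) [Field K] [NumberField K] (S : Set (HeightOneSpectrum (𝓞 K)))

attribute [local instance] sl_t2 sl_lc sl_sc sl_pol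

/-- `SL_n` of the `S`-integers in the product over the infinite places -/
noncomputable def q1 (n : ℕ) : SpecialLinearGroup (Fin n) (S.integer K) →*
    ∀ j : JJ K, SpecialLinearGroup (Fin n) (kk K j) :=
  MonoidHom.pi fun j => SpecialLinearGroup.map
    (((cmp K j).comp (mixedEmbedding K)).comp (algebraMap (S.integer K) K))

/-- from `SL_n(𝓞 K)` to `SL_n` of the `S`-integers -/
noncomputable def qO (n : ℕ) : SpecialLinearGroup (Fin n) (𝓞 K) →*
    SpecialLinearGroup (Fin n) (S.integer K) :=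
  SpecialLinearGroup.map (algebraMap (𝓞 K) (S.integer K))

theorem q1_qO (n : ℕ) (δ : SpecialLinearGroup (Fin n) (𝓞 K)) :
    q1 K S n (qO K S n δ) = emb K n δ := rfl

theorem q2_qO (n : ℕ) (δ : SpecialLinearGroup (Fin n) (𝓞 K)) (v : S) :
    q2 K S n (qO K S n δ) v ∈ UU K n v := UU_int K n v δ

theorem int_sl {n : ℕ} {γ : SpecialLinearGroup (Fin n) (S.integer K)}
    (h : ∀ v : S, q2 K S n γ v ∈ UU K n v) : ∃ δ, qO K S n δ = γ := by
  have h1 : ∀ i j, ∃ a : 𝓞 K, algebraMap (𝓞 K) K a = (γ.1 i j : S.integer K) := fun i j =>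
    int_of K (γ.1 i j) fun v => h v i j
  choose a ha using h1
  have h2 : ∀ i j, algebraMap (𝓞 K) (S.integer K) (a i j) = γ.1 i j := fun i j =>
    Subtype.ext (ha i j)
  have hinj : Function.Injective (algebraMap (𝓞 K) (S.integer K)) := by
    intro x y hxy
    apply (RingOfIntegers.coe_injective : Function.Injective (algebraMap (𝓞 K) K))
    exact congrArg (fun z : S.integer K => (z : K)) hxy
  have h3 : (Matrix.of a).map (algebraMap (𝓞 K) (S.integer K)) = γ.1 := by
    ext i j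
    simp [h2]
  refine ⟨⟨Matrix.of a, hinj ?_⟩, Subtype.ext h3⟩
  rw [RingHom.map_det, map_one, RingHom.mapMatrix_apply, h3, γ.2]

/-- the embedding -/
noncomputable def q12 (n : ℕ) : SpecialLinearGroup (Fin n) (S.integer K) →*
    (∀ j : JJ K, SpecialLinearGroup (Fin n) (kk K j)) ×
      ∀ v : S, SpecialLinearGroup (Fin n) (Kv K v) :=
  (q1 K S n).prod (q2 K S n)

theorem q12_disc [Finite S] (n : ℕ) : DiscreteTopology (q12 K S (n + 1)).range := by
  have h0 := (lat_emb K n).disc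
  have h1 : IsOpen ({1} : Set (emb K (n + 1)).range) := isOpen_discrete _
  obtain ⟨W, hW, hW'⟩ := isOpen_induced_iff.1 h1
  have hW1 : (1 : ∀ j : JJ K, SpecialLinearGroup (Fin (n + 1)) (kk K j)) ∈ W := by
    have : (1 : (emb K (n + 1)).range) ∈ Subtype.val ⁻¹' W := by
      rw [hW']; rfl
    exact this
  refine discreteTopology_of_isOpen_singleton_one ?_
  rw [isOpen_induced_iff]
  refine ⟨W ×ˢ {y | ∀ v : S, y v ∈ UU K (n + 1) v}, hW.prod ?_, ?_⟩
  · rw [setOf_forall]
    exact isOpen_iInter_of_finite fun v => (UU_open K (n + 1) v).preimage (continuous_apply v)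
  · ext ⟨x, γ, hγ⟩
    constructor
    · rintro ⟨hx1, hx2⟩
      subst hγ
      obtain ⟨δ, rfl⟩ := int_sl K S (γ := γ) hx2
      have h2 : emb K (n + 1) δ ∈ W := hx1
      have h3 : (⟨emb K (n + 1) δ, δ, rfl⟩ : (emb K (n + 1)).range) ∈ Subtype.val ⁻¹' W := h2
      rw [hW'] at h3
      have h4 : emb K (n + 1) δ = 1 := congrArg Subtype.val h3
      have h5 : δ = 1 := emb_inj K _ (by rw [h4, map_one])
      subst h5
      rw [mem_singleton_iff]
      apply Subtype.ext
      show q12 K S (n + 1) (qO K S (n + 1) 1) = 1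
      rw [map_one, map_one]
    · intro hx
      rw [mem_singleton_iff] at hx
      have hx' : x = 1 := congrArg Subtype.val hx
      show x ∈ W ×ˢ {y | ∀ v : S, y v ∈ UU K (n + 1) v}
      rw [hx']
      exact ⟨hW1, fun v => UU_one K _ _⟩

theorem hom_triv2 [Finite S] (n : ℕ) (f : ((∀ j : JJ K, SpecialLinearGroup (Fin (n + 2)) (kk K j)) ×
      ∀ v : S, SpecialLinearGroup (Fin (n + 2)) (Kv K v)) →* (ℝ≥0)ˣ) : f = 1 := by
  classical
  haveI : Fintype S := Fintype.ofFinite _
  have h1 : f.comp (MonoidHom.inl _ _) = 1 := by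
    refine hom_pi_triv _ fun j x => ?_
    have h2 : (f.comp (MonoidHom.inl _ _)).comp
        (MonoidHom.mulSingle (fun j => SpecialLinearGroup (Fin (n + 2)) (kk K j)) j) = 1 := by
      have h3 : Infinite (kk K j) := NontriviallyNormedField.infinite _
      exact H899.hom_eq_one _
    exact DFunLike.congr_fun h2 x
  have h2 : f.comp (MonoidHom.inr _ _) = 1 := by
    refine hom_pi_triv _ fun v x => ?_
    have h2 : (f.comp (MonoidHom.inr _ _)).comp
        (MonoidHom.mulSingle (fun v : S => SpecialLinearGroup (Fin (n + 2)) (Kv K v)) v) = 1 := by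
      have h3 : Infinite (Kv K v) := NontriviallyNormedField.infinite _
      exact H899.hom_eq_one _
    exact DFunLike.congr_fun h2 x
  refine MonoidHom.ext fun x => ?_
  have h3 : x = (x.1, 1) * (1, x.2) := by
    rw [Prod.mk_mul_mk, mul_one, one_mul]
  have h4 : f (x.1, 1) = 1 := DFunLike.congr_fun h1 x.1
  have h5 : f (1, x.2) = 1 := DFunLike.congr_fun h2 x.2
  rw [h3, map_mul, h4, h5, mul_one]
  rfl

theorem lat_q12 [Finite S] (n : ℕ) : H515.IsLattice (q12 K S (n + 2)).range := by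
  haveI := q12_disc K S (n + 1)
  borelize (∀ j : JJ K, SpecialLinearGroup (Fin (n + 2)) (kk K j))
  borelize (∀ v : S, SpecialLinearGroup (Fin (n + 2)) (Kv K v))
  obtain ⟨μ₁, hμ₁⟩ : ∃ μ : Measure (∀ j : JJ K, SpecialLinearGroup (Fin (n + 2)) (kk K j)),
    μ = haar := ⟨_, rfl⟩
  obtain ⟨μ₂, hμ₂⟩ : ∃ μ : Measure (∀ v : S, SpecialLinearGroup (Fin (n + 2)) (Kv K v)),
    μ = haar := ⟨_, rfl⟩
  haveI hH₁ : IsHaarMeasure μ₁ := by rw [hμ₁]; infer_instance
  haveI hH₂ : IsHaarMeasure μ₂ := by rw [hμ₂]; infer_instance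
  haveI hr : IsMulRightInvariant (μ₁.prod μ₂) :=
    H515.rightInv_of_modChar _ (H515.modChar_of_perfect (hom_triv2 K S n))
  obtain ⟨F, -, hF, -, hFc, -⟩ := H515.IsLattice.exists_fdom_right μ₁ (lat_emb K (n + 1))
  have hU : IsCompact (Set.pi univ fun v : S => UU K (n + 2) v) :=
    isCompact_univ_pi fun v => UU_cpt K (n + 2) v
  refine H515.isLattice_of_cover _ (μ₁.prod μ₂)
    (F := F ×ˢ (Set.pi univ fun v : S => UU K (n + 2) v)) ?_ fun x => ?_
  · rw [Measure.prod_prod]
    exact ENNReal.mul_lt_top hF hU.measure_lt_top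
  · obtain ⟨γ, hγ⟩ := strong' K S n x.2
    obtain ⟨⟨_, δ, rfl⟩, hδ, -⟩ := hFc (x.1 * q1 K S (n + 2) γ)
    refine ⟨⟨q12 K S (n + 2) (γ * qO K S (n + 2) δ), _, rfl⟩, ?_, ?_⟩
    · show x.1 * q1 K S (n + 2) (γ * qO K S (n + 2) δ) ∈ F
      rw [map_mul, ← mul_assoc]
      exact hδ
    · intro v _
      show x.2 v * q2 K S (n + 2) (γ * qO K S (n + 2) δ) v ∈ UU K (n + 2) v
      rw [map_mul, Pi.mul_apply, ← mul_assoc]
      exact UU_mul K (hγ v) (q2_qO K S (n + 2) δ v)

end lat

end Vale.Agent.P092.H677.OK
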