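import Vale.Agent.P092.H677.OKo

/-!
P092 (helper677), [OKS-LAT], part 5: for every number field `K`, every finite set `S` of finite
places and `n ≥ 3` the group `PSL_n` of the `S`-integers is in the class `LatticeA` (so is `SL_n` of
the `S`-integers if `1` is the only `n`-th root of unity of `K`).
-/

set_option linter.all false

open Matrix Set Filter Topology NumberField IsDedekindDomain
open NumberField.InfinitePlace NumberField.mixedEmbedding

namespace Vale.Agent.P092.H677.OK

variable (K : Type) [Field K] [NumberField K] (S : Set (HeightOneSpectrum (𝓞 K)))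

attribute [local instance] sl_t2 sl_lc sl_sc sl_pol

/-- the places -/
abbrev II : Type := JJ K ⊕ S

/-- the completions -/
def KK (i : II K S) : Type := Sum.elim (kk K) (fun v : S => Kv K v) i

noncomputable instance (i : II K S) : NontriviallyNormedField (KK K S i) :=
  match i with
  | Sum.inl j => inferInstanceAs (NontriviallyNormedField (kk K j))
  | Sum.inr v => inferInstanceAs (NontriviallyNormedField (Kv K v))

instance (i : II K S) : ProperSpace (KK K S i) :=
  match i with
  | Sum.inl j => inferInstanceAs (ProperSpace (kk K j))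
  | Sum.inr v => inferInstanceAs (ProperSpace (Kv K v))

theorem locK_KK (i : II K S) : UN.LocK (KK K S i) := by
  rcases i with j | v
  · exact locK_kk K j
  · exact UN.LocK.ultra (inferInstanceAs (IsUltrametricDist (Kv K v)))

/-- from the `S`-integers to the completions -/
noncomputable def oi (i : II K S) : S.integer K →+* KK K S i :=
  match i with
  | Sum.inl j => ((cmp K j).comp (mixedEmbedding K)).comp (algebraMap (S.integer K) K)
  | Sum.inr v => of K S v

theorem oi_inj (i : II K S) : Function.Injective (oi K S i) := by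
  have h0 : Function.Injective (algebraMap (S.integer K) K) := Subtype.val_injective
  rcases i with j | v
  · have h : Function.Injective ((cmp K j).comp (mixedEmbedding K)) := RingHom.injective _
    exact h.comp h0
  · exact (ev_inj K v).comp h0

/-- `SL_n` of the `S`-integers in the product of the groups `SL_n` of the completions -/
noncomputable def embS (n : ℕ) : SpecialLinearGroup (Fin n) (S.integer K) →*
    ∀ i, SpecialLinearGroup (Fin n) (KK K S i) :=
  MonoidHom.pi fun i => SpecialLinearGroup.map (oi K S i)

theorem embS_inj (n : ℕ) : Function.Injective (embS K S n) := by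
  obtain ⟨j⟩ := jj_nonempty K
  intro g h hgh
  have h1 := congrFun hgh (Sum.inl j)
  apply Subtype.ext
  ext1 a b
  apply oi_inj K S (Sum.inl j)
  exact congrArg (fun x : SpecialLinearGroup (Fin n) (KK K S (Sum.inl j)) => x.1 a b) h1

/-- the splitting of the product -/
noncomputable def spl (n : ℕ) : ((∀ j : JJ K, SpecialLinearGroup (Fin n) (kk K j)) ×
      ∀ v : S, SpecialLinearGroup (Fin n) (Kv K v)) ≃*
    ∀ i, SpecialLinearGroup (Fin n) (KK K S i) where
  toFun x i := match i with
    | Sum.inl j => x.1 j
    | Sum.inr v => x.2 v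
  invFun y := (fun j => y (Sum.inl j), fun v => y (Sum.inr v))
  left_inv x := rfl
  right_inv y := by funext i; rcases i with j | v <;> rfl
  map_mul' x y := by funext i; rcases i with j | v <;> rfl

theorem spl_cont (n : ℕ) : Continuous (spl K S n) := by
  refine continuous_pi fun i => ?_
  rcases i with j | v
  · exact (continuous_apply j).comp continuous_fst
  · exact (continuous_apply v).comp continuous_snd

theorem spl_symm_cont (n : ℕ) : Continuous (spl K S n).symm :=
  Continuous.prodMk (continuous_pi fun j => continuous_apply (Sum.inl j : II K S))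
    (continuous_pi fun v => continuous_apply (Sum.inr v : II K S))

theorem spl_q12 (n : ℕ) (γ : SpecialLinearGroup (Fin n) (S.integer K)) :
    spl K S n (q12 K S n γ) = embS K S n γ := by
  funext i
  rcases i with j | v <;> rfl

/-- **`SL_n` of the `S`-integers is a lattice of the product of the groups `SL_n` of the
completions at the infinite places and the places of `S`.** -/
theorem lat_embS [Finite S] (n : ℕ) : H515.IsLattice (embS K S (n + 2)).range := by
  have h2 := H515.IsLattice.map_equiv (spl K S (n + 2)) (spl_cont K S _) (spl_symm_cont K S _)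
    (lat_q12 K S n)
  have h3 : (q12 K S (n + 2)).range.map ((spl K S (n + 2) : _ ≃* _) : _ →* _) =
      (embS K S (n + 2)).range := by
    ext x
    constructor
    · rintro ⟨_, ⟨γ, rfl⟩, rfl⟩
      exact ⟨γ, (spl_q12 K S _ γ).symm⟩
    · rintro ⟨γ, rfl⟩
      exact ⟨_, ⟨γ, rfl⟩, spl_q12 K S _ γ⟩
  rw [← h3]
  exact h2

/-- `PSL_n` of the `S`-integers in the product of the groups `PSL_n` of the completions -/
noncomputable def pembS (n : ℕ) : H259.PQ (SpecialLinearGroup (Fin n) (S.integer K)) →*
    ∀ i, H259.PQ (SpecialLinearGroup (Fin n) (KK K S i)) :=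
  MonoidHom.pi fun i => H387.N.pmap (oi K S i) n

theorem pembS_inj (n : ℕ) : Function.Injective (pembS K S n) := by
  obtain ⟨j⟩ := jj_nonempty K
  rw [injective_iff_map_eq_one]
  intro g h
  obtain ⟨x, rfl⟩ := QuotientGroup.mk'_surjective _ g
  have h1 : QuotientGroup.mk' _ (SpecialLinearGroup.map (oi K S (Sum.inl j)) x) =
      (1 : H259.PQ (SpecialLinearGroup (Fin n) (KK K S (Sum.inl j)))) := congrFun h (Sum.inl j)
  exact (QuotientGroup.eq_one_iff x).2
    (H387.N.mem_center_of_map _ (oi_inj K S (Sum.inl j)) ((QuotientGroup.eq_one_iff _).1 h1))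

theorem lat_pembS [Finite S] (n : ℕ) : H515.St.IsLattice (pembS K S (n + 2)).range := by
  have h0 := lat_embS K S n
  obtain ⟨π, hπ⟩ : ∃ π : (∀ i, SpecialLinearGroup (Fin (n + 2)) (KK K S i)) →*
      ∀ i, H259.PQ (SpecialLinearGroup (Fin (n + 2)) (KK K S i)),
      π = MonoidHom.pi fun i => (H259.pq _).comp (Pi.evalMonoidHom _ i) := ⟨_, rfl⟩
  have hfin : ∀ i, Finite (Subgroup.center (SpecialLinearGroup (Fin (n + 2)) (KK K S i))) :=
    fun i => H387.N.finite_center.to_subtype
  have hcl : ∀ i, IsClosed ((Subgroup.center (SpecialLinearGroup (Fin (n + 2)) (KK K S i)) :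
      Subgroup _) : Set (SpecialLinearGroup (Fin (n + 2)) (KK K S i))) :=
    fun i => H387.N.finite_center.isClosed
  have hp : IsProperMap π := by
    rw [hπ]
    exact IsProperMap.pi_map fun i => H259.isProperMap_pq (hfin i)
  have hs : Function.Surjective π := by
    rw [hπ]
    intro y
    choose x hx using fun i => QuotientGroup.mk'_surjective _ (y i)
    exact ⟨x, funext hx⟩
  have hr : (embS K S (n + 2)).range.map π = (pembS K S (n + 2)).range := by
    ext x
    constructor
    · rintro ⟨_, ⟨g, rfl⟩, rfl⟩
      exact ⟨QuotientGroup.mk' _ g, by rw [hπ]; rfl⟩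
    · rintro ⟨g, rfl⟩
      obtain ⟨y, rfl⟩ := QuotientGroup.mk'_surjective _ g
      exact ⟨_, ⟨y, rfl⟩, by rw [hπ]; rfl⟩
  rw [← hr]
  exact H259.isLattice_map hp hs ⟨h0.disc, h0.covol⟩

instance : CharZero (S.integer K) := RingHom.charZero (algebraMap (S.integer K) K)

/-- **`PSL_n` of the `S`-integers of a number field `K`, `S` a finite set of finite places,
`n ≥ 3`, is in the class `LatticeA`.** -/
theorem latticeA_OKS (hS : S.Finite) {n : ℕ} (hn : 3 ≤ n) :
    UN.LatticeA (SpecialLinearGroup (Fin n) (S.integer K) ⧸
      Subgroup.center (SpecialLinearGroup (Fin n) (S.integer K))) := by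
  haveI := hS.to_subtype
  obtain ⟨n, rfl⟩ : ∃ m, n = m + 2 := ⟨n - 2, by omega⟩
  haveI : Infinite (S.integer K) := CharZero.infinite _
  refine ⟨fun g hg => H678.icc_psl g hg, II K S, Fintype.ofFinite _,
    fun i => H259.PQ (SpecialLinearGroup (Fin (n + 2)) (KK K S i)), inferInstance, inferInstance,
    pembS K S (n + 2), fun i => ?_, pembS_inj K S _, (UN.isLattice_iff _).2 (lat_pembS K S n)⟩
  exact ⟨KK K S i, inferInstance, n + 2, inferInstance, locK_KK K S i, hn, H259.pq _,
    isQuotientMap_quotient_mk', by rw [QuotientGroup.ker_mk']⟩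

/-- `SL_n` of the `S`-integers, `K` a number field whose only `n`-th root of unity is `1`,
`n ≥ 3`. -/
theorem latticeA_SLS (hS : S.Finite) {n : ℕ} (hn : 3 ≤ n)
    (h : ∀ r : S.integer K, r ^ n = 1 → r = 1) :
    UN.LatticeA (SpecialLinearGroup (Fin n) (S.integer K)) := by
  haveI := hS.to_subtype
  obtain ⟨n, rfl⟩ : ∃ m, n = m + 2 := ⟨n - 2, by omega⟩
  haveI : Infinite (S.integer K) := CharZero.infinite _
  have h0 := lat_embS K S n
  refine ⟨fun g hg => H678.icc_sl h g hg, II K S, Fintype.ofFinite _,
    fun i => SpecialLinearGroup (Fin (n + 2)) (KK K S i), inferInstance, inferInstance,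
    embS K S (n + 2), fun i => ?_, embS_inj K S _,
    (UN.isLattice_iff _).2 ⟨h0.disc, h0.covol⟩⟩
  refine ⟨KK K S i, inferInstance, n + 2, inferInstance, locK_KK K S i, hn, MonoidHom.id _,
    IsQuotientMap.id, ?_⟩
  rw [MonoidHom.ker_id]
  exact bot_le

end Vale.Agent.P092.H677.OK
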