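import Mathlib
import Vale.Agent.P092.H542.Rp.Exp

/-!
P092 (helper677), [OKS-L], part 1: in characteristic `0` an ad-nilpotent matrix of trace `0` is
nilpotent; `exp (ad x)` is the conjugation by `exp x`.
-/

set_option linter.all false

open Matrix Vale.Agent.P092.H542.Rp

namespace Vale.Agent.P092.H677.OK

section nil

attribute [local instance 100] LieRing.ofAssociativeRing

variable {k V : Type} [Field k] [CharZero k] [AddCommGroup V] [Module k V]
  [FiniteDimensional k V]

theorem c_of {s : Module.End k V} (h2 : LieAlgebra.ad k (Module.End k V) s = 0) :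
    ∃ c : k, s = algebraMap k _ c := by
  have h3 : s ∈ Subalgebra.center k (Module.End k V) := by
    rw [Subalgebra.mem_center_iff]
    intro b
    have := LinearMap.congr_fun h2 b
    rw [LieAlgebra.ad_apply, Ring.lie_def, LinearMap.zero_apply, sub_eq_zero] at this
    exact this.symm
  rw [Algebra.IsCentral.center_eq_bot, Algebra.mem_bot] at h3
  obtain ⟨c, hc⟩ := h3
  exact ⟨c, hc.symm⟩

theorem nil_s {a m s : Module.End k V} (hms : Commute m a) (hX : a = m + s)
    (h : IsNilpotent (LieAlgebra.ad k (Module.End k V) a)) (hm : IsNilpotent m) :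
    IsNilpotent (LieAlgebra.ad k (Module.End k V) s) := by
  have e : LieAlgebra.ad k (Module.End k V) s = LieAlgebra.ad k (Module.End k V) a -
        LieAlgebra.ad k (Module.End k V) m := by
      rw [hX, map_add, add_sub_cancel_left]
  rw [e]
  exact (LieAlgebra.commute_ad_of_commute hms.symm).isNilpotent_sub h
      (LieAlgebra.ad_nilpotent_of_nilpotent hm)

theorem nil_of_ad {a : Module.End k V} (h : IsNilpotent (LieAlgebra.ad k (Module.End k V) a))
    (ht : LinearMap.trace k V a = 0) : IsNilpotent a := by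
  obtain ⟨m, hm_adj, s, hs_adj, hm, hs, hX⟩ := a.exists_isNilpotent_isSemisimple
  have hms : Commute m a := (Algebra.commute_of_mem_adjoin_self hm_adj).symm
  have h1 := nil_s hms hX h hm
  have h2 : LieAlgebra.ad k (Module.End k V) s = 0 :=
    Module.End.eq_zero_of_isNilpotent_isSemisimple h1
      (LieAlgebra.ad_isSemisimple_of_isSemisimple hs)
  obtain ⟨c, hc⟩ := c_of h2
  have h4 : LinearMap.trace k V m = 0 := (LinearMap.isNilpotent_trace_of_isNilpotent hm).eq_zero
  rcases subsingleton_or_nontrivial V with hV | hV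
  · exact ⟨1, LinearMap.ext fun x => Subsingleton.elim _ _⟩
  have h5 : c = 0 := by
    have h6 : LinearMap.trace k V s = 0 := by
      have := congrArg (LinearMap.trace k V) hX
      rw [map_add, h4, ht, zero_add] at this
      exact this.symm
    rw [hc, Algebra.algebraMap_eq_smul_one, map_smul, LinearMap.trace_one, smul_eq_mul,
      mul_eq_zero] at h6
    rcases h6 with h6 | h6
    · exact h6
    · exact absurd (Nat.cast_eq_zero.1 h6) Module.finrank_pos.ne'
  have h6 : a = m := by rw [hX, hc, h5, map_zero, add_zero]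
  rw [h6]
  exact hm

variable {n : Type} [Fintype n] [DecidableEq n]

theorem ad_tr (e : Matrix n n k ≃ₐ[k] Module.End k (n → k)) (X Y : Matrix n n k) (N : ℕ) :
    ((LieAlgebra.ad k (Module.End k (n → k)) (e X)) ^ N) (e Y) =
      e (((LieAlgebra.ad k (Matrix n n k) X) ^ N) Y) := by
  induction N generalizing Y with
  | zero => simp
  | succ N ih =>
    rw [pow_succ, pow_succ, Module.End.mul_apply, Module.End.mul_apply, LieAlgebra.ad_apply,
      LieAlgebra.ad_apply, ← ih, Ring.lie_def, Ring.lie_def, map_sub e, map_mul e, map_mul e]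

/-- an ad-nilpotent matrix of trace `0` is nilpotent -/
theorem mat_nil {X : Matrix n n k} (h : IsNilpotent (LieAlgebra.ad k (Matrix n n k) X))
    (ht : X.trace = 0) : IsNilpotent X := by
  obtain ⟨e, he⟩ : ∃ e : Matrix n n k ≃ₐ[k] Module.End k (n → k), e = toLinAlgEquiv' := ⟨_, rfl⟩
  have h1 : IsNilpotent (LieAlgebra.ad k (Module.End k (n → k)) (e X)) := by
    obtain ⟨N, hN⟩ := h
    refine ⟨N, LinearMap.ext fun y => ?_⟩
    obtain ⟨Y, rfl⟩ := e.surjective y
    rw [ad_tr, hN, LinearMap.zero_apply, map_zero, LinearMap.zero_apply]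
  have h2 : LinearMap.trace k (n → k) (e X) = 0 := by
    rw [he]
    exact (Matrix.trace_toLin'_eq X).trans ht
  have h3 := nil_of_ad h1 h2
  have h4 := h3.map e.symm
  rwa [AlgEquiv.symm_apply_apply] at h4

theorem sl_pow (x y : LieAlgebra.SpecialLinear.sl n k) (N : ℕ) :
    ((LieAlgebra.ad k (Matrix n n k) x.1) ^ N) y.1 =
      (((LieAlgebra.ad k (LieAlgebra.SpecialLinear.sl n k) x) ^ N) y).1 := by
  induction N generalizing y with
  | zero => rfl
  | succ N ih =>
    rw [pow_succ, pow_succ, Module.End.mul_apply, Module.End.mul_apply, ← ih]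
    rfl

theorem sl_nil {x : LieAlgebra.SpecialLinear.sl n k}
    (h : IsNilpotent (LieAlgebra.ad k (LieAlgebra.SpecialLinear.sl n k) x)) :
    IsNilpotent x.1 := by
  have ht : x.1.trace = 0 := x.2
  refine mat_nil ?_ ht
  obtain ⟨N, hN⟩ := h
  refine ⟨N + 1, LinearMap.ext fun y => ?_⟩
  have h1 : (⁅x.1, y⁆ : Matrix n n k).trace = 0 := by
    rw [Ring.lie_def, Matrix.trace_sub, Matrix.trace_mul_comm, sub_self]
  have h2 := sl_pow x ⟨⁅x.1, y⁆, h1⟩ N
  rw [hN] at h2
  rw [pow_succ, Module.End.mul_apply, LieAlgebra.ad_apply]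
  exact h2

/-- `exp (ad X)` is the conjugation by `exp X` -/
theorem ex_ad {X : Matrix n n k} (hX : IsNilpotent X) (Y : Matrix n n k) :
    ex k (LieAlgebra.ad k (Matrix n n k) X) Y = ex k X * Y * ex k (-X) := by
  have h0 : LieAlgebra.ad k (Matrix n n k) X =
      Algebra.lmul k (Matrix n n k) X + LinearMap.mulRight k (-X) := by
    ext1 Y
    show X * Y - Y * X = X * Y + Y * (-X)
    rw [mul_neg, sub_eq_add_neg]
  have hl : IsNilpotent (Algebra.lmul k (Matrix n n k) X) := hX.map (Algebra.lmul k (Matrix n n k))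
  have hr : IsNilpotent (LinearMap.mulRight k (-X)) := by
    rw [LinearMap.isNilpotent_mulRight_iff]; exact hX.neg
  have hc : Commute (Algebra.lmul k (Matrix n n k) X) (LinearMap.mulRight k (-X)) :=
    LinearMap.commute_mulLeft_right X (-X)
  rw [h0, ex_add hc hl hr, ← map_ex _ hX]
  obtain ⟨N, hN⟩ := hX.neg
  have h1 : (LinearMap.mulRight k (-X)) ^ N = 0 := by
    rw [LinearMap.pow_mulRight, hN, LinearMap.mulRight_zero_eq_zero]
  have h2 : ex k (LinearMap.mulRight k (-X)) = LinearMap.mulRight k (ex k (-X)) := by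
    rw [ex_eq_sum h1, ex_eq_sum hN]
    ext1 Z
    rw [LinearMap.sum_apply, LinearMap.mulRight_apply, Finset.mul_sum]
    refine Finset.sum_congr rfl fun i _ => ?_
    rw [LinearMap.smul_apply, LinearMap.pow_mulRight, LinearMap.mulRight_apply, mul_smul_comm]
  rw [h2]
  show ex k X * (Y * ex k (-X)) = _
  rw [mul_assoc]

theorem det_one_add {X : Matrix n n k} (hX : IsNilpotent X) : (1 + X).det = 1 := by
  have h1 : (-X).charpoly = Polynomial.X ^ Fintype.card n := by
    have h2 := Matrix.isNilpotent_charpoly_sub_pow_of_isNilpotent hX.neg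
    exact sub_eq_zero.1 h2.eq_zero
  have h3 := Matrix.eval_charpoly (-X) 1
  rw [h1, Polynomial.eval_pow, Polynomial.eval_X, one_pow] at h3
  rw [h3]
  congr 1
  rw [sub_neg_eq_add, map_one]

theorem det_ex {X : Matrix n n k} (hX : IsNilpotent X) : (ex k X).det = 1 := by
  have h1 : ∃ Z, IsNilpotent Z ∧ ex k X = 1 + Z := by
    obtain ⟨N, hN⟩ := hX
    refine ⟨∑ i ∈ Finset.range N, (((i + 1).factorial : k)⁻¹) • X ^ (i + 1), ?_, ?_⟩
    · have h2 : ∑ i ∈ Finset.range N, (((i + 1).factorial : k)⁻¹) • X ^ (i + 1) =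
          X * ∑ i ∈ Finset.range N, (((i + 1).factorial : k)⁻¹) • X ^ i := by
        rw [Finset.mul_sum]
        refine Finset.sum_congr rfl fun i _ => ?_
        rw [mul_smul_comm, pow_succ']
      rw [h2]
      refine Commute.isNilpotent_mul_right ?_ ⟨N, hN⟩
      refine Commute.sum_right _ _ _ fun i _ => ?_
      exact ((Commute.refl X).pow_right i).smul_right _
    · have h3 : X ^ (N + 1) = 0 := by rw [pow_succ, hN, zero_mul]
      rw [ex_eq_sum h3, Finset.sum_range_succ']
      simp [add_comm]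
  obtain ⟨Z, hZ, e⟩ := h1
  rw [e]
  exact det_one_add hZ

end nil

end Vale.Agent.P092.H677.OK
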