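import Vale.Agent.P092.H677.PLa
import Vale.Agent.P092.H677.OKp
import Vale.Agent.P092.H35.Rp.ClsQ
import Vale.Agent.P092.H899.SlSimple

/-!
P092 (helper677), [OKS-L], part 2: `PSL_n(k)`, `k` a local field of characteristic `0`, `n ≥ 2`, is in
the class `IsLie`.
-/

set_option linter.all false

open Matrix Set Filter Topology

namespace Vale.Agent.P092.H677.OK

open Vale.Agent.P092.H35.Rp (IsExp IsLie)

section ad

attribute [local instance 100] LieRing.ofAssociativeRing

variable {k : Type} [Field k] {n : Type} [Fintype n] [DecidableEq n]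

/-- the Lie algebra -/
abbrev slL (k : Type) [Field k] (n : Type) [Fintype n] [DecidableEq n] :
    LieSubalgebra k (Matrix n n k) := LieAlgebra.SpecialLinear.sl n k

theorem slv_inv (g : SpecialLinearGroup n k) : g.1 * (g⁻¹).1 = 1 := by
  have h := congrArg Subtype.val (mul_inv_cancel g)
  exact h

theorem slv_inv' (g : SpecialLinearGroup n k) : (g⁻¹).1 * g.1 = 1 := by
  have h := congrArg Subtype.val (inv_mul_cancel g)
  exact h

/-- the adjoint action -/
def Adg (g : SpecialLinearGroup n k) : Module.End k (slL k n) where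
  toFun x := ⟨g.1 * x.1 * (g⁻¹).1, by
    show (g.1 * x.1 * (g⁻¹).1).trace = 0
    rw [Matrix.trace_mul_comm, ← Matrix.mul_assoc, slv_inv', Matrix.one_mul]
    exact x.2⟩
  map_add' x y := Subtype.ext (by
    show g.1 * (x.1 + y.1) * (g⁻¹).1 = g.1 * x.1 * (g⁻¹).1 + g.1 * y.1 * (g⁻¹).1
    rw [Matrix.mul_add, Matrix.add_mul])
  map_smul' c x := Subtype.ext (by
    show g.1 * (c • x.1) * (g⁻¹).1 = c • (g.1 * x.1 * (g⁻¹).1)
    rw [Matrix.mul_smul, Matrix.smul_mul])

theorem Adg_val (g : SpecialLinearGroup n k) (x : slL k n) :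
    (Adg g x).1 = g.1 * x.1 * (g⁻¹).1 := rfl

/-- the adjoint representation -/
def Ads : SpecialLinearGroup n k →* Module.End k (slL k n) where
  toFun := Adg
  map_one' := LinearMap.ext fun x => Subtype.ext (by
    rw [Adg_val, inv_one]
    show (1 : Matrix n n k) * x.1 * (1 : Matrix n n k) = x.1
    rw [Matrix.one_mul, Matrix.mul_one])
  map_mul' g h := LinearMap.ext fun x => Subtype.ext (by
    rw [Adg_val, _root_.mul_inv_rev]
    show (g.1 * h.1) * x.1 * ((h⁻¹).1 * (g⁻¹).1) = g.1 * (h.1 * x.1 * (h⁻¹).1) * (g⁻¹).1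
    simp only [Matrix.mul_assoc])

theorem Ads_val (g : SpecialLinearGroup n k) (x : slL k n) :
    (Ads g x).1 = g.1 * x.1 * (g⁻¹).1 := rfl

theorem Ads_lie (g : SpecialLinearGroup n k) (x y : slL k n) :
    Ads g ⁅x, y⁆ = ⁅Ads g x, Ads g y⁆ := by
  apply Subtype.ext
  rw [LieAlgebra.SpecialLinear.sl_bracket, Ads_val, Ads_val, Ads_val,
    LieAlgebra.SpecialLinear.sl_bracket, Matrix.mul_sub, Matrix.sub_mul]
  have h : ∀ X Y : Matrix n n k, g.1 * X * (g⁻¹).1 * (g.1 * Y * (g⁻¹).1) =
      g.1 * (X * Y) * (g⁻¹).1 := by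
    intro X Y
    calc g.1 * X * (g⁻¹).1 * (g.1 * Y * (g⁻¹).1) =
          g.1 * X * ((g⁻¹).1 * g.1) * Y * (g⁻¹).1 := by simp only [Matrix.mul_assoc]
      _ = _ := by rw [slv_inv', Matrix.mul_one]; simp only [Matrix.mul_assoc]
  rw [h, h]

/-- the part of trace zero -/
noncomputable def tz [CharZero k] [Nonempty n] (Y : Matrix n n k) : slL k n :=
  ⟨Y - (Y.trace / Fintype.card n) • (1 : Matrix n n k), by
    show (Y - (Y.trace / Fintype.card n) • (1 : Matrix n n k)).trace = 0
    rw [Matrix.trace_sub, Matrix.trace_smul, Matrix.trace_one, smul_eq_mul,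
      div_mul_cancel₀ _ (Nat.cast_ne_zero.2 Fintype.card_ne_zero), sub_self]⟩

theorem tz_eq [CharZero k] [Nonempty n] (Y : Matrix n n k) :
    Y = (tz Y).1 + (Y.trace / Fintype.card n) • (1 : Matrix n n k) := by
  show Y = (Y - (Y.trace / Fintype.card n) • (1 : Matrix n n k)) + _
  rw [sub_add_cancel]

theorem conj_eq [CharZero k] [Nonempty n] (g : SpecialLinearGroup n k) (Y : Matrix n n k) :
    g.1 * Y * (g⁻¹).1 = (Ads g (tz Y)).1 + (Y.trace / Fintype.card n) • (1 : Matrix n n k) := by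
  conv_lhs => rw [tz_eq Y]
  rw [Matrix.mul_add, Matrix.add_mul, Matrix.mul_smul, Matrix.smul_mul, Matrix.mul_one, slv_inv]
  rfl

theorem Ads_ker [CharZero k] [Nonempty n] {g : SpecialLinearGroup n k} (h : Ads g = 1) :
    g ∈ Subgroup.center (SpecialLinearGroup n k) := by
  rw [Subgroup.mem_center_iff]
  intro x
  have h1 := conj_eq g x.1
  rw [h] at h1
  have h2 : ((1 : Module.End k (slL k n)) (tz x.1)).1 = (tz x.1).1 := rfl
  rw [h2, ← tz_eq] at h1
  apply Subtype.ext
  show x.1 * g.1 = g.1 * x.1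
  have h3 : g.1 * x.1 * (g⁻¹).1 * g.1 = x.1 * g.1 := congrArg (fun Z => Z * g.1) h1
  rw [Matrix.mul_assoc, slv_inv', Matrix.mul_one] at h3
  exact h3.symm

theorem Ads_center {g : SpecialLinearGroup n k}
    (h : g ∈ Subgroup.center (SpecialLinearGroup n k)) : Ads g = 1 := by
  obtain ⟨r, -, hr⟩ := Matrix.SpecialLinearGroup.mem_center_iff.1 h
  have hr' : g.1 = Matrix.scalar n r := hr.symm
  refine LinearMap.ext fun x => Subtype.ext ?_
  rw [Ads_val]
  have h1 : g.1 * x.1 = x.1 * g.1 := by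
    rw [hr']
    exact (Matrix.scalar_commute r (fun _ => Commute.all _ _) x.1)
  rw [h1, Matrix.mul_assoc, slv_inv, Matrix.mul_one]
  rfl

/-- the adjoint representation of `PSL_n(k)` -/
noncomputable def Adp (k : Type) [Field k] (n : Type) [Fintype n] [DecidableEq n] :
    H259.PQ (SpecialLinearGroup n k) →* Module.End k (slL k n) :=
  QuotientGroup.lift _ Ads fun _ hg => Ads_center hg

theorem Adp_mk (g : SpecialLinearGroup n k) : Adp k n (QuotientGroup.mk g) = Ads g := rfl

theorem Adp_inj [CharZero k] [Nonempty n] : Function.Injective (Adp k n) := by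
  rw [injective_iff_map_eq_one]
  intro g hg
  obtain ⟨x, rfl⟩ := QuotientGroup.mk'_surjective _ g
  exact (QuotientGroup.eq_one_iff x).2 (Ads_ker hg)

theorem exp_mem [CharZero k] {x : slL k n} {ψ : slL k n → slL k n} (h : IsExp k x ψ) :
    ∃ g : SpecialLinearGroup n k, ⇑(Ads g) = ψ := by
  obtain ⟨m, hm, hψ⟩ := h
  have hiter : ∀ (i : ℕ) (y : slL k n), (fun z : slL k n => ⁅x, z⁆)^[i] y =
      ((LieAlgebra.ad k (slL k n) x) ^ i) y := by
    intro i
    induction i with
    | zero => intro y; rfl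
    | succ i ih =>
      intro y
      rw [Function.iterate_succ_apply, ih, pow_succ, Module.End.mul_apply, LieAlgebra.ad_apply]
  have h1 : (LieAlgebra.ad k (slL k n) x) ^ m = 0 := LinearMap.ext fun y => by
    rw [← hiter, hm, LinearMap.zero_apply]
  have h2 : IsNilpotent x.1 := sl_nil ⟨m, h1⟩
  have h3 : (LieAlgebra.ad k (Matrix n n k) x.1) ^ (m + 1) = 0 := by
    refine LinearMap.ext fun y => ?_
    have e1 : (⁅x.1, y⁆ : Matrix n n k).trace = 0 := by
      rw [Ring.lie_def, Matrix.trace_sub, Matrix.trace_mul_comm, sub_self]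
    have e2 := sl_pow x ⟨⁅x.1, y⁆, e1⟩ m
    rw [h1] at e2
    rw [pow_succ, Module.End.mul_apply, LieAlgebra.ad_apply]
    exact e2
  obtain ⟨G, hG⟩ : ∃ G : Matrix.SpecialLinearGroup n k, G.1 = H542.Rp.ex k x.1 :=
    ⟨⟨_, det_ex h2⟩, rfl⟩
  obtain ⟨G', hG'⟩ : ∃ G : Matrix.SpecialLinearGroup n k, G.1 = H542.Rp.ex k (-x.1) :=
    ⟨⟨_, det_ex h2.neg⟩, rfl⟩
  have hinv : G⁻¹ = G' := by
    rw [inv_eq_iff_mul_eq_one]
    apply Subtype.ext
    show G.1 * G'.1 = 1
    rw [hG, hG']
    exact H542.Rp.ex_mul_neg h2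
  refine ⟨G, ?_⟩
  funext y
  apply Subtype.ext
  rw [Ads_val, hinv, hG, hG', ← ex_ad h2, H542.Rp.ex_eq_sum h3, Finset.sum_range_succ, LinearMap.add_apply,
    LinearMap.smul_apply, sl_pow, h1, hψ, LinearMap.sum_apply]
  have e3 : ((0 : Module.End k (slL k n)) y).1 = 0 := rfl
  rw [e3, smul_zero, add_zero]
  have e4 : (∑ i ∈ Finset.range m, ((i.factorial : k)⁻¹) • (fun z : slL k n => ⁅x, z⁆)^[i] y).1 =
      ∑ i ∈ Finset.range m, (((i.factorial : k)⁻¹) • (fun z : slL k n => ⁅x, z⁆)^[i] y).1 :=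
    map_sum (slL k n).toSubmodule.subtype _ _
  rw [e4]
  refine Finset.sum_congr rfl fun i _ => ?_
  rw [LinearMap.smul_apply, sl_pow, hiter]
  rfl

end ad

section emb

attribute [local instance 100] LieRing.ofAssociativeRing
attribute [local instance] sl_t2 sl_lc sl_sc

variable {k : Type} [NontriviallyNormedField k] [ProperSpace k] [CharZero k] {n : Type}
  [Fintype n] [DecidableEq n] [Nonempty n] {N : ℕ} (b : Module.Basis (Fin N) k (slL k n))

/-- the matrix coefficients -/
noncomputable def mcf (g : SpecialLinearGroup n k) (i j : Fin N) : k := b.repr (Ads g (b j)) i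

theorem sl_entry (a c : n) : Continuous fun g : SpecialLinearGroup n k => g.1 a c :=
  (continuous_subtype_val (p := fun M : Matrix n n k => M.det = 1)).matrix_elem a c

theorem mcf_cont : Continuous (mcf b) := by
  refine continuous_pi fun i => continuous_pi fun j => ?_
  obtain ⟨l, hl⟩ := (b.coord i).exists_extend (p := (slL k n).toSubmodule)
  have h1 : ∀ g : SpecialLinearGroup n k, mcf b g i j =
      ∑ a, ∑ c, (g.1 * (b j).1 * (g⁻¹).1) a c * l (Matrix.single a c 1) := by
    intro g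
    have h2 : mcf b g i j = l ((Ads g (b j)).1) := by
      have := LinearMap.congr_fun hl (Ads g (b j))
      exact this.symm
    rw [h2, Ads_val]
    conv_lhs => rw [Matrix.matrix_eq_sum_single (g.1 * (b j).1 * (g⁻¹).1)]
    rw [map_sum]
    refine Finset.sum_congr rfl fun a _ => ?_
    rw [map_sum]
    refine Finset.sum_congr rfl fun c _ => ?_
    have h3 : Matrix.single a c ((g.1 * (b j).1 * (g⁻¹).1) a c) =
        ((g.1 * (b j).1 * (g⁻¹).1) a c) • Matrix.single a c (1 : k) := by
      rw [Matrix.smul_single, smul_eq_mul, mul_one]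
    rw [h3, map_smul, smul_eq_mul]
  have h4 : (fun g : SpecialLinearGroup n k => mcf b g i j) = fun g =>
      ∑ a, ∑ c, (g.1 * (b j).1 * (g⁻¹).1) a c * l (Matrix.single a c 1) := funext h1
  rw [h4]
  have h6 : Continuous fun g : SpecialLinearGroup n k => g.1 :=
    continuous_subtype_val (p := fun M : Matrix n n k => M.det = 1)
  have h7 : Continuous fun g : SpecialLinearGroup n k => (g⁻¹).1 :=
    h6.comp (continuous_inv (G := SpecialLinearGroup n k))
  have h5 : Continuous fun g : SpecialLinearGroup n k => g.1 * (b j).1 * (g⁻¹).1 :=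
    (h6.matrix_mul continuous_const).matrix_mul h7
  exact continuous_finset_sum _ fun a _ => continuous_finset_sum _ fun c _ =>
    (h5.matrix_elem a c).mul continuous_const

/-- the entries of the conjugates as functions of the coefficients -/
theorem exists_P (a c : n) : ∃ P : (Fin N → Fin N → k) → Matrix n n k, Continuous P ∧
    ∀ g : SpecialLinearGroup n k, g.1 * Matrix.single a c 1 * (g⁻¹).1 = P (mcf b g) := by
  obtain ⟨y, hy⟩ : ∃ y : slL k n, y = tz (Matrix.single a c (1 : k)) := ⟨_, rfl⟩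
  refine ⟨fun M => (∑ j, ∑ i, (b.repr y j * M i j) • (b i).1) +
    ((Matrix.single a c (1 : k)).trace / Fintype.card n) • (1 : Matrix n n k), ?_, fun g => ?_⟩
  · refine Continuous.add ?_ continuous_const
    refine continuous_finset_sum _ fun j _ => continuous_finset_sum _ fun i _ => ?_
    exact (continuous_const.mul (continuous_apply_apply i j)).smul continuous_const
  · rw [conj_eq, ← hy]
    congr 1
    have h1 : Ads g y = ∑ j, ∑ i, (b.repr y j * mcf b g i j) • b i := by
      conv_lhs => rw [← b.sum_repr y]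
      rw [map_sum]
      refine Finset.sum_congr rfl fun j _ => ?_
      rw [map_smul]
      conv_lhs => rw [← b.sum_repr (Ads g (b j))]
      rw [Finset.smul_sum]
      refine Finset.sum_congr rfl fun i _ => ?_
      rw [smul_smul]
      rfl
    have h2 : ∀ z : slL k n, z.1 = (slL k n).toSubmodule.subtype z := fun _ => rfl
    rw [h2, h1, map_sum]
    refine Finset.sum_congr rfl fun j _ => ?_
    rw [map_sum]
    refine Finset.sum_congr rfl fun i _ => ?_
    rw [map_smul]
    rfl

theorem exists_eps : ∃ ε : ℝ, 0 < ε ∧ ∀ h : Matrix n n k, (∀ a c, ‖h a c‖ < ε) → h.det ≠ 1 := by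
  have h1 : IsOpen {h : n → n → k | (Matrix.of h).det ≠ 1} := by
    have h2 : Continuous fun h : n → n → k => (Matrix.of h).det :=
      Continuous.matrix_det (A := fun h : n → n → k => Matrix.of h) continuous_id
    exact isOpen_ne.preimage h2
  have h0 : (0 : n → n → k) ∈ {h : n → n → k | (Matrix.of h).det ≠ 1} := by
    show (0 : Matrix n n k).det ≠ 1
    rw [Matrix.det_zero]
    exact zero_ne_one
  obtain ⟨ε, hε, hb⟩ := Metric.isOpen_iff.1 h1 0 h0
  refine ⟨ε, hε, fun h hh => ?_⟩
  have h2 : (fun a c => h a c : n → n → k) ∈ Metric.ball (0 : n → n → k) ε :=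
    mem_ball_zero_iff.2 ((pi_norm_lt_iff hε).2 fun a => (pi_norm_lt_iff hε).2 fun c => hh a c)
  exact hb h2

theorem mcf_proper : IsProperMap (mcf b) := by
  rw [isProperMap_iff_isCompact_preimage]
  refine ⟨mcf_cont b, fun C hC => ?_⟩
  choose P hP hPg using fun p : n × n => exists_P b p.1 p.2
  have h1 : Continuous fun M : Fin N → Fin N → k => ∑ p : n × n, ∑ q : n × n, ‖P p M q.1 q.2‖ :=
    continuous_finset_sum _ fun p _ => continuous_finset_sum _ fun q _ =>
      ((hP p).matrix_elem q.1 q.2).norm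
  obtain ⟨B, hB⟩ := hC.exists_bound_of_continuousOn h1.continuousOn
  obtain ⟨ε, hε, hdet⟩ := exists_eps (k := k) (n := n)
  have h2 : IsCompact {M : Matrix n n k | ∀ a c, ‖M a c‖ ≤ B / ε} := by
    have h3 : IsCompact (Set.pi Set.univ fun _ : n => Set.pi Set.univ fun _ : n =>
        Metric.closedBall (0 : k) (B / ε)) :=
      isCompact_univ_pi fun _ => isCompact_univ_pi fun _ => isCompact_closedBall _ _
    refine (congrArg IsCompact ?_).mp h3
    ext M
    simp only [Set.mem_pi, Set.mem_univ, forall_true_left, mem_closedBall_zero_iff]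
    exact Iff.rfl
  have h4 := (sl_emb (m := n) (A := k)).isCompact_preimage h2
  refine h4.of_isClosed_subset (hC.isClosed.preimage (mcf_cont b))
    fun (g : SpecialLinearGroup n k) hg => ?_
  show ∀ a c, ‖g.1 a c‖ ≤ B / ε
  have h5 : ∃ a c, ε ≤ ‖(g⁻¹).1 a c‖ := by
    by_contra hne
    push Not at hne
    exact hdet _ hne (g⁻¹).2
  obtain ⟨a', c', h5⟩ := h5
  intro a c
  have h6 := hB _ hg
  have h7 : ‖g.1 a c‖ * ‖(g⁻¹).1 a' c'‖ ≤ B := by
    rw [Real.norm_of_nonneg (Finset.sum_nonneg fun _ _ => Finset.sum_nonneg fun _ _ =>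
      norm_nonneg _)] at h6
    refine le_trans ?_ h6
    have h8 : ‖P (c, a') (mcf b g) a c'‖ ≤ ∑ q : n × n, ‖P (c, a') (mcf b g) q.1 q.2‖ :=
      Finset.single_le_sum (f := fun q : n × n => ‖P (c, a') (mcf b g) q.1 q.2‖)
        (fun _ _ => norm_nonneg _) (Finset.mem_univ (a, c'))
    have h9 : ∑ q : n × n, ‖P (c, a') (mcf b g) q.1 q.2‖ ≤
        ∑ p : n × n, ∑ q : n × n, ‖P p (mcf b g) q.1 q.2‖ :=
      Finset.single_le_sum (f := fun p : n × n => ∑ q : n × n, ‖P p (mcf b g) q.1 q.2‖)
        (fun _ _ => Finset.sum_nonneg fun _ _ => norm_nonneg _) (Finset.mem_univ (c, a'))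
    refine le_trans (le_of_eq ?_) (h8.trans h9)
    rw [← hPg (c, a') g, ← norm_mul]
    congr 1
    rw [Matrix.mul_assoc, Matrix.mul_apply, Finset.sum_eq_single c]
    · simp [Matrix.single_mul_apply_same]
    · intro x _ hx
      rw [Matrix.single_mul_apply_of_ne _ _ _ _ _ hx, mul_zero]
    · intro h; exact absurd (Finset.mem_univ _) h
  rw [le_div_iff₀ hε]
  exact (mul_le_mul_of_nonneg_left h5 (norm_nonneg _)).trans h7

theorem mcf_emb : IsEmbedding fun (g : H259.PQ (SpecialLinearGroup n k)) (i j : Fin N) =>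
    b.repr (Adp k n g (b j)) i := by
  obtain ⟨Φ, hΦ⟩ : ∃ Φ : H259.PQ (SpecialLinearGroup n k) → Fin N → Fin N → k,
    Φ = fun g i j => b.repr (Adp k n g (b j)) i := ⟨_, rfl⟩
  have h1 : Φ ∘ (QuotientGroup.mk : SpecialLinearGroup n k → _) = mcf b := by rw [hΦ]; rfl
  have hc : Continuous Φ := by
    refine (isQuotientMap_quotient_mk' (s := QuotientGroup.leftRel _)).continuous_iff.2 ?_
    have := mcf_cont b
    rw [← h1] at this
    exact this
  have hi : Function.Injective Φ := by
    intro g h hgh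
    apply Adp_inj (k := k) (n := n)
    refine b.ext fun j => b.repr.injective (Finsupp.ext fun i => ?_)
    rw [hΦ] at hgh
    exact congrFun (congrFun hgh i) j
  have hcl : IsClosedMap Φ := by
    intro C hC
    have h2 : Φ '' C = mcf b '' ((QuotientGroup.mk : SpecialLinearGroup n k → _) ⁻¹' C) := by
      rw [← h1, image_comp, image_preimage_eq _ (QuotientGroup.mk_surjective)]
    rw [h2]
    exact (mcf_proper b).isClosedMap _ (hC.preimage continuous_quotient_mk')
  have h3 := (Topology.IsClosedEmbedding.of_continuous_injective_isClosedMap hc hi hcl).isEmbedding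
  rw [hΦ] at h3
  exact h3

end emb

end Vale.Agent.P092.H677.OK
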