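import Vale.Agent.P092.H677.PLa
import Vale.Agent.P092.H759.SpB

/-!
P092 (helper677), [OKS-SP], part 7: the Lie algebra `sp_{2n}(k)`, `k` of characteristic `0`, is simple;
ad-nilpotent elements are nilpotent; the exponential of a nilpotent element is symplectic.
-/

set_option linter.all false

open Matrix Vale.Agent.P092.H542.Rp

namespace Vale.Agent.P092.H677.SP

open Vale.Agent.P092.H759 (om om_eq om_add_left om_add_right om_smul_left om_smul_right om_neg_left
  om_neg_right om_sub_left om_sub_right om_self om_zero_left om_zero_right om_swap om_single_inl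
  om_single_inr mem_of_om mul_mulVec one_mulVec' sp_ext)

attribute [local instance 100] LieRing.ofAssociativeRing

variable {k : Type} [Field k] {m : Type} [Fintype m] [DecidableEq m]

theorem mat_ext {A B : Matrix (m ⊕ m) (m ⊕ m) k} (h : ∀ y, A *ᵥ y = B *ᵥ y) : A = B :=
  Matrix.ext_of_mulVec_single fun i => h _

theorem exists_om' {v : m ⊕ m → k} (hv : v ≠ 0) : ∃ y, om v y ≠ 0 := by
  by_contra hcon
  push Not at hcon
  apply hv
  funext i
  rcases i with i | i
  · have := hcon (Pi.single (Sum.inr i) 1)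
    rw [om_swap, om_single_inr, neg_eq_zero] at this
    exact this
  · have := hcon (Pi.single (Sum.inl i) 1)
    rw [om_swap, om_single_inl, neg_neg] at this
    exact this

theorem exists_two {u v : m ⊕ m → k} (hu : u ≠ 0) (hv : v ≠ 0) : ∃ w, om u w ≠ 0 ∧ om v w ≠ 0 := by
  obtain ⟨y, hy⟩ := exists_om' hu
  obtain ⟨z, hz⟩ := exists_om' hv
  by_cases h1 : om v y = 0
  · by_cases h2 : om u z = 0
    · refine ⟨y + z, ?_, ?_⟩
      · rw [om_add_right, h2, add_zero]; exact hy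
      · rw [om_add_right, h1, zero_add]; exact hz
    · exact ⟨z, h2, hz⟩
  · exact ⟨y, hy, h1⟩

variable (k m) in
/-- the Lie algebra `sp` -/
def spL : LieSubalgebra k (Matrix (m ⊕ m) (m ⊕ m) k) where
  carrier := {X | ∀ u v, om (X *ᵥ u) v = - om u (X *ᵥ v)}
  add_mem' := by
    intro X Y hX hY u v
    rw [Matrix.add_mulVec, Matrix.add_mulVec, om_add_left, om_add_right, hX, hY]
    ring
  zero_mem' := by
    intro u v
    rw [Matrix.zero_mulVec, Matrix.zero_mulVec, om_zero_left, om_zero_right, neg_zero]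
  smul_mem' := by
    intro c X hX u v
    rw [Matrix.smul_mulVec, Matrix.smul_mulVec, om_smul_left, om_smul_right, hX]
    ring
  lie_mem' := by
    intro X Y hX hY u v
    rw [Ring.lie_def, Matrix.sub_mulVec, Matrix.sub_mulVec, ← Matrix.mulVec_mulVec,
      ← Matrix.mulVec_mulVec, ← Matrix.mulVec_mulVec, ← Matrix.mulVec_mulVec, om_sub_left,
      om_sub_right, hX, hY, hY, hX]
    ring

theorem spL_om (x : spL k m) (u v : m ⊕ m → k) : om (x.1 *ᵥ u) v = - om u (x.1 *ᵥ v) := x.2 u v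

theorem spL_lie (x y : spL k m) (v : m ⊕ m → k) :
    (⁅x, y⁆ : spL k m).1 *ᵥ v = x.1 *ᵥ (y.1 *ᵥ v) - y.1 *ᵥ (x.1 *ᵥ v) := by
  rw [LieSubalgebra.coe_bracket, Ring.lie_def, Matrix.sub_mulVec, Matrix.mulVec_mulVec,
    Matrix.mulVec_mulVec]

theorem spL_ext {x y : spL k m} (h : ∀ v, x.1 *ᵥ v = y.1 *ᵥ v) : x = y :=
  Subtype.ext (mat_ext h)

/-- `y ↦ ω(u, y) v + ω(v, y) u` -/
def XX (u v : m ⊕ m → k) : Matrix (m ⊕ m) (m ⊕ m) k :=
  LinearMap.toMatrix'
    { toFun := fun y => om u y • v + om v y • u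
      map_add' := fun y z => by
        rw [om_add_right, om_add_right, add_smul, add_smul]
        abel
      map_smul' := fun c y => by
        rw [om_smul_right, om_smul_right, RingHom.id_apply, smul_add, smul_smul, smul_smul] }

theorem XX_mulVec (u v y : m ⊕ m → k) : XX u v *ᵥ y = om u y • v + om v y • u := by
  unfold XX
  rw [LinearMap.toMatrix'_mulVec]
  rfl

/-- the generators of `sp` -/
def spX (u v : m ⊕ m → k) : spL k m := ⟨XX u v, fun a b => by
  rw [XX_mulVec, XX_mulVec, om_add_left, om_add_right, om_smul_left, om_smul_left, om_smul_right,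
    om_smul_right, om_swap a v, om_swap a u]
  ring⟩

theorem spX_mulVec (u v y : m ⊕ m → k) : (spX u v).1 *ᵥ y = om u y • v + om v y • u :=
  XX_mulVec u v y

theorem br_spX (x : spL k m) (u v : m ⊕ m → k) :
    ⁅x, spX u v⁆ = spX (x.1 *ᵥ u) v + spX u (x.1 *ᵥ v) := by
  refine spL_ext fun y => ?_
  have h : (spX (x.1 *ᵥ u) v + spX u (x.1 *ᵥ v)).1 =
      (spX (x.1 *ᵥ u) v).1 + (spX u (x.1 *ᵥ v)).1 := rfl
  rw [spL_lie, h, Matrix.add_mulVec, spX_mulVec, spX_mulVec, spX_mulVec, spX_mulVec,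
    Matrix.mulVec_add, Matrix.mulVec_smul, Matrix.mulVec_smul, spL_om, spL_om]
  funext i
  simp only [Pi.add_apply, Pi.sub_apply, Pi.smul_apply, smul_eq_mul]
  ring

theorem spX_comm (u v : m ⊕ m → k) : spX u v = spX v u := by
  refine spL_ext fun y => ?_
  rw [spX_mulVec, spX_mulVec, add_comm]

theorem spX_smul (c : k) (u v : m ⊕ m → k) : spX (c • u) v = c • spX u v := by
  refine spL_ext fun y => ?_
  have h : (c • spX u v).1 = c • (spX u v).1 := rfl
  rw [h, Matrix.smul_mulVec, spX_mulVec, spX_mulVec, om_smul_left]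
  funext i
  simp only [Pi.add_apply, Pi.smul_apply, smul_eq_mul]
  ring

theorem spX_smul' (c : k) (u v : m ⊕ m → k) : spX u (c • v) = c • spX u v := by
  rw [spX_comm, spX_smul, spX_comm]

theorem spX_add (u u' v : m ⊕ m → k) : spX (u + u') v = spX u v + spX u' v := by
  refine spL_ext fun y => ?_
  have h : (spX u v + spX u' v).1 = (spX u v).1 + (spX u' v).1 := rfl
  rw [h, Matrix.add_mulVec, spX_mulVec, spX_mulVec, spX_mulVec, om_add_left]
  funext i
  simp only [Pi.add_apply, Pi.smul_apply, smul_eq_mul]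
  ring

theorem spX_add' (u v v' : m ⊕ m → k) : spX u (v + v') = spX u v + spX u v' := by
  rw [spX_comm, spX_add, spX_comm v, spX_comm v']

theorem spX_self (v u : m ⊕ m → k) : (spX v v).1 *ᵥ u = (2 * om v u) • v := by
  rw [spX_mulVec, ← add_smul]
  congr 1
  ring

theorem vec_dec (y : m ⊕ m → k) : y = ∑ i, (om (Pi.single (Sum.inr i) 1) y •
    (Pi.single (Sum.inl i) 1 : m ⊕ m → k) - om (Pi.single (Sum.inl i) 1) y •
    (Pi.single (Sum.inr i) 1 : m ⊕ m → k)) := by
  funext j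
  rw [Finset.sum_apply]
  simp only [om_single_inl, om_single_inr, Pi.sub_apply, Pi.smul_apply, smul_eq_mul]
  rcases j with j | j
  · rw [Finset.sum_eq_single j]
    · simp
    · intro i _ hi
      simp [hi.symm]
    · simp
  · rw [Finset.sum_eq_single j]
    · simp
    · intro i _ hi
      simp [hi.symm]
    · simp

theorem two_smul_eq (x : spL k m) : (2 : k) • x = ∑ i : m,
    (spX (Pi.single (Sum.inr i) 1) (x.1 *ᵥ Pi.single (Sum.inl i) 1) -
      spX (Pi.single (Sum.inl i) 1) (x.1 *ᵥ Pi.single (Sum.inr i) 1)) := by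
  refine spL_ext fun y => ?_
  have h1 : ((2 : k) • x).1 = (2 : k) • x.1 := rfl
  have h2 : (∑ i : m, (spX (Pi.single (Sum.inr i) 1) (x.1 *ᵥ Pi.single (Sum.inl i) 1) -
      spX (Pi.single (Sum.inl i) 1) (x.1 *ᵥ Pi.single (Sum.inr i) 1))).1 =
      ∑ i : m, ((spX (Pi.single (Sum.inr i) 1) (x.1 *ᵥ Pi.single (Sum.inl i) 1) -
      spX (Pi.single (Sum.inl i) 1) (x.1 *ᵥ Pi.single (Sum.inr i) 1) : spL k m)).1 :=
    map_sum (spL k m).toSubmodule.subtype _ _
  have h3 : ∀ i : m, ((spX (Pi.single (Sum.inr i) 1) (x.1 *ᵥ Pi.single (Sum.inl i) 1) -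
      spX (Pi.single (Sum.inl i) 1) (x.1 *ᵥ Pi.single (Sum.inr i) 1) : spL k m)).1 *ᵥ y =
      (om (Pi.single (Sum.inr i) 1) y • (x.1 *ᵥ Pi.single (Sum.inl i) 1) -
        om (Pi.single (Sum.inl i) 1) y • (x.1 *ᵥ Pi.single (Sum.inr i) 1)) +
      (om (Pi.single (Sum.inr i) 1) (x.1 *ᵥ y) • (Pi.single (Sum.inl i) 1 : m ⊕ m → k) -
        om (Pi.single (Sum.inl i) 1) (x.1 *ᵥ y) • (Pi.single (Sum.inr i) 1 : m ⊕ m → k)) := by
    intro i
    have h4 : ((spX (Pi.single (Sum.inr i) 1) (x.1 *ᵥ Pi.single (Sum.inl i) 1) -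
      spX (Pi.single (Sum.inl i) 1) (x.1 *ᵥ Pi.single (Sum.inr i) 1) : spL k m)).1 =
      (spX (Pi.single (Sum.inr i) 1) (x.1 *ᵥ Pi.single (Sum.inl i) 1)).1 -
      (spX (Pi.single (Sum.inl i) 1) (x.1 *ᵥ Pi.single (Sum.inr i) 1)).1 := rfl
    rw [h4, Matrix.sub_mulVec, spX_mulVec, spX_mulVec, spL_om, spL_om]
    funext j
    simp only [Pi.add_apply, Pi.sub_apply, Pi.smul_apply, smul_eq_mul]
    ring
  rw [h1, h2, Matrix.smul_mulVec, Matrix.sum_mulVec, Finset.sum_congr rfl fun i _ => h3 i,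
    Finset.sum_add_distrib, ← vec_dec (x.1 *ᵥ y), two_smul]
  congr 1
  conv_lhs => rw [vec_dec y, Matrix.mulVec_sum]
  refine Finset.sum_congr rfl fun i _ => ?_
  rw [Matrix.mulVec_sub, Matrix.mulVec_smul, Matrix.mulVec_smul]

section simple

variable [CharZero k] (I : LieIdeal k (spL k m))

theorem smul_mem_iff' {c : k} (hc : c ≠ 0) {x : spL k m} (h : c • x ∈ I) : x ∈ I := by
  have h3 := I.smul_mem c⁻¹ h
  rwa [smul_smul, inv_mul_cancel₀ hc, one_smul] at h3

theorem step_mem {u v : m ⊕ m → k} (h : spX u u ∈ I) (huv : om u v ≠ 0) : spX v v ∈ I := by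
  have hvu : om v u ≠ 0 := by rw [om_swap]; exact neg_ne_zero.2 huv
  have h1 : ⁅spX v v, spX u u⁆ ∈ I := lie_mem_right k (spL k m) I _ _ h
  rw [br_spX, spX_self, spX_smul, spX_smul', spX_comm v u, ← add_smul] at h1
  have h2 : spX u v ∈ I := smul_mem_iff' I (by
    rw [← two_mul]
    exact mul_ne_zero two_ne_zero (mul_ne_zero two_ne_zero hvu)) h1
  have h3 : ⁅spX v v, spX u v⁆ ∈ I := lie_mem_right k (spL k m) I _ _ h2
  rw [br_spX, spX_self, spX_self, om_self, mul_zero, zero_smul, spX_smul] at h3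
  have h4 : spX u (0 : m ⊕ m → k) = 0 := by
    have := spX_smul' (0 : k) u 0
    rwa [zero_smul, zero_smul] at this
  rw [h4, add_zero] at h3
  exact smul_mem_iff' I (mul_ne_zero two_ne_zero hvu) h3

theorem all_mem {u : m ⊕ m → k} (hu : u ≠ 0) (h : spX u u ∈ I) (v : m ⊕ m → k) :
    spX v v ∈ I := by
  by_cases hv : v = 0
  · have h4 : spX v v = 0 := by
      have := spX_smul (0 : k) 0 v
      rwa [zero_smul, zero_smul, ← hv] at this
    rw [h4]
    exact I.zero_mem
  · obtain ⟨w, h1, h2⟩ := exists_two hu hv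
    exact step_mem I (step_mem I h h1) (by rw [om_swap]; exact neg_ne_zero.2 h2)

theorem eq_top_of {u : m ⊕ m → k} (hu : u ≠ 0) (h : spX u u ∈ I) : I = ⊤ := by
  have h1 := all_mem I hu h
  have h2 : ∀ u v, spX u v ∈ I := by
    intro u v
    have h3 := I.sub_mem (I.sub_mem (h1 (u + v)) (h1 u)) (h1 v)
    have h4 : spX (u + v) (u + v) - spX u u - spX v v = (2 : k) • spX u v := by
      rw [spX_add, spX_add', spX_add', spX_comm v u, two_smul]
      abel
    rw [h4] at h3
    exact smul_mem_iff' I two_ne_zero h3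
  rw [eq_top_iff]
  intro x _
  refine smul_mem_iff' I two_ne_zero (x := x) ?_
  rw [two_smul_eq]
  exact I.sum_mem fun i _ => I.sub_mem (h2 _ _) (h2 _ _)

theorem bot_or_top : I = ⊥ ∨ I = ⊤ := by
  by_cases hI : I = ⊥
  · exact Or.inl hI
  right
  obtain ⟨x, hx, hx0⟩ : ∃ X ∈ I, X ≠ 0 := by
    by_contra hcon
    push Not at hcon
    exact hI ((LieSubmodule.eq_bot_iff _).2 hcon)
  obtain ⟨u, hu⟩ : ∃ u, om (x.1 *ᵥ u) u ≠ 0 := by
    by_contra hcon
    push Not at hcon
    apply hx0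
    refine spL_ext fun u => ?_
    have h0 : (0 : spL k m).1 *ᵥ u = 0 := Matrix.zero_mulVec u
    rw [h0]
    by_contra hne
    obtain ⟨v, hv⟩ := exists_om' hne
    have h1 := hcon (u + v)
    rw [Matrix.mulVec_add, om_add_left, om_add_right, om_add_right, hcon, hcon, spL_om x v u,
      om_swap v] at h1
    apply hv
    have h2 : (2 : k) * om (x.1 *ᵥ u) v = 0 := by linear_combination h1
    exact (mul_eq_zero.1 h2).resolve_left two_ne_zero
  have hu0 : u ≠ 0 := by
    rintro rfl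
    exact hu (om_zero_right _)
  refine eq_top_of I hu0 ?_
  have h1 : ⁅⁅x, spX u u⁆, spX u u⁆ ∈ I :=
    lie_mem_left k (spL k m) I _ _ (lie_mem_left k (spL k m) I _ _ hx)
  have h2 : (⁅x, spX u u⁆ : spL k m).1 *ᵥ u = (2 * om (x.1 *ᵥ u) u) • u := by
    rw [spL_lie, spX_self, spX_self, om_self, mul_zero, zero_smul, Matrix.mulVec_zero, zero_sub,
      ← neg_smul]
    congr 1
    rw [om_swap u]
    ring
  rw [br_spX, h2, spX_smul, spX_smul', ← add_smul] at h1
  exact smul_mem_iff' I (by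
    rw [← two_mul]
    exact mul_ne_zero two_ne_zero (mul_ne_zero two_ne_zero hu)) h1

theorem isSimple_sp [CharZero k] [Nonempty m] : LieAlgebra.IsSimple k (spL k m) := by
  refine ⟨bot_or_top, fun hab => ?_⟩
  obtain ⟨i⟩ := (inferInstance : Nonempty m)
  obtain ⟨e, he⟩ : ∃ e : m ⊕ m → k, e = Pi.single (Sum.inl i) 1 := ⟨_, rfl⟩
  obtain ⟨f, hf⟩ : ∃ f : m ⊕ m → k, f = Pi.single (Sum.inr i) 1 := ⟨_, rfl⟩
  have hfe : om f e = 1 := by rw [hf, om_single_inr, he, Pi.single_eq_same]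
  have hef : om e f = -1 := by rw [om_swap, hfe]
  have h1 : (⁅spX f f, spX e e⁆ : spL k m) = 0 := trivial_lie_zero (spL k m) (spL k m) _ _
  have h2 : om f ((⁅spX f f, spX e e⁆ : spL k m).1 *ᵥ e) = 0 := by
    rw [h1]
    have h0 : (0 : spL k m).1 *ᵥ e = 0 := Matrix.zero_mulVec e
    rw [h0, om_zero_right]
  have h3 : (spX e e).1 *ᵥ e = 0 := by rw [spX_self, om_self, mul_zero, zero_smul]
  have h4 : (spX e e).1 *ᵥ ((spX f f).1 *ᵥ e) = (-4 : k) • e := by
    rw [spX_self f e, hfe, Matrix.mulVec_smul, spX_self, hef, smul_smul]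
    congr 1
    norm_num
  rw [spL_lie, h3, h4, Matrix.mulVec_zero, zero_sub, om_neg_right, om_smul_right, hfe] at h2
  norm_num at h2

end simple

end Vale.Agent.P092.H677.SP
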