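import Vale.Agent.P092.H677.SPd
import Vale.Agent.P092.H677.OKp

/-!
P092 (helper677), [OKS-SP], part 5: `Sp_{2n}` of a field is generated by the transvections; strong
approximation for `Sp_{2n}` at the places of `S`.
-/

set_option linter.all false

open Matrix NumberField IsDedekindDomain Filter Topology
open scoped NNReal nonZeroDivisors

namespace Vale.Agent.P092.H677.SP

open Vale.Agent.P092.H759 (om om_eq om_add_left om_add_right om_smul_left om_smul_right om_neg_left
  om_neg_right om_self om_zero_left om_zero_right om_emb om_e0 om_swap tS tS_mulVec mul_mulVec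
  one_mulVec' sp_ext mp mp_tS e0 f0 emb prj emb_smul emb_add emb_zero ioS heS ioS_mulVec ioS_mul ioS_one
  heS_mulVec heS_mul exists_coord' exists_move mulVec_ne_zero e0_ne_zero rx rx_rx prj_emb prj_e0
  emb_inr decomp vec_ext)
open Vale.Agent.P092.H678.P (heS_zl ioH)
open Vale.Agent.P092.H677.OK (Kv ev norm_ev av_int kv_add cpt_ball approx_S int_of norm_sum_le)

section gen

variable {k : Type} [Field k]

theorem ioS_tS {l : Type} [Fintype l] [DecidableEq l] (v : l ⊕ l → k) (c : k) :
    ioS (tS v c) = tS (emb v) c := by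
  refine sp_ext fun y => ?_
  rw [ioS_mulVec, tS_mulVec, tS_mulVec, om_emb, emb_add, emb_smul, ← add_assoc, ← decomp]

theorem heS_tS {l : Type} [Fintype l] [DecidableEq l] (b : l ⊕ l → k) (c : k) :
    heS b c = tS (e0 + emb b) (-1) * tS e0 1 * tS (emb b) 1 * tS e0 (-c) := by
  have h1 : heS b c = heS b 0 * heS 0 c := by
    rw [heS_mul, om_zero_left, add_zero, add_zero, zero_add]
  rw [h1, heS_zl]
  congr 1
  refine sp_ext fun y => ?_
  simp only [mul_mulVec, tS_mulVec, heS_mulVec, om_add_left, om_add_right, om_smul_left,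
    om_smul_right, om_self, om_emb, om_e0, emb_inr, prj_emb, prj_e0, om_zero_right]
  rw [om_swap b (prj y)]
  have h2 : ∀ (s t : k), s • (e0 : Option l ⊕ Option l → k) = t • e0 → True := fun _ _ _ => trivial
  funext i
  simp only [Pi.add_apply, Pi.smul_apply, smul_eq_mul]
  ring

theorem rx_tS {l m : Type} [Fintype l] [DecidableEq l] [Fintype m] [DecidableEq m] (e : l ≃ m)
    (v : m ⊕ m → k) (c : k) : rx e (tS v c) = tS (v ∘ Equiv.sumCongr e e) c := by
  have h : ∀ (A : symplecticGroup m k) (y : l ⊕ l → k), (rx e A).1 *ᵥ y =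
      (A.1 *ᵥ (y ∘ (Equiv.sumCongr e e).symm)) ∘ (Equiv.sumCongr e e) := by
    intro A y
    show (A.1.submatrix (Equiv.sumCongr e e) (Equiv.sumCongr e e)) *ᵥ y = _
    exact Matrix.submatrix_mulVec_equiv _ _ _ _
  refine sp_ext fun y => ?_
  rw [h, tS_mulVec, tS_mulVec]
  have h2 : om v (y ∘ (Equiv.sumCongr e e).symm) = om (v ∘ Equiv.sumCongr e e) y := by
    rw [om_eq, om_eq, ← Equiv.sum_comp e]
    simp
  rw [h2]
  funext i
  simp

/-- **`Sp_{2n}(k)` is generated by the transvections.** -/
theorem eq_top_of_tS (m : Type) [Fintype m] [DecidableEq m] (H : Subgroup (symplecticGroup m k))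
    (h : ∀ v c, tS v c ∈ H) : H = ⊤ := by
  classical
  have tr : ∀ {l m : Type} [Fintype l] [DecidableEq l] [Fintype m] [DecidableEq m] (e : l ≃ m),
      (∀ H : Subgroup (symplecticGroup m k), (∀ v c, tS v c ∈ H) → H = ⊤) →
        ∀ H : Subgroup (symplecticGroup l k), (∀ v c, tS v c ∈ H) → H = ⊤ := by
    intro l m _ _ _ _ e hm H hH
    have h1 := hm (H.comap (rx e)) fun v c => by
      rw [Subgroup.mem_comap, rx_tS]
      exact hH _ _
    rw [eq_top_iff]
    intro A _
    have h2 : rx e.symm A ∈ H.comap (rx e) := by rw [h1]; exact Subgroup.mem_top _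
    rw [Subgroup.mem_comap] at h2
    have h3 : rx e (rx e.symm A) = A := rx_rx e.symm A
    rwa [h3] at h2
  have step : ∀ {l : Type} [Fintype l] [DecidableEq l],
      (∀ H : Subgroup (symplecticGroup l k), (∀ v c, tS v c ∈ H) → H = ⊤) →
        ∀ H : Subgroup (symplecticGroup (Option l) k), (∀ v c, tS v c ∈ H) → H = ⊤ := by
    intro l _ _ hl H hH
    have h1 := hl (H.comap (ioH l k)) fun v c => by
      rw [Subgroup.mem_comap]
      show ioS (tS v c) ∈ H
      rw [ioS_tS]
      exact hH _ _
    have h2 : ∀ S : symplecticGroup l k, ioS S ∈ H := fun S => by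
      have : S ∈ H.comap (ioH l k) := by rw [h1]; exact Subgroup.mem_top _
      exact this
    have h3 : ∀ (b : l ⊕ l → k) c, heS b c ∈ H := fun b c => by
      rw [heS_tS]
      exact H.mul_mem (H.mul_mem (H.mul_mem (hH _ _) (hH _ _)) (hH _ _)) (hH _ _)
    have h4 : ∀ g : symplecticGroup (Option l) k, (g.1 *ᵥ e0) (Sum.inl none) ≠ 0 → g ∈ H := by
      intro g hg
      obtain ⟨S, b, c, h⟩ := exists_coord' g hg
      rw [h]
      exact H.mul_mem (H.mul_mem (hH _ _) (hH _ _)) (H.mul_mem (h2 _) (h3 _ _))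
    rw [eq_top_iff]
    intro g _
    by_cases hg : (g.1 *ᵥ e0) (Sum.inl none) = 0
    · obtain ⟨w, hw, how⟩ := exists_move (mulVec_ne_zero g e0_ne_zero)
      have h5 := h4 (tS w 1 * g) (by
        rw [mul_mulVec, tS_mulVec, Pi.add_apply, hg, zero_add, Pi.smul_apply, one_mul, smul_eq_mul]
        exact mul_ne_zero how hw)
      exact (Subgroup.mul_mem_cancel_left H (hH _ _)).1 h5
    · exact h4 g hg
  have hn : ∀ n : ℕ, ∀ H : Subgroup (symplecticGroup (Fin n) k), (∀ v c, tS v c ∈ H) → H = ⊤ := by
    intro n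
    induction n with
    | zero =>
      intro H _
      rw [eq_top_iff]
      intro A _
      have : A = 1 := Subtype.ext (Subsingleton.elim _ _)
      rw [this]
      exact H.one_mem
    | succ n ih => exact tr (finSuccEquiv n) (step ih)
  exact tr (Fintype.equivFin m) (hn _) H h

end gen

section strong

variable (K : Type) [Field K] [NumberField K] (S : Set (HeightOneSpectrum (𝓞 K)))
  (m : Type) [Fintype m] [DecidableEq m]

attribute [local instance] sp_t2 sp_lc sp_sc sp_pol sp_itg

/-- `Sp_{2n}` of the `S`-integers in the product over `S` -/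
noncomputable def q2 : symplecticGroup m (S.integer K) →* ∀ v : S, symplecticGroup m (Kv K v) :=
  MonoidHom.pi fun v => mp (OK.of K S v)

/-- the matrices with entries of norm `≤ 1` -/
def UU (v : HeightOneSpectrum (𝓞 K)) : Set (symplecticGroup m (Kv K v)) :=
  {g | ∀ i j, ‖g.1 i j‖ ≤ 1}

theorem UU_open (v : HeightOneSpectrum (𝓞 K)) : IsOpen (UU K m v) := by
  rw [UU, Set.setOf_forall]
  refine isOpen_iInter_of_finite fun i => ?_
  rw [Set.setOf_forall]
  refine isOpen_iInter_of_finite fun j => ?_
  have h0 : Continuous fun x : symplecticGroup m (Kv K v) => x.1 i j :=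
    continuous_subtype_val.matrix_elem i j
  have h1 : IsOpen (Metric.closedBall (0 : Kv K v) 1) :=
    IsUltrametricDist.isOpen_closedBall _ one_ne_zero
  have h2 := h1.preimage h0
  refine (congrArg IsOpen ?_).mp h2
  ext x
  rw [Set.mem_preimage, mem_closedBall_zero_iff]
  rfl

theorem UU_cpt (v : HeightOneSpectrum (𝓞 K)) : IsCompact (UU K m v) := by
  have h1 : IsCompact {M : Matrix (m ⊕ m) (m ⊕ m) (Kv K v) | ∀ i j, ‖M i j‖ ≤ 1} := by
    have h2 : IsCompact (Set.pi Set.univ fun _ : m ⊕ m => Set.pi Set.univ fun _ : m ⊕ m =>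
        Metric.closedBall (0 : Kv K v) 1) :=
      isCompact_univ_pi fun _ => isCompact_univ_pi fun _ => cpt_ball K v
    refine (congrArg IsCompact ?_).mp h2
    ext M
    simp only [Set.mem_pi, Set.mem_univ, forall_true_left, mem_closedBall_zero_iff]
    exact Iff.rfl
  exact (sp_emb (l := m) (A := Kv K v)).isCompact_preimage h1

theorem UU_mul {v : HeightOneSpectrum (𝓞 K)} {g h : symplecticGroup m (Kv K v)}
    (hg : g ∈ UU K m v) (hh : h ∈ UU K m v) : g * h ∈ UU K m v := by
  intro i j
  show ‖(g.1 * h.1) i j‖ ≤ 1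
  rw [Matrix.mul_apply]
  refine norm_sum_le K _ _ fun k _ => ?_
  rw [norm_mul]
  exact mul_le_one₀ (hg i k) (norm_nonneg _) (hh k j)

theorem UU_one (v : HeightOneSpectrum (𝓞 K)) : (1 : symplecticGroup m (Kv K v)) ∈ UU K m v := by
  intro i j
  show ‖(1 : Matrix (m ⊕ m) (m ⊕ m) (Kv K v)) i j‖ ≤ 1
  by_cases h : i = j
  · subst h; rw [one_apply_eq, norm_one]
  · rw [one_apply_ne h, norm_zero]; exact zero_le_one

theorem UU_int (v : HeightOneSpectrum (𝓞 K)) (δ : symplecticGroup m (𝓞 K)) :
    mp ((ev K v).comp (algebraMap (𝓞 K) K)) δ ∈ UU K m v := by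
  intro i j
  show ‖ev K v (algebraMap (𝓞 K) K (δ.1 i j))‖ ≤ 1
  rw [norm_ev]
  exact av_int K v _

/-- **Strong approximation** at the places of `S`. -/
theorem strong [Finite S] : (q2 K S m).range.topologicalClosure = ⊤ := by
  classical
  haveI : Fintype S := Fintype.ofFinite _
  obtain ⟨H, hH⟩ : ∃ H, H = (q2 K S m).range.topologicalClosure := ⟨_, rfl⟩
  have h1 : ∀ v : S, H.comap
      (MonoidHom.mulSingle (fun v : S => symplecticGroup m (Kv K v)) v) = ⊤ := by
    intro v
    refine eq_top_of_tS _ _ fun u c => ?_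
    rw [Subgroup.mem_comap]
    obtain ⟨p, hp⟩ : ∃ p : ∀ w : S, (m ⊕ m → Kv K w) × Kv K w, p = Pi.single v (u, c) := ⟨_, rfl⟩
    -- approximate
    have h2 : (Pi.mulSingle v (tS u c) : ∀ v : S, symplecticGroup m (Kv K v)) ∈
        closure (Set.range fun y : (m ⊕ m → S.integer K) × S.integer K => fun w : S =>
          tS (fun i => OK.of K S w (y.1 i)) (OK.of K S w y.2)) := by
      have h3 : p ∈ closure (Set.range fun y : (m ⊕ m → S.integer K) × S.integer K =>
          fun w : S => ((fun i => OK.of K S w (y.1 i) : m ⊕ m → Kv K w), OK.of K S w y.2)) := by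
        rw [Metric.mem_closure_iff]
        intro ε hε
        choose y hy using fun i => approx_S K S (fun w => (p w).1 i) hε
        obtain ⟨z, hz⟩ := approx_S K S (fun w => (p w).2) hε
        refine ⟨_, ⟨(y, z), rfl⟩, ?_⟩
        rw [dist_pi_lt_iff hε]
        intro w
        rw [Prod.dist_eq, max_lt_iff]
        constructor
        · rw [dist_pi_lt_iff hε]
          intro i
          rw [dist_eq_norm]
          exact hy i w
        · rw [dist_eq_norm]
          exact hz w
      have h4 : Continuous fun x : ∀ w : S, (m ⊕ m → Kv K w) × Kv K w => fun w : S =>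
          (tS (x w).1 (x w).2 : symplecticGroup m (Kv K w)) :=
        continuous_pi fun w => cont_tS.comp (continuous_apply w)
      have h5 := image_closure_subset_closure_image h4 ⟨_, h3, rfl⟩
      rw [← Set.range_comp] at h5
      have h6 : (fun w : S => (tS (p w).1 (p w).2 : symplecticGroup m (Kv K w))) =
          Pi.mulSingle v (tS u c) := by
        funext w
        by_cases hw : w = v
        · subst hw
          rw [hp, Pi.single_eq_same, Pi.mulSingle_eq_same]
        · rw [hp, Pi.single_eq_of_ne hw, Pi.mulSingle_eq_of_ne hw]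
          refine sp_ext fun y => ?_
          rw [tS_mulVec, one_mulVec']
          simp
      rw [← h6]
      exact h5
    rw [hH]
    refine closure_mono ?_ h2
    rintro _ ⟨y, rfl⟩
    refine ⟨tS y.1 y.2, ?_⟩
    funext w
    exact mp_tS _ _ _
  rw [← hH, eq_top_iff]
  intro x _
  refine Subgroup.pi_mem_of_mulSingle_mem x fun v => ?_
  have h2 : x v ∈ H.comap
      (MonoidHom.mulSingle (fun v : S => symplecticGroup m (Kv K v)) v) := by
    rw [h1]; exact Subgroup.mem_top _
  exact h2

theorem strong' [Finite S] (y : ∀ v : S, symplecticGroup m (Kv K v)) :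
    ∃ γ : symplecticGroup m (S.integer K), ∀ v : S, y v * q2 K S m γ v ∈ UU K m v := by
  have h1 : IsOpen {g : ∀ v : S, symplecticGroup m (Kv K v) |
      ∀ v : S, y v * g v ∈ UU K m v} := by
    rw [Set.setOf_forall]
    refine isOpen_iInter_of_finite fun v => ?_
    exact (UU_open K m v).preimage (continuous_const.mul (continuous_apply v))
  have h2 : y⁻¹ ∈ closure ((q2 K S m).range : Set (∀ v : S, symplecticGroup m (Kv K v))) := by
    have h3 : y⁻¹ ∈ (q2 K S m).range.topologicalClosure := by
      rw [strong]; exact Subgroup.mem_top _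
    exact h3
  obtain ⟨_, hx, ⟨γ, rfl⟩⟩ := mem_closure_iff.1 h2 _ h1 (fun v => by
    rw [Pi.inv_apply, mul_inv_cancel]
    exact UU_one K _ _)
  exact ⟨γ, hx⟩

end strong

end Vale.Agent.P092.H677.SP
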