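import Vale.Agent.P092.H677.PMa
import Vale.Agent.P092.H677.SPe
import Vale.Agent.P092.H35.Rp.ClsQ
import Vale.Agent.P092.H678.P.EuC

/-!
P092 (helper677), [OKS-SP], part 8: the adjoint representation of `PSp_{2n}(k)`; exponentials.
-/

set_option linter.all false

open Matrix Vale.Agent.P092.H542.Rp Set Filter Topology

namespace Vale.Agent.P092.H677.SP

open Vale.Agent.P092.H759 (om om_eq om_add_left om_add_right om_smul_left om_smul_right om_neg_left
  om_neg_right om_sub_left om_sub_right om_self om_zero_left om_zero_right om_swap om_single_inl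
  om_single_inr mem_of_om mul_mulVec one_mulVec' sp_ext om_mulVec' inv_mulVec mulVec_inv tS
  tS_mulVec)
open Vale.Agent.P092.H35.Rp (IsExp IsLie)
open Vale.Agent.P092.H677.OK (mat_nil ex_ad)

attribute [local instance 100] LieRing.ofAssociativeRing

section nil

variable {k : Type} [Field k] {m : Type} [Fintype m] [DecidableEq m]

/-- the derivation `ad X` kills products -/
theorem ad_prod (X : Matrix (m ⊕ m) (m ⊕ m) k) : ∀ (s p q : ℕ), p + q = s →
    ∀ a b : Matrix (m ⊕ m) (m ⊕ m) k, (LieAlgebra.ad k (Matrix (m ⊕ m) (m ⊕ m) k) X ^ p) a = 0 →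
      (LieAlgebra.ad k (Matrix (m ⊕ m) (m ⊕ m) k) X ^ q) b = 0 →
      (LieAlgebra.ad k (Matrix (m ⊕ m) (m ⊕ m) k) X ^ s) (a * b) = 0 := by
  intro s
  induction s with
  | zero =>
    intro p q hpq a b ha hb
    have hp : p = 0 := by omega
    subst hp
    have h1 : a = 0 := ha
    rw [h1, zero_mul, map_zero]
  | succ s ih =>
    intro p q hpq a b ha hb
    rcases Nat.eq_zero_or_pos p with hp | hp
    · subst hp
      have h1 : a = 0 := ha
      rw [h1, zero_mul, map_zero]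
    rcases Nat.eq_zero_or_pos q with hq | hq
    · subst hq
      have h1 : b = 0 := hb
      rw [h1, mul_zero, map_zero]
    obtain ⟨p, rfl⟩ : ∃ p', p = p' + 1 := ⟨p - 1, by omega⟩
    obtain ⟨q, rfl⟩ : ∃ q', q = q' + 1 := ⟨q - 1, by omega⟩
    have h1 : LieAlgebra.ad k (Matrix (m ⊕ m) (m ⊕ m) k) X (a * b) =
        LieAlgebra.ad k (Matrix (m ⊕ m) (m ⊕ m) k) X a * b +
          a * LieAlgebra.ad k (Matrix (m ⊕ m) (m ⊕ m) k) X b := by
      rw [LieAlgebra.ad_apply, LieAlgebra.ad_apply, LieAlgebra.ad_apply, Ring.lie_def,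
        Ring.lie_def, Ring.lie_def]
      noncomm_ring
    rw [pow_succ, Module.End.mul_apply, h1, map_add]
    rw [pow_succ, Module.End.mul_apply] at ha hb
    rw [ih p (q + 1) (by omega) _ _ ha (by rw [pow_succ, Module.End.mul_apply]; exact hb),
      ih (p + 1) q (by omega) _ _ (by rw [pow_succ, Module.End.mul_apply]; exact ha) hb, add_zero]

/-- `y ↦ ω(v, y) u` -/
def RR (u v : m ⊕ m → k) : Matrix (m ⊕ m) (m ⊕ m) k :=
  LinearMap.toMatrix'
    { toFun := fun y => om v y • u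
      map_add' := fun y z => by rw [om_add_right, add_smul]
      map_smul' := fun c y => by rw [om_smul_right, RingHom.id_apply, smul_smul] }

theorem RR_mulVec (u v y : m ⊕ m → k) : RR u v *ᵥ y = om v y • u := by
  unfold RR
  rw [LinearMap.toMatrix'_mulVec]
  rfl

theorem mat_dec (M : Matrix (m ⊕ m) (m ⊕ m) k) : M = ∑ i : m,
    (RR (M *ᵥ Pi.single (Sum.inl i) 1) (Pi.single (Sum.inr i) 1) -
      RR (M *ᵥ Pi.single (Sum.inr i) 1) (Pi.single (Sum.inl i) 1)) := by
  refine mat_ext fun y => ?_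
  rw [Matrix.sum_mulVec]
  conv_lhs => rw [vec_dec y, Matrix.mulVec_sum]
  refine Finset.sum_congr rfl fun i _ => ?_
  rw [Matrix.mulVec_sub, Matrix.mulVec_smul, Matrix.mulVec_smul, Matrix.sub_mulVec, RR_mulVec,
    RR_mulVec]

theorem ad_all [CharZero k] {X : Matrix (m ⊕ m) (m ⊕ m) k} {N : ℕ}
    (h : ∀ y ∈ spL k m, (LieAlgebra.ad k (Matrix (m ⊕ m) (m ⊕ m) k) X ^ N) y = 0) :
    LieAlgebra.ad k (Matrix (m ⊕ m) (m ⊕ m) k) X ^ (N + N) = 0 := by
  obtain ⟨D, hD⟩ : ∃ D, D = LieAlgebra.ad k (Matrix (m ⊕ m) (m ⊕ m) k) X ^ (N + N) := ⟨_, rfl⟩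
  have h1 : ∀ u v : m ⊕ m → k, om u v ≠ 0 → D (RR u v) = 0 := by
    intro u v huv
    have h2 : (4 * om u v) • RR u v = XX u u * XX v v := by
      refine mat_ext fun y => ?_
      rw [Matrix.smul_mulVec, RR_mulVec, ← Matrix.mulVec_mulVec, XX_mulVec, XX_mulVec]
      funext i
      simp only [om_add_right, om_smul_right, Pi.add_apply, Pi.smul_apply, smul_eq_mul]
      ring
    have h3 : RR u v = (4 * om u v)⁻¹ • (XX u u * XX v v) := by
      rw [← h2, smul_smul, inv_mul_cancel₀ (mul_ne_zero (by norm_num) huv), one_smul]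
    rw [h3, map_smul, hD, ad_prod X (N + N) N N rfl (XX u u) (XX v v) (h _ (spX u u).2)
      (h _ (spX v v).2), smul_zero]
  have h2 : ∀ u v : m ⊕ m → k, D (RR u v) = 0 := by
    intro u v
    by_cases hu : u = 0
    · have : RR u v = 0 := mat_ext fun y => by
        rw [RR_mulVec, hu, smul_zero, Matrix.zero_mulVec]
      rw [this, map_zero]
    · by_cases huv : om u v = 0
      · obtain ⟨w, hw⟩ := exists_om' hu
        have h3 : RR u v = RR u (v + w) - RR u w := mat_ext fun y => by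
          rw [Matrix.sub_mulVec, RR_mulVec, RR_mulVec, RR_mulVec, om_add_left, add_smul,
            add_sub_cancel_right]
        rw [h3, map_sub, h1 u w hw, h1 u (v + w) (by rw [om_add_right, huv, zero_add]; exact hw),
          sub_zero]
      · exact h1 u v huv
  rw [← hD]
  refine LinearMap.ext fun M => ?_
  rw [mat_dec M, map_sum, LinearMap.zero_apply]
  exact Finset.sum_eq_zero fun i _ => by rw [map_sub, h2, h2, sub_zero]

theorem spL_trace {X : Matrix (m ⊕ m) (m ⊕ m) k} (hX : X ∈ spL k m) : X.trace = 0 := by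
  have h0 : ∀ (a : m ⊕ m), X a a = (X *ᵥ Pi.single a 1) a := by
    intro a
    rw [Matrix.mulVec_single_one]
    rfl
  rw [Matrix.trace, Fintype.sum_sum_type, ← Finset.sum_add_distrib]
  refine Finset.sum_eq_zero fun i _ => ?_
  rw [Matrix.diag_apply, Matrix.diag_apply, h0, h0, ← om_single_inr i (X *ᵥ _),
    ← neg_neg ((X *ᵥ Pi.single (Sum.inr i) 1) (Sum.inr i)), ← om_single_inl i (X *ᵥ _)]
  have h1 := hX (Pi.single (Sum.inl i) 1) (Pi.single (Sum.inr i) 1)
  rw [om_swap] at h1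
  linear_combination -h1

theorem sp_pow (x y : spL k m) (N : ℕ) :
    ((LieAlgebra.ad k (Matrix (m ⊕ m) (m ⊕ m) k) x.1) ^ N) y.1 =
      (((LieAlgebra.ad k (spL k m) x) ^ N) y).1 := by
  induction N generalizing y with
  | zero => rfl
  | succ N ih =>
    rw [pow_succ, pow_succ, Module.End.mul_apply, Module.End.mul_apply, ← ih]
    rfl

theorem sp_nil [CharZero k] {x : spL k m} {N : ℕ} (h : (LieAlgebra.ad k (spL k m) x) ^ N = 0) :
    IsNilpotent x.1 ∧ (LieAlgebra.ad k (Matrix (m ⊕ m) (m ⊕ m) k) x.1) ^ (N + N) = 0 := by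
  have h1 := ad_all (X := x.1) (N := N) fun y hy => by
    have := sp_pow x ⟨y, hy⟩ N
    rw [h] at this
    exact this
  exact ⟨mat_nil ⟨_, h1⟩ (spL_trace x.2), h1⟩

theorem om_sum_left {ι : Type} (s : Finset ι) (f : ι → m ⊕ m → k) (v : m ⊕ m → k) :
    om (∑ i ∈ s, f i) v = ∑ i ∈ s, om (f i) v := by
  classical
  induction s using Finset.induction_on with
  | empty => simp [om_zero_left]
  | insert a s ha ih => rw [Finset.sum_insert ha, Finset.sum_insert ha, om_add_left, ih]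

theorem om_sum_right {ι : Type} (s : Finset ι) (f : ι → m ⊕ m → k) (v : m ⊕ m → k) :
    om v (∑ i ∈ s, f i) = ∑ i ∈ s, om v (f i) := by
  classical
  induction s using Finset.induction_on with
  | empty => simp [om_zero_right]
  | insert a s ha ih => rw [Finset.sum_insert ha, Finset.sum_insert ha, om_add_right, ih]

theorem om_pow {X : Matrix (m ⊕ m) (m ⊕ m) k} (hX : X ∈ spL k m) (i : ℕ) (u v : m ⊕ m → k) :
    om ((X ^ i) *ᵥ u) v = om u (((-X) ^ i) *ᵥ v) := by
  induction i generalizing u with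
  | zero => simp
  | succ i ih =>
    rw [pow_succ, ← Matrix.mulVec_mulVec, ih, hX, pow_succ' (-X), ← Matrix.mulVec_mulVec,
      Matrix.neg_mulVec, om_neg_right]

theorem ex_om [CharZero k] {X : Matrix (m ⊕ m) (m ⊕ m) k} (hX : X ∈ spL k m)
    (hn : IsNilpotent X) (u v : m ⊕ m → k) : om (ex k X *ᵥ u) v = om u (ex k (-X) *ᵥ v) := by
  obtain ⟨N, hN⟩ := hn
  have hN' : (-X) ^ N = 0 := by rw [neg_pow, hN, mul_zero]
  rw [ex_eq_sum hN, ex_eq_sum hN', Matrix.sum_mulVec, Matrix.sum_mulVec, om_sum_left, om_sum_right]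
  refine Finset.sum_congr rfl fun i _ => ?_
  rw [Matrix.smul_mulVec, Matrix.smul_mulVec, om_smul_left, om_smul_right, om_pow hX]

theorem ex_mem [CharZero k] {X : Matrix (m ⊕ m) (m ⊕ m) k} (hX : X ∈ spL k m)
    (hn : IsNilpotent X) : ex k X ∈ symplecticGroup m k := by
  refine mem_of_om fun u v => ?_
  rw [ex_om hX hn, Matrix.mulVec_mulVec, ex_neg_mul hn, Matrix.one_mulVec]

end nil

section ad

variable {k : Type} [Field k] {m : Type} [Fintype m] [DecidableEq m]

theorem spv_inv (g : symplecticGroup m k) : g.1 * (g⁻¹).1 = 1 := congrArg Subtype.val (mul_inv_cancel g)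

theorem spv_inv' (g : symplecticGroup m k) : (g⁻¹).1 * g.1 = 1 :=
  congrArg Subtype.val (inv_mul_cancel g)

theorem om_inv (g : symplecticGroup m k) (u v : m ⊕ m → k) :
    om ((g⁻¹).1 *ᵥ u) v = om u (g.1 *ᵥ v) := by
  rw [← om_mulVec' g, mulVec_inv]

theorem om_inv' (g : symplecticGroup m k) (u v : m ⊕ m → k) :
    om (g.1 *ᵥ u) v = om u ((g⁻¹).1 *ᵥ v) := by
  rw [← om_mulVec' g u, mulVec_inv]

/-- the adjoint action -/
def Adg (g : symplecticGroup m k) : Module.End k (spL k m) where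
  toFun x := ⟨g.1 * x.1 * (g⁻¹).1, fun u v => by
    rw [← Matrix.mulVec_mulVec, ← Matrix.mulVec_mulVec, ← Matrix.mulVec_mulVec,
      ← Matrix.mulVec_mulVec, om_inv', spL_om, om_inv]⟩
  map_add' x y := Subtype.ext (by
    show g.1 * (x.1 + y.1) * (g⁻¹).1 = g.1 * x.1 * (g⁻¹).1 + g.1 * y.1 * (g⁻¹).1
    rw [Matrix.mul_add, Matrix.add_mul])
  map_smul' c x := Subtype.ext (by
    show g.1 * (c • x.1) * (g⁻¹).1 = c • (g.1 * x.1 * (g⁻¹).1)
    rw [Matrix.mul_smul, Matrix.smul_mul])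

theorem Adg_val (g : symplecticGroup m k) (x : spL k m) :
    (Adg g x).1 = g.1 * x.1 * (g⁻¹).1 := rfl

/-- the adjoint representation -/
def Ads : symplecticGroup m k →* Module.End k (spL k m) where
  toFun := Adg
  map_one' := LinearMap.ext fun x => Subtype.ext (by
    rw [Adg_val, inv_one]
    show (1 : Matrix (m ⊕ m) (m ⊕ m) k) * x.1 * (1 : Matrix (m ⊕ m) (m ⊕ m) k) = x.1
    rw [Matrix.one_mul, Matrix.mul_one])
  map_mul' g h := LinearMap.ext fun x => Subtype.ext (by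
    rw [Adg_val, _root_.mul_inv_rev]
    show (g.1 * h.1) * x.1 * ((h⁻¹).1 * (g⁻¹).1) = g.1 * (h.1 * x.1 * (h⁻¹).1) * (g⁻¹).1
    simp only [Matrix.mul_assoc])

theorem Ads_val (g : symplecticGroup m k) (x : spL k m) :
    (Ads g x).1 = g.1 * x.1 * (g⁻¹).1 := rfl

theorem Ads_lie (g : symplecticGroup m k) (x y : spL k m) :
    Ads g ⁅x, y⁆ = ⁅Ads g x, Ads g y⁆ := by
  refine spL_ext fun v => ?_
  rw [spL_lie, Ads_val, Ads_val, Ads_val]
  simp only [← Matrix.mulVec_mulVec, inv_mulVec, spL_lie, Matrix.mulVec_sub]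

theorem Ads_spX (g : symplecticGroup m k) (u v : m ⊕ m → k) :
    Ads g (spX u v) = spX (g.1 *ᵥ u) (g.1 *ᵥ v) := by
  refine spL_ext fun y => ?_
  rw [Ads_val, ← Matrix.mulVec_mulVec, ← Matrix.mulVec_mulVec, spX_mulVec, spX_mulVec,
    Matrix.mulVec_add, Matrix.mulVec_smul, Matrix.mulVec_smul, om_inv', om_inv']

theorem Ads_ker [CharZero k] {g : symplecticGroup m k} (h : Ads g = 1) :
    g ∈ Subgroup.center (symplecticGroup m k) := by
  have h1 : Subgroup.centralizer {g} = (⊤ : Subgroup (symplecticGroup m k)) := by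
    refine eq_top_of_tS m _ fun v c => ?_
    rw [Subgroup.mem_centralizer_singleton_iff]
    have h2 : Ads g (spX v v) = spX v v := by rw [h]; rfl
    have h3 : ∀ y, g.1 *ᵥ ((spX v v).1 *ᵥ y) = (spX v v).1 *ᵥ (g.1 *ᵥ y) := by
      intro y
      have h4 := congrArg (fun x : spL k m => x.1 *ᵥ (g.1 *ᵥ y)) h2
      simp only [Ads_val] at h4
      rw [← Matrix.mulVec_mulVec, ← Matrix.mulVec_mulVec, inv_mulVec] at h4
      exact h4
    refine sp_ext fun y => ?_
    have h4 : ∀ y, (tS v c).1 *ᵥ y = y + (c / 2) • ((spX v v).1 *ᵥ y) := by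
      intro y
      rw [tS_mulVec, spX_self, smul_smul]
      congr 2
      field_simp
    rw [mul_mulVec, mul_mulVec, h4, h4, Matrix.mulVec_add, Matrix.mulVec_smul, h3]
  rw [Subgroup.mem_center_iff]
  intro x
  have h2 : x ∈ Subgroup.centralizer {g} := by rw [h1]; exact Subgroup.mem_top _
  rw [Subgroup.mem_centralizer_singleton_iff] at h2
  exact h2

theorem Ads_center [CharZero k] {g : symplecticGroup m k}
    (h : g ∈ Subgroup.center (symplecticGroup m k)) : Ads g = 1 := by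
  refine LinearMap.ext fun x => spL_ext fun y => ?_
  rw [Ads_val, ← Matrix.mulVec_mulVec, ← Matrix.mulVec_mulVec]
  show _ = x.1 *ᵥ y
  rcases H678.P.of_mem_center (two_ne_zero) h with h1 | h1
  · rw [h1, inv_one, one_mulVec', one_mulVec']
  · rw [h1, H759.neg1_inv, H759.neg1_mulVec, H759.neg1_mulVec, Matrix.mulVec_neg, neg_neg]

/-- the adjoint representation of `PSp_{2n}(k)` -/
noncomputable def Adp (k : Type) [Field k] [CharZero k] (m : Type) [Fintype m] [DecidableEq m] :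
    (symplecticGroup m k ⧸ Subgroup.center (symplecticGroup m k)) →* Module.End k (spL k m) :=
  QuotientGroup.lift _ Ads fun _ hg => Ads_center hg

theorem Adp_inj [CharZero k] : Function.Injective (Adp k m) := by
  rw [injective_iff_map_eq_one]
  intro g hg
  obtain ⟨x, rfl⟩ := QuotientGroup.mk'_surjective _ g
  exact (QuotientGroup.eq_one_iff x).2 (Ads_ker hg)

theorem exp_mem [CharZero k] {x : spL k m} {ψ : spL k m → spL k m} (h : IsExp k x ψ) :
    ∃ g : symplecticGroup m k, ⇑(Ads g) = ψ := by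
  obtain ⟨N, hm, hψ⟩ := h
  have hiter : ∀ (i : ℕ) (y : spL k m), (fun z : spL k m => ⁅x, z⁆)^[i] y =
      ((LieAlgebra.ad k (spL k m) x) ^ i) y := by
    intro i
    induction i with
    | zero => intro y; rfl
    | succ i ih =>
      intro y
      rw [Function.iterate_succ_apply, ih, pow_succ, Module.End.mul_apply, LieAlgebra.ad_apply]
  have h1 : (LieAlgebra.ad k (spL k m) x) ^ N = 0 := LinearMap.ext fun y => by
    rw [← hiter, hm, LinearMap.zero_apply]
  obtain ⟨h2, h3⟩ := sp_nil h1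
  obtain ⟨G, hG⟩ : ∃ G : symplecticGroup m k, G.1 = ex k x.1 := ⟨⟨_, ex_mem x.2 h2⟩, rfl⟩
  obtain ⟨G', hG'⟩ : ∃ G : symplecticGroup m k, G.1 = ex k (-x.1) :=
    ⟨⟨_, ex_mem ((spL k m).neg_mem x.2) h2.neg⟩, rfl⟩
  have hinv : G⁻¹ = G' := by
    rw [inv_eq_iff_mul_eq_one]
    apply Subtype.ext
    show G.1 * G'.1 = 1
    rw [hG, hG']
    exact ex_mul_neg h2
  refine ⟨G, ?_⟩
  funext y
  apply Subtype.ext
  have h5 : ∀ i, N ≤ i → ((LieAlgebra.ad k (Matrix (m ⊕ m) (m ⊕ m) k) x.1) ^ i) y.1 = 0 := by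
    intro i hi
    obtain ⟨j, rfl⟩ := Nat.exists_eq_add_of_le hi
    rw [sp_pow, add_comm, pow_add, h1, mul_zero]
    rfl
  have e4 : (∑ i ∈ Finset.range N, ((i.factorial : k)⁻¹) • (fun z : spL k m => ⁅x, z⁆)^[i] y).1 =
      ∑ i ∈ Finset.range N, (((i.factorial : k)⁻¹) • (fun z : spL k m => ⁅x, z⁆)^[i] y).1 :=
    map_sum (spL k m).toSubmodule.subtype _ _
  rw [Ads_val, hinv, hG, hG', ← ex_ad h2, ex_eq_sum h3, hψ, LinearMap.sum_apply, e4,
    Finset.sum_range_add]
  have h6 : ∑ i ∈ Finset.range N, ((((N + i).factorial : k)⁻¹) •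
      (LieAlgebra.ad k (Matrix (m ⊕ m) (m ⊕ m) k) x.1) ^ (N + i)) y.1 = 0 :=
    Finset.sum_eq_zero fun i _ => by
      rw [LinearMap.smul_apply, h5 _ (Nat.le_add_right _ _), smul_zero]
  rw [h6, add_zero]
  refine Finset.sum_congr rfl fun i _ => ?_
  rw [LinearMap.smul_apply, sp_pow, hiter]
  rfl

end ad

end Vale.Agent.P092.H677.SP
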