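import Vale.Agent.P092.H677.PMb
import Vale.Agent.P092.H259.Lat

/-!
P092 (helper677), [OKS-SP], part 9: **`PSp_{2n}(k)`, `k` a local field of characteristic `0`, `n ≥ 1`,
is in the class `IsLie`.**
-/

set_option linter.all false

open Matrix Set Filter Topology

namespace Vale.Agent.P092.H677.SP

open Vale.Agent.P092.H759 (om om_swap om_single_inl om_single_inr om_self om_smul_left om_smul_right)
open Vale.Agent.P092.H35.Rp (IsExp IsLie)

attribute [local instance 100] LieRing.ofAssociativeRing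
attribute [local instance] sp_t2 sp_lc sp_sc sp_itg

section emb

variable {k : Type} [NontriviallyNormedField k] [ProperSpace k] [CharZero k] {m : Type}
  [Fintype m] [DecidableEq m] {N : ℕ} (b : Module.Basis (Fin N) k (spL k m))

/-- the matrix coefficients -/
noncomputable def mcf (g : symplecticGroup m k) (i j : Fin N) : k := b.repr (Ads g (b j)) i

theorem mcf_cont : Continuous (mcf b) := by
  refine continuous_pi fun i => continuous_pi fun j => ?_
  obtain ⟨l, hl⟩ := (b.coord i).exists_extend (p := (spL k m).toSubmodule)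
  have h1 : ∀ g : symplecticGroup m k, mcf b g i j =
      ∑ a, ∑ c, (g.1 * (b j).1 * (g⁻¹).1) a c * l (Matrix.single a c 1) := by
    intro g
    have h2 : mcf b g i j = l ((Ads g (b j)).1) := by
      have := LinearMap.congr_fun hl (Ads g (b j))
      exact this.symm
    rw [h2, Ads_val]
    conv_lhs => rw [Matrix.matrix_eq_sum_single (g.1 * (b j).1 * (g⁻¹).1)]
    rw [map_sum]
    refine Finset.sum_congr rfl fun a _ => ?_
    rw [map_sum]
    refine Finset.sum_congr rfl fun c _ => ?_
    have h3 : Matrix.single a c ((g.1 * (b j).1 * (g⁻¹).1) a c) =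
        ((g.1 * (b j).1 * (g⁻¹).1) a c) • Matrix.single a c (1 : k) := by
      rw [Matrix.smul_single, smul_eq_mul, mul_one]
    rw [h3, map_smul, smul_eq_mul]
  have h4 : (fun g : symplecticGroup m k => mcf b g i j) = fun g =>
      ∑ a, ∑ c, (g.1 * (b j).1 * (g⁻¹).1) a c * l (Matrix.single a c 1) := funext h1
  rw [h4]
  have h6 : Continuous fun g : symplecticGroup m k => g.1 := continuous_subtype_val
  have h7 : Continuous fun g : symplecticGroup m k => (g⁻¹).1 :=
    h6.comp (continuous_inv (G := symplecticGroup m k))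
  have h5 : Continuous fun g : symplecticGroup m k => g.1 * (b j).1 * (g⁻¹).1 :=
    (h6.matrix_mul continuous_const).matrix_mul h7
  exact continuous_finset_sum _ fun a _ => continuous_finset_sum _ fun c _ =>
    (h5.matrix_elem a c).mul continuous_const

/-- the images as functions of the coefficients -/
theorem exists_P (x : spL k m) : ∃ P : (Fin N → Fin N → k) → Matrix (m ⊕ m) (m ⊕ m) k,
    Continuous P ∧ ∀ g : symplecticGroup m k, (Ads g x).1 = P (mcf b g) := by
  refine ⟨fun M => (∑ j, ∑ i, (b.repr x j * M i j) • (b i).1), ?_, fun g => ?_⟩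
  · refine continuous_finset_sum _ fun j _ => continuous_finset_sum _ fun i _ => ?_
    exact (continuous_const.mul (continuous_apply_apply i j)).smul continuous_const
  · have h1 : Ads g x = ∑ j, ∑ i, (b.repr x j * mcf b g i j) • b i := by
      conv_lhs => rw [← b.sum_repr x]
      rw [map_sum]
      refine Finset.sum_congr rfl fun j _ => ?_
      rw [map_smul]
      conv_lhs => rw [← b.sum_repr (Ads g (b j))]
      rw [Finset.smul_sum]
      refine Finset.sum_congr rfl fun i _ => ?_
      rw [smul_smul]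
      rfl
    have h2 : ∀ z : spL k m, z.1 = (spL k m).toSubmodule.subtype z := fun _ => rfl
    rw [h2, h1, map_sum]
    refine Finset.sum_congr rfl fun j _ => ?_
    rw [map_sum]
    refine Finset.sum_congr rfl fun i _ => ?_
    rw [map_smul]
    rfl

theorem spX_entry (u : m ⊕ m → k) (c : m ⊕ m) : ∃ d, ‖(spX u u).1 c d‖ = ‖(2 : k)‖ * ‖u c‖ ^ 2 := by
  have h0 : ∀ d, (spX u u).1 c d = (2 * om u (Pi.single d 1)) * u c := by
    intro d
    have h1 : (spX u u).1 c d = ((spX u u).1 *ᵥ Pi.single d 1) c := by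
      rw [Matrix.mulVec_single_one]
      rfl
    rw [h1, spX_self]
    rfl
  rcases c with i | i
  · refine ⟨Sum.inr i, ?_⟩
    rw [h0, om_swap, om_single_inr, norm_mul, norm_mul, norm_neg]
    ring
  · refine ⟨Sum.inl i, ?_⟩
    rw [h0, om_swap, om_single_inl, neg_neg, norm_mul, norm_mul]
    ring

theorem mcf_proper : IsProperMap (mcf b) := by
  rw [isProperMap_iff_isCompact_preimage]
  refine ⟨mcf_cont b, fun C hC => ?_⟩
  choose P hP hPg using fun a : m ⊕ m => exists_P b (spX (Pi.single a 1) (Pi.single a 1))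
  have h1 : Continuous fun M : Fin N → Fin N → k => ∑ a : m ⊕ m, ∑ q : (m ⊕ m) × (m ⊕ m),
      ‖P a M q.1 q.2‖ :=
    continuous_finset_sum _ fun p _ => continuous_finset_sum _ fun q _ =>
      ((hP p).matrix_elem q.1 q.2).norm
  obtain ⟨B, hB⟩ := hC.exists_bound_of_continuousOn h1.continuousOn
  have h20 : 0 < ‖(2 : k)‖ := norm_pos_iff.2 two_ne_zero
  have h2 : IsCompact {M : Matrix (m ⊕ m) (m ⊕ m) k | ∀ a c, ‖M a c‖ ≤ max 1 (B / ‖(2 : k)‖)} := by
    have h3 : IsCompact (Set.pi Set.univ fun _ : m ⊕ m => Set.pi Set.univ fun _ : m ⊕ m =>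
        Metric.closedBall (0 : k) (max 1 (B / ‖(2 : k)‖))) :=
      isCompact_univ_pi fun _ => isCompact_univ_pi fun _ => isCompact_closedBall _ _
    refine (congrArg IsCompact ?_).mp h3
    ext M
    simp only [Set.mem_pi, Set.mem_univ, forall_true_left, mem_closedBall_zero_iff]
    exact Iff.rfl
  have h4 := (sp_emb (l := m) (A := k)).isCompact_preimage h2
  refine h4.of_isClosed_subset (hC.isClosed.preimage (mcf_cont b))
    fun (g : symplecticGroup m k) hg => ?_
  show ∀ c a, ‖g.1 c a‖ ≤ max 1 (B / ‖(2 : k)‖)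
  intro c a
  have h6 := hB _ hg
  obtain ⟨d, hd⟩ := spX_entry (g.1 *ᵥ Pi.single a 1) c
  have h7 : ‖(2 : k)‖ * ‖g.1 c a‖ ^ 2 ≤ B := by
    rw [Real.norm_of_nonneg (Finset.sum_nonneg fun _ _ => Finset.sum_nonneg fun _ _ =>
      norm_nonneg _)] at h6
    refine le_trans ?_ h6
    have h8 : ‖P a (mcf b g) c d‖ ≤ ∑ q : (m ⊕ m) × (m ⊕ m), ‖P a (mcf b g) q.1 q.2‖ :=
      Finset.single_le_sum (f := fun q : (m ⊕ m) × (m ⊕ m) => ‖P a (mcf b g) q.1 q.2‖)
        (fun _ _ => norm_nonneg _) (Finset.mem_univ (c, d))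
    have h9 : ∑ q : (m ⊕ m) × (m ⊕ m), ‖P a (mcf b g) q.1 q.2‖ ≤
        ∑ p : m ⊕ m, ∑ q : (m ⊕ m) × (m ⊕ m), ‖P p (mcf b g) q.1 q.2‖ :=
      Finset.single_le_sum (f := fun p : m ⊕ m => ∑ q : (m ⊕ m) × (m ⊕ m),
        ‖P p (mcf b g) q.1 q.2‖)
        (fun _ _ => Finset.sum_nonneg fun _ _ => norm_nonneg _) (Finset.mem_univ a)
    refine le_trans (le_of_eq ?_) (h8.trans h9)
    rw [← hPg a g, Ads_spX, hd, Matrix.mulVec_single_one]
    rfl
  by_cases h8 : ‖g.1 c a‖ ≤ 1
  · exact h8.trans (le_max_left _ _)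
  · refine le_trans ?_ (le_max_right _ _)
    rw [le_div_iff₀ h20]
    push Not at h8
    nlinarith [mul_nonneg (mul_nonneg h20.le (norm_nonneg (g.1 c a))) (sub_nonneg.2 h8.le)]

theorem mcf_emb : IsEmbedding fun (g : symplecticGroup m k ⧸
    Subgroup.center (symplecticGroup m k)) (i j : Fin N) => b.repr (Adp k m g (b j)) i := by
  obtain ⟨Φ, hΦ⟩ : ∃ Φ : (symplecticGroup m k ⧸ Subgroup.center (symplecticGroup m k)) →
    Fin N → Fin N → k, Φ = fun g i j => b.repr (Adp k m g (b j)) i := ⟨_, rfl⟩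
  have h1 : Φ ∘ (QuotientGroup.mk : symplecticGroup m k → _) = mcf b := by rw [hΦ]; rfl
  have hc : Continuous Φ := by
    refine (isQuotientMap_quotient_mk' (s := QuotientGroup.leftRel _)).continuous_iff.2 ?_
    have := mcf_cont b
    rw [← h1] at this
    exact this
  have hi : Function.Injective Φ := by
    intro g h hgh
    apply Adp_inj (k := k) (m := m)
    refine b.ext fun j => b.repr.injective (Finsupp.ext fun i => ?_)
    rw [hΦ] at hgh
    exact congrFun (congrFun hgh i) j
  have hcl : IsClosedMap Φ := by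
    intro C hC
    have h2 : Φ '' C = mcf b '' ((QuotientGroup.mk : symplecticGroup m k → _) ⁻¹' C) := by
      rw [← h1, image_comp, image_preimage_eq _ (QuotientGroup.mk_surjective)]
    rw [h2]
    exact (mcf_proper b).isClosedMap _ (hC.preimage continuous_quotient_mk')
  have h3 := (Topology.IsClosedEmbedding.of_continuous_injective_isClosedMap hc hi hcl).isEmbedding
  rw [hΦ] at h3
  exact h3

end emb

/-- **`PSp_{2n}(k)`, `n ≥ 1`, `k` a local field of characteristic `0`, is in the class `IsLie`.** -/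
theorem isLie_psp (k : Type) [NontriviallyNormedField k] [ProperSpace k] [CharZero k] (m : Type)
    [Fintype m] [DecidableEq m] [Nonempty m] :
    H35.Rp.IsLie k (symplecticGroup m k ⧸ Subgroup.center (symplecticGroup m k)) := by
  haveI := isSimple_sp (k := k) (m := m)
  obtain ⟨i⟩ := (inferInstance : Nonempty m)
  obtain ⟨e, he⟩ : ∃ e : m ⊕ m → k, e = Pi.single (Sum.inl i) 1 := ⟨_, rfl⟩
  obtain ⟨f, hf⟩ : ∃ f : m ⊕ m → k, f = Pi.single (Sum.inr i) 1 := ⟨_, rfl⟩
  have hfe : om f e = 1 := by rw [hf, om_single_inr, he, Pi.single_eq_same]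
  refine ⟨spL k m, inferInstance, inferInstance, _, Module.finBasis k (spL k m),
    Adp k m, inferInstance, ?_, ?_, ?_, mcf_emb _⟩
  · have hn : IsNilpotent (LieAlgebra.ad k (spL k m) (spX e e)) := by
      refine LieAlgebra.isNilpotent_ad_of_isNilpotent ⟨2, ?_⟩
      rw [pow_two]
      refine mat_ext fun y => ?_
      rw [← Matrix.mulVec_mulVec, spX_self e y, Matrix.mulVec_smul, spX_self, om_self, mul_zero,
        zero_smul, smul_zero, Matrix.zero_mulVec]
    refine ⟨spX e e, ?_, _, (H35.Rp.isExp_iff _ _).2 ⟨hn, rfl⟩⟩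
    intro h
    have h1 : om f ((spX e e).1 *ᵥ f) = 0 := by
      rw [h]
      have h0 : (0 : spL k m).1 *ᵥ f = 0 := Matrix.zero_mulVec f
      rw [h0, H759.om_zero_right]
    rw [spX_self, om_smul_right, hfe, om_swap, hfe] at h1
    norm_num at h1
  · intro g x y
    obtain ⟨g, rfl⟩ := QuotientGroup.mk'_surjective _ g
    exact Ads_lie g x y
  · intro x ψ h
    obtain ⟨g, hg⟩ := exp_mem h
    exact ⟨QuotientGroup.mk g, hg⟩

end Vale.Agent.P092.H677.SP
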