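import Vale.Agent.P092.H677.PMd
import Vale.Agent.P092.UN.StC3

/-!
P092 (helper677), [OKS-SP], part 11: `PSp_4(𝓞 K)`, `K = ℚ` or `K` imaginary quadratic, is in the class
`LatticeC3`.
-/

set_option linter.all false

open Matrix Set Filter Topology NumberField IsDedekindDomain
open NumberField.InfinitePlace NumberField.mixedEmbedding

namespace Vale.Agent.P092.H677.SP

open Vale.Agent.P092.H678.P (icc_psp)
open Vale.Agent.P092.H677.OK (II KK oi oi_inj jj_nonempty locK_KK charZero_KK JJ plc)

variable (K : Type) [Field K] [NumberField K] (S : Set (HeightOneSpectrum (𝓞 K)))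

attribute [local instance] sp_t2 sp_lc sp_sc sp_pol sp_itg

theorem sub_II (hS : S = ∅) (h1 : Fintype.card (InfinitePlace K) = 1) :
    Subsingleton (II K S) := by
  haveI : Subsingleton (InfinitePlace K) := Fintype.card_le_one_iff_subsingleton.1 h1.le
  subst hS
  refine ⟨fun i i' => ?_⟩
  rcases i with j | v
  · rcases i' with j' | v
    · congr 1
      rcases j with w | w <;> rcases j' with w' | w'
      · congr 1
        exact Subtype.ext (Subsingleton.elim _ _)
      · have h : w.1 = w'.1 := Subsingleton.elim _ _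
        have h2 := w'.2
        rw [← h] at h2
        exact absurd w.2 (not_isReal_iff_isComplex.2 h2)
      · have h : w.1 = w'.1 := Subsingleton.elim _ _
        have h2 := w'.2
        rw [← h] at h2
        exact absurd h2 (not_isReal_iff_isComplex.2 w.2)
      · congr 1
        exact Subtype.ext (Subsingleton.elim _ _)
    · exact absurd v.2 (Set.notMem_empty _)
  · exact absurd v.2 (Set.notMem_empty _)

/-- **`PSp_4` of the `S`-integers of a number field with exactly one place in `S ∪ S_∞`** -/
theorem latticeC3_sp (hS : S = ∅) (h1 : Fintype.card (InfinitePlace K) = 1) :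
    UN.LatticeC3 (symplecticGroup (Fin 2) (S.integer K) ⧸
      Subgroup.center (symplecticGroup (Fin 2) (S.integer K))) := by
  haveI := sub_II K S hS h1
  haveI : Finite S := by rw [hS]; infer_instance
  haveI : Infinite (S.integer K) := CharZero.infinite _
  obtain ⟨j⟩ := jj_nonempty K
  obtain ⟨i₀, hi₀⟩ : ∃ i : II K S, i = Sum.inl j := ⟨_, rfl⟩
  obtain ⟨π, hπ⟩ : ∃ π : (∀ i, symplecticGroup (Fin 2) (KK K S i) ⧸
      Subgroup.center (symplecticGroup (Fin 2) (KK K S i))) →*
      symplecticGroup (Fin 2) (KK K S i₀) ⧸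
        Subgroup.center (symplecticGroup (Fin 2) (KK K S i₀)),
      π = Pi.evalMonoidHom _ i₀ := ⟨_, rfl⟩
  letI : Unique (II K S) := ⟨⟨i₀⟩, fun i => Subsingleton.elim _ _⟩
  have hp : IsProperMap π := by
    have h2 : IsProperMap (Homeomorph.piUnique fun i => symplecticGroup (Fin 2) (KK K S i) ⧸
      Subgroup.center (symplecticGroup (Fin 2) (KK K S i))) := Homeomorph.isProperMap _
    rw [hπ]
    exact h2
  have hs : Function.Surjective π := by
    rw [hπ]
    exact Function.surjective_eval i₀
  have h2 := H259.isLattice_map hp hs (lat_pembS K S (Fin 2))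
  rw [← MonoidHom.range_comp] at h2
  refine ⟨icc_psp (two_OS K S), symplecticGroup (Fin 2) (KK K S i₀) ⧸
    Subgroup.center (symplecticGroup (Fin 2) (KK K S i₀)), inferInstance, inferInstance,
    π.comp (pembS K S (Fin 2)), ?_, ?_, (UN.isLattice_iff _).2 h2⟩
  · exact ⟨KK K S i₀, inferInstance, inferInstance, locK_KK K S i₀, two_ne_zero,
      QuotientGroup.mk' _, isQuotientMap_quotient_mk', by rw [QuotientGroup.ker_mk']⟩
  · have h3 : Function.Injective (pmap (Fin 2) (two_OS K S) (oi K S i₀)) :=
      pmap_inj (Fin 2) (two_OS K S) (oi_inj K S i₀)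
    rw [hπ]
    exact h3

end Vale.Agent.P092.H677.SP
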