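import Vale.Agent.P092.H677.OKj
import Vale.Agent.P092.H678.P.Eu

/-!
P092 (helper677), [OK-SP], part 1: `Sp_{2n}` over a topological ring `A` almost all of whose elements
are invertible; Haar measure of `Sp_{2n+2}(A)` in the coordinates `g = s(g e₀) S (b, c)`.
-/

set_option linter.all false

open Matrix MeasureTheory MeasureTheory.Measure Set Filter Topology
open scoped ENNReal

namespace Vale.Agent.P092.H677.SP

open Vale.Agent.P092.H759 (om om_eq om_add_left om_add_right om_smul_left om_smul_right om_neg_left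
  om_neg_right om_sub_left om_sub_right om_swap om_self om_zero_left om_zero_right om_single_inr
  om_single_inl om_mulVec' tS tS_mulVec tS_conj tS_add tS_smul tS_trans mul_mulVec one_mulVec'
  inv_mulVec mulVec_inv sp_ext mp mp_mulVec e0 f0 emb prj emb_zero ioS heS ioS_mulVec
  heS_mulVec heS_mul heS_ioS ioS_mul ioS_one exists_coord
  neg1 neg1_mulVec neg1_inv om_e0 om_f0 e0_inl e0_inr
  f0_inl f0_inr heS_e0 ioS_e0 coord_inj coord_mul)
open Vale.Agent.P092.H677.OK (Gd RH)

section sl

variable {l : Type} [Fintype l] [DecidableEq l] {R : Type} [CommRing R]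

/-- symplectic matrices have determinant one -/
def toSL (l : Type) [Fintype l] [DecidableEq l] (R : Type) [CommRing R] :
    symplecticGroup l R →* SpecialLinearGroup (l ⊕ l) R where
  toFun g := ⟨g.1, SymplecticGroup.det_eq_one g.2⟩
  map_one' := rfl
  map_mul' _ _ := rfl

theorem toSL_inj : Function.Injective (toSL l R) := fun g h hgh =>
  Subtype.ext (congrArg (fun x : SpecialLinearGroup (l ⊕ l) R => x.1) hgh)

theorem toSL_map {S : Type} [CommRing S] (f : R →+* S) (g : symplecticGroup l R) :
    toSL l S (mp f g) = SpecialLinearGroup.map f (toSL l R g) := rfl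

/-- the section of `g ↦ g e₀`; `u'` is the inverse of `x₀` -/
def sec (u' : R) (x : Option l ⊕ Option l → R) : symplecticGroup (Option l) R :=
  tS (x - f0) (-u') * tS (f0 - e0) 1

theorem om_f0_right' (x : Option l ⊕ Option l → R) : om x f0 = - x (Sum.inl none) := by
  rw [om_swap, om_f0]

theorem sec_e0 {u' : R} {x : Option l ⊕ Option l → R} (h : x (Sum.inl none) * u' = 1) :
    (sec u' x).1 *ᵥ e0 = x := by
  have h1 : (1 : R) * om (f0 : Option l ⊕ Option l → R) e0 = 1 := by simp
  have h2 : (-u') * om x f0 = 1 := by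
    rw [om_f0_right', neg_mul_neg, mul_comm]; exact h
  rw [sec, mul_mulVec, tS_trans h1, tS_trans h2]

end sl

section top

variable {l : Type} [Fintype l] [DecidableEq l] {A : Type} [CommRing A] [TopologicalSpace A]
  [IsTopologicalRing A] [T2Space A]

theorem isClosed_sp : IsClosed (symplecticGroup l A : Set (Matrix (l ⊕ l) (l ⊕ l) A)) := by
  have h : (symplecticGroup l A : Set (Matrix (l ⊕ l) (l ⊕ l) A)) =
      {M | M * J l A * Mᵀ = J l A} := by
    ext M; exact SymplecticGroup.mem_iff
  rw [h]
  exact isClosed_eq (by fun_prop) continuous_const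

theorem sp_emb : IsClosedEmbedding (Subtype.val : symplecticGroup l A → Matrix (l ⊕ l) (l ⊕ l) A) :=
  isClosed_sp.isClosedEmbedding_subtypeVal

omit [T2Space A] in
theorem sp_itg : IsTopologicalGroup (symplecticGroup l A) where
  continuous_mul := by
    refine Continuous.subtype_mk ?_ _
    exact (continuous_subtype_val.comp continuous_fst).mul
      (continuous_subtype_val.comp continuous_snd)
  continuous_inv := by
    refine continuous_induced_rng.2 ?_
    have : (Subtype.val ∘ fun M : symplecticGroup l A => M⁻¹) =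
        fun M : symplecticGroup l A => (-J l A) * (M.1)ᵀ * J l A := by
      funext M; exact SymplecticGroup.coe_inv M
    rw [this]
    fun_prop

theorem sp_t2 : T2Space (symplecticGroup l A) := sp_emb.isEmbedding.t2Space

theorem sp_lc [LocallyCompactSpace A] : LocallyCompactSpace (symplecticGroup l A) := by
  have : LocallyCompactSpace (Matrix (l ⊕ l) (l ⊕ l) A) :=
    inferInstanceAs (LocallyCompactSpace (l ⊕ l → l ⊕ l → A))
  exact sp_emb.locallyCompactSpace

theorem sp_sc [SecondCountableTopology A] : SecondCountableTopology (symplecticGroup l A) := by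
  have : SecondCountableTopology (Matrix (l ⊕ l) (l ⊕ l) A) :=
    inferInstanceAs (SecondCountableTopology (l ⊕ l → l ⊕ l → A))
  exact sp_emb.isEmbedding.isInducing.secondCountableTopology

theorem sp_pol [PolishSpace A] : PolishSpace (symplecticGroup l A) := by
  have : PolishSpace (Matrix (l ⊕ l) (l ⊕ l) A) :=
    inferInstanceAs (PolishSpace (l ⊕ l → l ⊕ l → A))
  exact sp_emb.polishSpace

omit [T2Space A] [IsTopologicalRing A] in
theorem cont_sp {X : Type} [TopologicalSpace X] {f : X → symplecticGroup l A}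
    (h : Continuous fun x => (f x).1) : Continuous f := continuous_induced_rng.2 h

omit [T2Space A] in
theorem cont_sp' {X : Type} [TopologicalSpace X] {f : X → symplecticGroup l A}
    (h : ∀ y : l ⊕ l → A, Continuous fun x => (f x).1 *ᵥ y) : Continuous f := by
  refine cont_sp (continuous_matrix fun i j => ?_)
  have h1 : (fun x => (f x).1 i j) = fun x => ((f x).1 *ᵥ Pi.single j 1) i := by
    funext x; rw [Matrix.mulVec_single_one]; rfl
  rw [h1]
  exact (continuous_apply i).comp (h _)

omit [T2Space A] in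
theorem cont_mulVec : Continuous fun p : symplecticGroup l A × (l ⊕ l → A) => p.1.1 *ᵥ p.2 :=
  Continuous.matrix_mulVec (continuous_subtype_val.comp continuous_fst) continuous_snd

omit [T2Space A] in
theorem cont_om : Continuous fun p : (l ⊕ l → A) × (l ⊕ l → A) => om p.1 p.2 := by
  unfold om
  exact Continuous.dotProduct continuous_fst
    (Continuous.matrix_mulVec continuous_const continuous_snd)

omit [T2Space A] in
theorem cont_tS : Continuous fun p : (l ⊕ l → A) × A => tS p.1 p.2 := by
  refine cont_sp' fun y => ?_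
  simp only [tS_mulVec]
  have h : Continuous fun p : (l ⊕ l → A) × A => om p.1 y :=
    cont_om.comp (continuous_fst.prodMk continuous_const)
  exact continuous_const.add ((continuous_snd.mul h).smul continuous_fst)

omit [IsTopologicalRing A] [T2Space A] in
theorem cont_prj : Continuous (prj : (Option l ⊕ Option l → A) → (l ⊕ l → A)) :=
  continuous_pi fun i => continuous_apply _

omit [IsTopologicalRing A] [T2Space A] in
theorem cont_emb : Continuous (emb : (l ⊕ l → A) → (Option l ⊕ Option l → A)) := by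
  refine continuous_pi fun i => ?_
  rcases i with (_ | i) | (_ | i)
  · exact continuous_const
  · exact continuous_apply _
  · exact continuous_const
  · exact continuous_apply _

omit [T2Space A] in
theorem cont_ioS : Continuous (ioS : symplecticGroup l A → symplecticGroup (Option l) A) := by
  refine cont_sp' fun y => ?_
  simp only [ioS_mulVec]
  have h : Continuous fun S : symplecticGroup l A => S.1 *ᵥ prj y :=
    Continuous.matrix_mulVec continuous_subtype_val continuous_const
  exact continuous_const.add (cont_emb.comp h)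

omit [T2Space A] in
theorem cont_heS : Continuous fun p : (l ⊕ l → A) × A => heS p.1 p.2 := by
  refine cont_sp' fun y => ?_
  simp only [heS_mulVec]
  have h : Continuous fun p : (l ⊕ l → A) × A => om (prj y) p.1 :=
    cont_om.comp (Continuous.prodMk continuous_const continuous_fst)
  have h2 : Continuous fun p : (l ⊕ l → A) × A =>
      p.2 • (e0 : Option l ⊕ Option l → A) + emb p.1 :=
    (continuous_snd.smul continuous_const).add (cont_emb.comp continuous_fst)
  have h3 : Continuous fun p : (l ⊕ l → A) × A =>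
      y (Sum.inr none) • (p.2 • (e0 : Option l ⊕ Option l → A) + emb p.1) :=
    h2.const_smul (y (Sum.inr none))
  have h4 : Continuous fun p : (l ⊕ l → A) × A =>
      om (prj y) p.1 • (e0 : Option l ⊕ Option l → A) := h.smul continuous_const
  exact (continuous_const.add h3).add h4

end top

section meas

variable {l : Type} [Fintype l] [DecidableEq l] {A : Type} [CommRing A] [TopologicalSpace A]
  [IsTopologicalRing A] [T2Space A] [LocallyCompactSpace A] [SecondCountableTopology A]
  [PolishSpace A] [MeasurableSpace A] [BorelSpace A]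

attribute [local instance] sp_t2 sp_lc sp_sc sp_pol sp_itg

theorem cont_sec : Continuous fun p : A × (Option l ⊕ Option l → A) => sec p.1 p.2 := by
  have h2 : Continuous fun p : A × (Option l ⊕ Option l → A) => (p.2 - f0, -p.1) :=
    (continuous_snd.sub continuous_const).prodMk continuous_fst.neg
  exact (cont_tS.comp h2).mul continuous_const

/-- the coordinates of the stabiliser of `e₀` -/
abbrev HH (l : Type) [Fintype l] [DecidableEq l] (A : Type) [CommRing A] : Type :=
  symplecticGroup l A × ((l ⊕ l → A) × A)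

/-- the stabiliser of `e₀` -/
def psi (h : HH l A) : symplecticGroup (Option l) A := ioS h.1 * heS h.2.1 h.2.2

omit [TopologicalSpace A] [IsTopologicalRing A] [T2Space A] [LocallyCompactSpace A]
  [SecondCountableTopology A] [PolishSpace A] [MeasurableSpace A] [BorelSpace A] in
theorem psi_inj : Function.Injective (psi (l := l) (A := A)) := by
  rintro ⟨S, b, c⟩ ⟨S', b', c'⟩ h
  obtain ⟨h1, h2, h3⟩ := coord_inj h
  exact Prod.ext h1 (Prod.ext h2 h3)

omit [TopologicalSpace A] [IsTopologicalRing A] [T2Space A] [LocallyCompactSpace A]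
  [SecondCountableTopology A] [PolishSpace A] [MeasurableSpace A] [BorelSpace A] in
theorem psi_e0 (h : HH l A) : (psi h).1 *ᵥ e0 = e0 := by
  rw [psi, mul_mulVec, heS_e0, ioS_e0]

omit [TopologicalSpace A] [IsTopologicalRing A] [T2Space A] [LocallyCompactSpace A]
  [SecondCountableTopology A] [PolishSpace A] [MeasurableSpace A] [BorelSpace A] in
theorem psi_surj {g : symplecticGroup (Option l) A} (hg : g.1 *ᵥ e0 = e0) :
    ∃ h : HH l A, psi h = g := by
  obtain ⟨S, b, c, h⟩ := exists_coord g hg
  exact ⟨(S, b, c), h.symm⟩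

theorem cont_psi : Continuous (psi (l := l) (A := A)) :=
  (cont_ioS.comp continuous_fst).mul (cont_heS.comp continuous_snd)

/-- left multiplication in the coordinates of the stabiliser -/
def Lm (h₀ h : HH l A) : HH l A :=
  (h₀.1 * h.1, ((h.1⁻¹).1 *ᵥ h₀.2.1 + h.2.1,
    h₀.2.2 + h.2.2 + om h.2.1 ((h.1⁻¹).1 *ᵥ h₀.2.1)))

omit [TopologicalSpace A] [IsTopologicalRing A] [T2Space A] [LocallyCompactSpace A]
  [SecondCountableTopology A] [PolishSpace A] [MeasurableSpace A] [BorelSpace A] in
theorem psi_Lm (h₀ h : HH l A) : psi h₀ * psi h = psi (Lm h₀ h) := coord_mul _ _ _ _ _ _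

theorem cont_Lm : Continuous fun p : HH l A × HH l A => Lm p.1 p.2 := by
  have h1 : Continuous fun p : HH l A × HH l A => (p.2.1⁻¹).1 *ᵥ p.1.2.1 :=
    Continuous.matrix_mulVec (continuous_subtype_val.comp
      (continuous_inv.comp (continuous_fst.comp continuous_snd)))
      (continuous_fst.comp (continuous_snd.comp continuous_fst))
  have h2 : Continuous fun p : HH l A × HH l A => om p.2.2.1 ((p.2.1⁻¹).1 *ᵥ p.1.2.1) :=
    cont_om.comp ((continuous_fst.comp (continuous_snd.comp continuous_snd)).prodMk h1)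
  have h3 : Continuous fun p : HH l A × HH l A => p.1.1 * p.2.1 :=
    (continuous_fst.comp continuous_fst).mul (continuous_fst.comp continuous_snd)
  have h4 : Continuous fun p : HH l A × HH l A => p.2.2.1 :=
    continuous_fst.comp (continuous_snd.comp continuous_snd)
  have h5 : Continuous fun p : HH l A × HH l A => p.1.2.2 + p.2.2.2 :=
    (continuous_snd.comp (continuous_snd.comp continuous_fst)).add
      (continuous_snd.comp (continuous_snd.comp continuous_snd))
  exact h3.prodMk ((h1.add h4).prodMk (h5.add h2))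

variable [MeasurableSpace (symplecticGroup l A)] [BorelSpace (symplecticGroup l A)]
  (μ : Measure (symplecticGroup l A)) [IsHaarMeasure μ] (vA : Measure A) [IsAddHaarMeasure vA]

/-- the volume of the vector space -/
noncomputable abbrev vo (m : Type) [Fintype m] (vA : Measure A) : Measure (m → A) :=
  Measure.pi fun _ => vA

/-- the Haar measure of the stabiliser in coordinates -/
noncomputable def mH : Measure (HH l A) := μ.prod ((vo (l ⊕ l) vA).prod vA)

instance : SigmaFinite (mH μ vA) := by unfold mH; infer_instance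

theorem mp_Lm (h₀ : HH l A) : MeasurePreserving (Lm h₀) (mH μ vA) (mH μ vA) := by
  have h1 : MeasurePreserving (fun S => h₀.1 * S) μ μ := measurePreserving_mul_left μ _
  refine h1.skew_product (g := fun (S : symplecticGroup l A) (p : (l ⊕ l → A) × A) =>
    ((S⁻¹).1 *ᵥ h₀.2.1 + p.1,
    h₀.2.2 + p.2 + om p.1 ((S⁻¹).1 *ᵥ h₀.2.1))) ?_ (ae_of_all _ fun S => ?_)
  · have h2 : Continuous fun h : HH l A => Lm h₀ h :=
      cont_Lm.comp (Continuous.prodMk continuous_const continuous_id)
    exact (continuous_snd.comp h2).measurable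
  · have h2 : MeasurePreserving (fun b : l ⊕ l → A => (S⁻¹).1 *ᵥ h₀.2.1 + b) (vo (l ⊕ l) vA)
        (vo (l ⊕ l) vA) := measurePreserving_add_left (vo (l ⊕ l) vA) _
    have h3 : MeasurePreserving (fun p : (l ⊕ l → A) × A => ((S⁻¹).1 *ᵥ h₀.2.1 + p.1,
        h₀.2.2 + p.2 + om p.1 ((S⁻¹).1 *ᵥ h₀.2.1)))
        ((vo (l ⊕ l) vA).prod vA) ((vo (l ⊕ l) vA).prod vA) := by
      refine h2.skew_product (g := fun b c => h₀.2.2 + c + om b ((S⁻¹).1 *ᵥ h₀.2.1)) ?_
        (ae_of_all _ fun b => ?_)
      · have h4 : Continuous fun p : (l ⊕ l → A) × A =>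
            h₀.2.2 + p.2 + om p.1 ((S⁻¹).1 *ᵥ h₀.2.1) :=
          (continuous_const.add continuous_snd).add
            (cont_om.comp (continuous_fst.prodMk continuous_const))
        exact h4.measurable
      · have h5 : (fun c : A => h₀.2.2 + c + om b ((S⁻¹).1 *ᵥ h₀.2.1)) =
            fun c : A => (h₀.2.2 + om b ((S⁻¹).1 *ᵥ h₀.2.1)) + c := by
          funext c; ring
        rw [h5]
        exact (measurePreserving_add_left vA _).map_eq
    exact h3.map_eq

end meas

section haar

variable {l : Type} [Fintype l] [DecidableEq l] {A : Type} [CommRing A] [TopologicalSpace A]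
  [IsTopologicalRing A] [T2Space A] [LocallyCompactSpace A] [SecondCountableTopology A]
  [PolishSpace A] [MeasurableSpace A] [BorelSpace A]
  [MeasurableSpace (symplecticGroup l A)] [BorelSpace (symplecticGroup l A)]
  [MeasurableSpace (symplecticGroup (Option l) A)]
  [BorelSpace (symplecticGroup (Option l) A)]
  (μ : Measure (symplecticGroup l A)) [IsHaarMeasure μ] (vA : Measure A) [IsAddHaarMeasure vA]
  (iv : A → A)

attribute [local instance] sp_t2 sp_lc sp_sc sp_pol sp_itg

theorem meas_sec (hiv : Measurable iv) :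
    Measurable fun x : Option l ⊕ Option l → A => sec (iv (x (Sum.inl none))) x := by
  have h2 : Measurable fun x : Option l ⊕ Option l → A => (iv (x (Sum.inl none)), x) :=
    (hiv.comp (measurable_pi_apply _)).prodMk measurable_id
  have h3 : Measurable fun p : A × (Option l ⊕ Option l → A) => sec p.1 p.2 :=
    cont_sec.measurable
  exact Measurable.comp (g := fun p : A × (Option l ⊕ Option l → A) => sec p.1 p.2)
    (f := fun x : Option l ⊕ Option l → A => (iv (x (Sum.inl none)), x)) h3 h2

/-- the coordinates of the big group -/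
def Phi (p : (Option l ⊕ Option l → A) × HH l A) : symplecticGroup (Option l) A :=
  sec (iv (p.1 (Sum.inl none))) p.1 * psi p.2

theorem meas_Phi (hiv : Measurable iv) : Measurable (Phi (l := l) iv) :=
  ((meas_sec iv hiv).comp measurable_fst).mul (cont_psi.measurable.comp measurable_snd)

theorem Phi_e0 {p : (Option l ⊕ Option l → A) × HH l A} (hp : Gd iv (p.1 (Sum.inl none))) :
    (Phi iv p).1 *ᵥ e0 = p.1 := by
  rw [Phi, mul_mulVec, psi_e0, sec_e0 hp]

theorem Phi_injOn : InjOn (Phi (l := l) iv) {p | Gd iv (p.1 (Sum.inl none))} := by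
  rintro ⟨x, h⟩ hx ⟨x', h'⟩ hx' he
  have h1 : x = x' := by
    have h2 := Phi_e0 iv hx
    have h3 := Phi_e0 iv hx'
    rw [he] at h2
    exact h2.symm.trans h3
  subst h1
  have h4 : psi h = psi h' := mul_left_cancel he
  rw [psi_inj h4]

theorem Phi_surj {g : symplecticGroup (Option l) A} (hg : Gd iv ((g.1 *ᵥ e0) (Sum.inl none))) :
    ∃ h : HH l A, Phi iv (g.1 *ᵥ e0, h) = g := by
  obtain ⟨h, hh⟩ := psi_surj
    (g := (sec (iv ((g.1 *ᵥ e0) (Sum.inl none))) (g.1 *ᵥ e0))⁻¹ * g) (by
    rw [mul_mulVec]
    have h1 := congrArg (fun y => ((sec (iv ((g.1 *ᵥ e0) (Sum.inl none))) (g.1 *ᵥ e0))⁻¹).1 *ᵥ y)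
      (sec_e0 hg)
    exact h1.symm.trans (inv_mulVec _ _))
  exact ⟨h, by rw [Phi, hh, mul_inv_cancel_left]⟩

/-- the measure in the coordinates -/
noncomputable def MM : Measure ((Option l ⊕ Option l → A) × HH l A) :=
  (Measure.pi fun _ => vA).prod (mH μ vA)

instance : SigmaFinite (MM μ vA) := by unfold MM; infer_instance

variable {vA iv}

theorem ae_gd (hR : RH A vA iv) :
    ∀ᵐ x ∂(Measure.pi fun _ : Option l ⊕ Option l => vA), Gd iv (x (Sum.inl none)) := by
  have h1 : ∀ᵐ u ∂vA, Gd iv u := by rw [ae_iff]; exact hR.null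
  exact (Measure.quasiMeasurePreserving_eval (fun _ : Option l ⊕ Option l => vA)
    (Sum.inl none)).ae h1

theorem ae_coord (hR : RH A vA iv) : ∀ᵐ p ∂(MM μ vA), Gd iv (p.1 (Sum.inl none)) :=
  Measure.quasiMeasurePreserving_fst.ae (ae_gd hR)

theorem vol (hR : RH A vA iv) {m : Type} [Fintype m] [DecidableEq m] (g : symplecticGroup m A) :
    MeasurePreserving (fun x : m ⊕ m → A => g.1 *ᵥ x) (Measure.pi fun _ => vA)
      (Measure.pi fun _ => vA) := hR.vol (m ⊕ m) (toSL m A g)

theorem ae_coord' (hR : RH A vA iv) (g : symplecticGroup (Option l) A) :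
    ∀ᵐ p ∂(MM μ vA), Gd iv ((g.1 *ᵥ p.1) (Sum.inl none)) :=
  Measure.quasiMeasurePreserving_fst.ae ((vol hR g).quasiMeasurePreserving.ae (ae_gd hR))

theorem exists_iv : ∃ jv : symplecticGroup (Option l) A → HH l A, Measurable jv ∧
    ∀ h, jv (psi h) = h := by
  have h1 : MeasurableEmbedding (psi (l := l) (A := A)) :=
    cont_psi.measurable.measurableEmbedding psi_inj
  obtain ⟨iv, h2, h3⟩ := h1.exists_measurable_extend measurable_id fun _ => ⟨(1, 0, 0)⟩
  exact ⟨iv, h2, fun h => congrFun h3 h⟩

/-- the measure is left invariant -/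
theorem left_inv (hR : RH A vA iv) (g : symplecticGroup (Option l) A) :
    ((MM μ vA).map (Phi iv)).map (g * ·) = (MM μ vA).map (Phi iv) := by
  obtain ⟨jv, hjv, hjvp⟩ := exists_iv (l := l) (A := A)
  obtain ⟨se, hse⟩ : ∃ se : (Option l ⊕ Option l → A) → symplecticGroup (Option l) A,
      se = fun x => sec (iv (x (Sum.inl none))) x := ⟨_, rfl⟩
  have hsem : Measurable se := by rw [hse]; exact meas_sec iv hR.meas
  have hP : Phi iv = fun p : (Option l ⊕ Option l → A) × HH l A => se p.1 * psi p.2 := by
    rw [hse]; rfl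
  have hse0 : ∀ {x : Option l ⊕ Option l → A}, Gd iv (x (Sum.inl none)) →
      (se x).1 *ᵥ e0 = x := by
    intro x hx; rw [hse]; exact sec_e0 hx
  obtain ⟨η, hη⟩ : ∃ η : (Option l ⊕ Option l → A) → symplecticGroup (Option l) A,
      ∀ x, η x = (se (g.1 *ᵥ x))⁻¹ * (g * se x) := ⟨_, fun _ => rfl⟩
  have hηm : Measurable η := by
    have h1 : η = fun x => (se (g.1 *ᵥ x))⁻¹ * (g * se x) := funext hη
    rw [h1]
    exact (hsem.comp (vol hR g).measurable).inv.mul (hsem.const_mul g)
  have hT : MeasurePreserving (fun p : (Option l ⊕ Option l → A) × HH l A =>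
      (g.1 *ᵥ p.1, Lm (jv (η p.1)) p.2)) (MM μ vA) (MM μ vA) := by
    refine (vol hR g).skew_product (g := fun x h => Lm (jv (η x)) h) ?_
      (ae_of_all _ fun x => (mp_Lm μ vA _).map_eq)
    exact cont_Lm.measurable.comp
      (((hjv.comp hηm).comp measurable_fst).prodMk measurable_snd)
  rw [Measure.map_map (measurable_const_mul g) (meas_Phi iv hR.meas)]
  have h2 : ((fun x => g * x) ∘ Phi iv) =ᵐ[MM μ vA]
      (Phi iv ∘ fun p : (Option l ⊕ Option l → A) × HH l A =>
        (g.1 *ᵥ p.1, Lm (jv (η p.1)) p.2)) := by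
    filter_upwards [ae_coord μ hR, ae_coord' μ hR g] with p hp hp'
    have h3 : (η p.1).1 *ᵥ e0 = e0 := by
      rw [hη, mul_mulVec, mul_mulVec, hse0 hp]
      have h1 := congrArg (fun y => ((se (g.1 *ᵥ p.1))⁻¹).1 *ᵥ y) (hse0 hp')
      exact h1.symm.trans (inv_mulVec _ _)
    obtain ⟨h', hh'⟩ := psi_surj h3
    have h4 : psi (jv (η p.1)) = η p.1 := by
      rw [← hh', hjvp h']
    show g * Phi iv p = Phi iv (g.1 *ᵥ p.1, Lm (jv (η p.1)) p.2)
    rw [hP]
    simp only
    rw [← psi_Lm, h4, hη]
    simp only [mul_assoc, mul_inv_cancel_left]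
  rw [Measure.map_congr h2, ← Measure.map_map (meas_Phi iv hR.meas) hT.measurable, hT.map_eq]

/-- the set of the elements without coordinates -/
def NN (l : Type) [Fintype l] [DecidableEq l] (iv : A → A) :
    Set (symplecticGroup (Option l) A) := {g | ¬ Gd iv ((g.1 *ᵥ e0) (Sum.inl none))}

theorem meas_NN (hR : RH A vA iv) : MeasurableSet (NN l iv) := by
  have h0 : Continuous fun g : symplecticGroup (Option l) A =>
      g.1 *ᵥ (e0 : Option l ⊕ Option l → A) :=
    Continuous.matrix_mulVec continuous_subtype_val continuous_const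
  have h1 : Continuous fun g : symplecticGroup (Option l) A =>
      (g.1 *ᵥ (e0 : Option l ⊕ Option l → A)) (Sum.inl none) :=
    (continuous_apply (Sum.inl none : Option l ⊕ Option l)).comp h0
  exact ((OK.meas_gd hR).preimage h1.measurable).compl

theorem meas_D (hR : RH A vA iv) :
    MeasurableSet {p : (Option l ⊕ Option l → A) × HH l A | Gd iv (p.1 (Sum.inl none))} :=
  (OK.meas_gd hR).preimage
    ((measurable_pi_apply (Sum.inl none : Option l ⊕ Option l)).comp measurable_fst)

/-- the measure of an image is at most the measure of the set -/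
theorem map_image_le (hR : RH A vA iv) {B : Set ((Option l ⊕ Option l → A) × HH l A)}
    (hB : MeasurableSet B) :
    (MM μ vA).map (Phi iv) (Phi iv '' (B ∩ {p | Gd iv (p.1 (Sum.inl none))}) ∪ NN l iv) ≤
      MM μ vA B := by
  have h1 : MeasurableSet (Phi iv '' (B ∩ {p | Gd iv (p.1 (Sum.inl none))}) ∪ NN l iv) :=
    ((hB.inter (meas_D hR)).image_of_measurable_injOn (meas_Phi iv hR.meas)
      ((Phi_injOn iv).mono inter_subset_right)).union (meas_NN hR)
  rw [Measure.map_apply (meas_Phi iv hR.meas) h1]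
  refine measure_mono_ae ?_
  filter_upwards [ae_coord μ hR] with p hp hp'
  rcases hp' with ⟨q, hq, hqp⟩ | hp'
  · have := Phi_injOn iv hq.2 hp hqp
    rw [← this]; exact hq.1
  · have h2 : ¬ Gd iv (((Phi iv p).1 *ᵥ e0) (Sum.inl none)) := hp'
    rw [Phi_e0 iv hp] at h2
    exact absurd hp h2

theorem cover_all (g : symplecticGroup (Option l) A) :
    g ∈ NN l iv ∨ ∃ p : (Option l ⊕ Option l → A) × HH l A, Gd iv (p.1 (Sum.inl none)) ∧
      Phi iv p = g := by
  by_cases hg : Gd iv ((g.1 *ᵥ e0) (Sum.inl none))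
  · obtain ⟨h, hh⟩ := Phi_surj iv hg
    exact Or.inr ⟨_, hg, hh⟩
  · exact Or.inl hg

theorem sigmaFinite_map (hR : RH A vA iv) : SigmaFinite ((MM μ vA).map (Phi (l := l) iv)) := by
  refine ⟨⟨{
    set := fun n => Phi iv '' (spanningSets (MM μ vA) n ∩ {p | Gd iv (p.1 (Sum.inl none))}) ∪
      NN l iv
    set_mem := fun _ => trivial
    finite := fun n => (map_image_le μ hR (measurableSet_spanningSets _ n)).trans_lt
      (measure_spanningSets_lt_top _ n)
    spanning := ?_ }⟩⟩
  rw [eq_univ_iff_forall]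
  intro g
  rw [mem_iUnion]
  rcases cover_all (iv := iv) g with hg | ⟨p, hp, hpg⟩
  · exact ⟨0, Or.inr hg⟩
  · have h1 : p ∈ ⋃ n, spanningSets (MM μ vA) n := by rw [iUnion_spanningSets]; trivial
    obtain ⟨n, hn⟩ := mem_iUnion.1 h1
    exact ⟨n, Or.inl ⟨p, ⟨hn, hp⟩, hpg⟩⟩

/-- **The criterion**: the Haar measure of the image of a set of finite measure is finite. -/
theorem haar_image_lt (hR : RH A vA iv) (ν : Measure (symplecticGroup (Option l) A))
    [IsHaarMeasure ν] {B : Set ((Option l ⊕ Option l → A) × HH l A)} (hB : MeasurableSet B)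
    (hB1 : MM μ vA B < ∞) :
    ν (Phi iv '' (B ∩ {p | Gd iv (p.1 (Sum.inl none))}) ∪ NN l iv) < ∞ := by
  have hσ := sigmaFinite_map μ hR
  have hL : IsMulLeftInvariant ((MM μ vA).map (Phi iv)) := ⟨fun g => left_inv μ hR g⟩
  obtain ⟨ρ, hρ⟩ : ∃ ρ, ρ = (MM μ vA).map (Phi iv) := ⟨_, rfl⟩
  rw [← hρ] at hσ hL
  have h0 : ρ univ ≠ 0 := by
    rw [hρ, Measure.map_apply (meas_Phi iv hR.meas) MeasurableSet.univ, preimage_univ, MM, mH,
      ← univ_prod_univ, Measure.prod_prod, ← univ_prod_univ, Measure.prod_prod, ← univ_prod_univ,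
      Measure.prod_prod]
    refine mul_ne_zero (measure_univ_ne_zero.2 (NeZero.ne _)) (mul_ne_zero
      (measure_univ_ne_zero.2 (NeZero.ne _)) (mul_ne_zero (measure_univ_ne_zero.2 (NeZero.ne _))
        (measure_univ_ne_zero.2 (NeZero.ne _))))
  obtain ⟨s, hs1, hs2⟩ : ∃ s, (ρ + ν) s < ∞ ∧ ρ s ≠ 0 := by
    by_contra hcon
    push Not at hcon
    refine h0 ?_
    rw [← iUnion_spanningSets (ρ + ν), measure_iUnion_null_iff]
    exact fun n => hcon _ (measure_spanningSets_lt_top _ n)
  rw [Measure.add_apply, ENNReal.add_lt_top] at hs1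
  have h1 := measure_mul_measure_eq ν ρ s
    (Phi iv '' (B ∩ {p | Gd iv (p.1 (Sum.inl none))}) ∪ NN l iv) hs2 hs1.1.ne
  have h2 : ρ (Phi iv '' (B ∩ {p | Gd iv (p.1 (Sum.inl none))}) ∪ NN l iv) < ∞ := by
    rw [hρ]; exact (map_image_le μ hR hB).trans_lt hB1
  have h3 : ρ s * ν (Phi iv '' (B ∩ {p | Gd iv (p.1 (Sum.inl none))}) ∪ NN l iv) < ∞ := by
    rw [← h1]; exact ENNReal.mul_lt_top hs1.2 h2
  exact ENNReal.lt_top_of_mul_ne_top_right h3.ne hs2

end haar

end Vale.Agent.P092.H677.SP
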