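import Vale.Agent.P092.H677.SPa

/-!
P092 (helper677), [OK-SP], part 2: congruences; `Sp_{2n}(𝓞 K)` has finitely many orbits on the lines
of `K^{2n}`.
-/

set_option linter.all false

open Matrix NumberField
open scoped nonZeroDivisors

namespace Vale.Agent.P092.H677.SP

open Vale.Agent.P092.H759 (om mul_mulVec one_mulVec' inv_mulVec mulVec_inv sp_ext mp mp_mulVec e0
  f0 emb prj emb_zero ioS heS heS_zero ioS_one mp_ioS mp_heS)
open Vale.Agent.P092.H677.OK (PE AdmE Cg exists_orbits exists_den finite_quot conj_int mK mO mM io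
  pe_T pe_step pe_unit QQ)

section pe

variable {R K : Type} [CommRing R] [IsDedekindDomain R] [Field K] [Algebra R K]
  [IsFractionRing R K] {l l' : Type} [DecidableEq l] [DecidableEq l']

theorem pe_equiv (e : l ≃ l') {b : l} (h : PE R K l b) : PE R K l' (e b) := by
  intro u hu
  have hu' : (u ∘ e) ≠ 0 := by
    intro h0
    apply hu
    funext i
    have := congrFun h0 (e.symm i)
    simpa using this
  obtain ⟨E, hE, I, hI, hIE⟩ := h _ hu'
  obtain ⟨F, hF, hF'⟩ : ∃ F : (l → K) ≃ₗ[K] (l' → K), (∀ x i, F x i = x (e.symm i)) ∧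
      ∀ x i, F.symm x i = x (e i) :=
    ⟨{ toFun := fun x i => x (e.symm i)
       invFun := fun x i => x (e i)
       map_add' := fun _ _ => rfl
       map_smul' := fun _ _ => rfl
       left_inv := fun x => by funext i; simp
       right_inv := fun x => by funext i; simp }, fun _ _ => rfl, fun _ _ => rfl⟩
  refine ⟨F.symm.trans (E.trans F), ?_, fun i => I (e.symm i), fun i => hI _, fun x => ?_⟩
  · have h1 : F.symm (Pi.single (e b) 1) = Pi.single b 1 := by
      funext i
      rw [hF']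
      by_cases hi : i = b
      · subst hi; simp
      · rw [Pi.single_eq_of_ne hi, Pi.single_eq_of_ne]
        intro h
        exact hi (e.injective h)
    rw [LinearEquiv.trans_apply, LinearEquiv.trans_apply, h1, hE]
    funext i
    rw [hF]
    simp
  · have h2 := hIE (F.symm x)
    have h3 : (∀ i, (F.symm.trans (E.trans F)) x i ∈ (1 : FractionalIdeal R⁰ K)) ↔
        ∀ i, E (F.symm x) i ∈ (1 : FractionalIdeal R⁰ K) := by
      constructor
      · intro h i
        have := h (e i)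
        rw [LinearEquiv.trans_apply, LinearEquiv.trans_apply, hF] at this
        simpa using this
      · intro h i
        rw [LinearEquiv.trans_apply, LinearEquiv.trans_apply, hF]
        exact h _
    rw [h3, h2]
    constructor
    · intro h i
      have := h (e.symm i)
      rw [hF'] at this
      simpa using this
    · intro h i
      rw [hF']
      have := h (e i)
      simpa using this

end pe

section homs

variable {l : Type} [Fintype l] [DecidableEq l] {R S : Type} [CommRing R] [CommRing S]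

/-- `SL_n` in `Sp_{2n}` -/
def al (l : Type) [Fintype l] [DecidableEq l] (R : Type) [CommRing R] :
    SpecialLinearGroup l R →* symplecticGroup l R where
  toFun g := ⟨fromBlocks g.1 0 0 (g⁻¹).1ᵀ, by
    rw [SymplecticGroup.fromBlocks_mem_iff]
    refine ⟨by simp, by simp, ?_⟩
    rw [Matrix.transpose_zero, Matrix.zero_mul, sub_zero, ← Matrix.transpose_mul]
    have h : (g⁻¹).1 * g.1 = 1 := congrArg Subtype.val (inv_mul_cancel g)
    rw [h, Matrix.transpose_one]⟩
  map_one' := by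
    apply Subtype.ext
    show fromBlocks (1 : Matrix l l R) 0 0 ((1 : SpecialLinearGroup l R)⁻¹).1ᵀ = 1
    rw [inv_one]
    show fromBlocks (1 : Matrix l l R) 0 0 (1 : Matrix l l R)ᵀ = 1
    rw [Matrix.transpose_one, fromBlocks_one]
  map_mul' g h := by
    apply Subtype.ext
    show fromBlocks (g * h).1 0 0 ((g * h)⁻¹).1ᵀ =
      fromBlocks g.1 0 0 (g⁻¹).1ᵀ * fromBlocks h.1 0 0 (h⁻¹).1ᵀ
    rw [fromBlocks_multiply, _root_.mul_inv_rev]
    have h1 : (h⁻¹ * g⁻¹).1 = (h⁻¹).1 * (g⁻¹).1 := rfl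
    have h2 : (g * h).1 = g.1 * h.1 := rfl
    rw [h1, h2, Matrix.transpose_mul]
    simp

theorem al_mulVec (g : SpecialLinearGroup l R) (x : l → R) :
    (al l R g).1 *ᵥ (Sum.elim x 0) = Sum.elim (g.1 *ᵥ x) 0 := by
  show fromBlocks g.1 0 0 (g⁻¹).1ᵀ *ᵥ _ = _
  rw [fromBlocks_mulVec]
  simp

theorem mp_al (f : R →+* S) (g : SpecialLinearGroup l R) :
    mp f (al l R g) = al l S (SpecialLinearGroup.map f g) := by
  apply Subtype.ext
  show (fromBlocks g.1 0 0 (g⁻¹).1ᵀ).map f = fromBlocks (SpecialLinearGroup.map f g).1 0 0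
    ((SpecialLinearGroup.map f g)⁻¹).1ᵀ
  rw [fromBlocks_map, ← map_inv]
  rw [Matrix.map_zero _ (map_zero f)]
  rfl

/-- a product of groups `SL_2` in `Sp_{2n}` -/
def be (g : l → SpecialLinearGroup (Fin 2) R) : symplecticGroup l R :=
  ⟨fromBlocks (diagonal fun i => (g i).1 0 0) (diagonal fun i => (g i).1 0 1)
    (diagonal fun i => (g i).1 1 0) (diagonal fun i => (g i).1 1 1), by
    rw [SymplecticGroup.fromBlocks_mem_iff]
    simp only [diagonal_transpose, diagonal_mul_diagonal]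
    refine ⟨?_, ?_, ?_⟩
    · congr 1; funext i; ring
    · congr 1; funext i; ring
    · rw [← diagonal_one, diagonal_sub]
      congr 1
      funext i
      have := (g i).2
      rw [det_fin_two] at this
      linear_combination this⟩

theorem be_mulVec (g : l → SpecialLinearGroup (Fin 2) R) (v : l ⊕ l → R) :
    (be g).1 *ᵥ v = Sum.elim
      (fun i => (g i).1 0 0 * v (Sum.inl i) + (g i).1 0 1 * v (Sum.inr i))
      (fun i => (g i).1 1 0 * v (Sum.inl i) + (g i).1 1 1 * v (Sum.inr i)) := by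
  show fromBlocks _ _ _ _ *ᵥ _ = _
  rw [fromBlocks_mulVec]
  funext i
  rcases i with i | i
  · simp [mulVec_diagonal]
  · simp [mulVec_diagonal]

theorem be_mul (g h : l → SpecialLinearGroup (Fin 2) R) : be (g * h) = be g * be h := by
  refine sp_ext fun y => ?_
  rw [mul_mulVec, be_mulVec, be_mulVec, be_mulVec]
  have h1 : ∀ i a b, ((g * h) i).1 a b = (g i).1 a 0 * (h i).1 0 b + (g i).1 a 1 * (h i).1 1 b := by
    intro i a b
    show ((g i).1 * (h i).1) a b = _
    rw [Matrix.mul_apply, Fin.sum_univ_two]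
  funext i
  rcases i with i | i
  · simp only [Sum.elim_inl, Sum.elim_inr, h1]; ring
  · simp only [Sum.elim_inl, Sum.elim_inr, h1]; ring

theorem mp_be (f : R →+* S) (g : l → SpecialLinearGroup (Fin 2) R) :
    mp f (be g) = be fun i => SpecialLinearGroup.map f (g i) := by
  apply Subtype.ext
  show (fromBlocks _ _ _ _).map f = fromBlocks _ _ _ _
  rw [fromBlocks_map]
  simp only [Matrix.diagonal_map (map_zero f)]
  rfl

end homs

section cong

variable (K : Type) [Field K] [NumberField K] {l : Type} [Fintype l] [DecidableEq l]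

/-- reduction modulo `N` -/
noncomputable abbrev rN (N : ℕ) : 𝓞 K →+* 𝓞 K ⧸ Ideal.span {((N : ℕ) : 𝓞 K)} :=
  Ideal.Quotient.mk _

theorem cg_iff {N : ℕ} {γ : SpecialLinearGroup l (𝓞 K)} :
    Cg K N γ ↔ SpecialLinearGroup.map (rN K N) γ = 1 := by
  have key : ∀ x y : 𝓞 K, rN K N x = rN K N y ↔ ∃ e, x = y + N * e := by
    intro x y
    rw [Ideal.Quotient.mk_eq_mk_iff_sub_mem, Ideal.mem_span_singleton]
    constructor
    · rintro ⟨e, he⟩
      exact ⟨e, by linear_combination he⟩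
    · rintro ⟨e, he⟩
      exact ⟨e, by linear_combination he⟩
  constructor
  · rintro ⟨E, hE⟩
    apply Subtype.ext
    ext1 i j
    show rN K N (γ.1 i j) = (1 : Matrix l l _) i j
    have h1 : (1 : Matrix l l (𝓞 K ⧸ Ideal.span {((N : ℕ) : 𝓞 K)})) i j =
        rN K N ((1 : Matrix l l (𝓞 K)) i j) := by
      by_cases hij : i = j
      · subst hij; rw [one_apply_eq, one_apply_eq, map_one]
      · rw [one_apply_ne hij, one_apply_ne hij, map_zero]
    rw [h1, key]
    refine ⟨E i j, ?_⟩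
    rw [hE]
    rfl
  · intro h
    have h1 : ∀ i j, ∃ e, γ.1 i j = (1 : Matrix l l (𝓞 K)) i j + N * e := by
      intro i j
      rw [← key]
      have h2 := congrArg (fun x : SpecialLinearGroup l _ => x.1 i j) h
      have h1 : (1 : Matrix l l (𝓞 K ⧸ Ideal.span {((N : ℕ) : 𝓞 K)})) i j =
          rN K N ((1 : Matrix l l (𝓞 K)) i j) := by
        by_cases hij : i = j
        · subst hij; rw [one_apply_eq, one_apply_eq, map_one]
        · rw [one_apply_ne hij, one_apply_ne hij, map_zero]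
      exact h2.trans h1
    choose E hE using h1
    exact ⟨Matrix.of E, by ext1 i j; simp [hE]⟩

/-- finitely many cosets -/
theorem exists_reps {N : ℕ} (hN : N ≠ 0) : ∃ (κ : Type) (_ : Finite κ)
    (w : κ → SpecialLinearGroup l (𝓞 K)), ∀ δ, ∃ r, Cg K N (δ * (w r)⁻¹) := by
  have hfin := finite_quot K hN
  have hfin2 : Finite (Matrix l l (𝓞 K ⧸ Ideal.span {((N : ℕ) : 𝓞 K)})) := Pi.finite
  have hfin3 : Finite (SpecialLinearGroup l (𝓞 K ⧸ Ideal.span {((N : ℕ) : 𝓞 K)})) :=
    Subtype.finite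
  have h1 : ∀ r : SpecialLinearGroup l (𝓞 K ⧸ Ideal.span {((N : ℕ) : 𝓞 K)}),
      ∃ w : SpecialLinearGroup l (𝓞 K), ∀ u, SpecialLinearGroup.map (rN K N) u = r →
        SpecialLinearGroup.map (rN K N) w = r := by
    intro r
    by_cases h : ∃ u, SpecialLinearGroup.map (rN K N) u = r
    · obtain ⟨u, hu⟩ := h
      exact ⟨u, fun _ _ => hu⟩
    · exact ⟨1, fun u hu => (h ⟨u, hu⟩).elim⟩
  choose w hw using h1
  refine ⟨_, hfin3, w, fun δ => ⟨SpecialLinearGroup.map (rN K N) δ, ?_⟩⟩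
  rw [cg_iff, map_mul, map_inv, hw _ δ rfl, mul_inv_cancel]

/-- from `𝓞 K` to `K` -/
noncomputable abbrev sK (l : Type) [Fintype l] [DecidableEq l] :
    symplecticGroup l (𝓞 K) →* symplecticGroup l K := mp (algebraMap (𝓞 K) K)

/-- from `K` to the mixed space -/
noncomputable abbrev sM (l : Type) [Fintype l] [DecidableEq l] :
    symplecticGroup l K →* symplecticGroup l (mixedEmbedding.mixedSpace K) :=
  mp (mixedEmbedding K)

/-- from `𝓞 K` to the mixed space -/
noncomputable abbrev sO (l : Type) [Fintype l] [DecidableEq l] :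
    symplecticGroup l (𝓞 K) →* symplecticGroup l (mixedEmbedding.mixedSpace K) := mp (io K)

theorem sM_sK (γ : symplecticGroup l (𝓞 K)) : sM K l (sK K l γ) = sO K l γ := rfl

/-- congruent to one -/
def CgS (N : ℕ) (γ : symplecticGroup l (𝓞 K)) : Prop := Cg K N (toSL l (𝓞 K) γ)

theorem cgS_iff {N : ℕ} {γ : symplecticGroup l (𝓞 K)} : CgS K N γ ↔ mp (rN K N) γ = 1 := by
  rw [CgS, cg_iff, ← toSL_map]
  constructor
  · intro h
    exact toSL_inj (by rw [h, map_one])
  · intro h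
    rw [h, map_one]

theorem cgS_al {N : ℕ} {δ : SpecialLinearGroup l (𝓞 K)} (h : Cg K N δ) : CgS K N (al l _ δ) := by
  rw [cg_iff] at h
  rw [cgS_iff, mp_al, h, map_one]

theorem lift_sp {g : symplecticGroup l K} {γ₀ : SpecialLinearGroup (l ⊕ l) (𝓞 K)}
    (h : mK K (l ⊕ l) γ₀ = toSL l K g) : ∃ γ : symplecticGroup l (𝓞 K), sK K l γ = g := by
  have h1 : γ₀.1.map (algebraMap (𝓞 K) K) = g.1 := congrArg Subtype.val h
  have hinj : Function.Injective (algebraMap (𝓞 K) K) := RingOfIntegers.coe_injective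
  have h2 : γ₀.1 ∈ symplecticGroup l (𝓞 K) := by
    rw [SymplecticGroup.mem_iff]
    apply Matrix.map_injective hinj
    have h3 := SymplecticGroup.mem_iff.1 g.2
    rw [← h1] at h3
    show (γ₀.1 * J l (𝓞 K) * (γ₀.1)ᵀ).map (algebraMap (𝓞 K) K) =
      (J l (𝓞 K)).map (algebraMap (𝓞 K) K)
    rw [Matrix.map_mul, Matrix.map_mul, map_J, transpose_map]
    exact h3
  exact ⟨⟨_, h2⟩, Subtype.ext h1⟩

/-- denominators -/
theorem exists_dens {ι : Type} [Finite ι] (h : ι → symplecticGroup l K) : ∃ D : ℕ, D ≠ 0 ∧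
    (∀ i, ∃ H' : Matrix (l ⊕ l) (l ⊕ l) (𝓞 K),
      H'.map (algebraMap (𝓞 K) K) = (D : K) • ((h i)⁻¹).1) ∧
    ∀ i (δ : symplecticGroup l (𝓞 K)), CgS K (D * D) δ → ∃ γ : symplecticGroup l (𝓞 K),
      sK K l γ = h i * sK K l δ * (h i)⁻¹ := by
  obtain ⟨D, hD0, hD⟩ := exists_den K (fun p : (ι × (l ⊕ l) × (l ⊕ l)) ⊕
    (ι × (l ⊕ l) × (l ⊕ l)) => Sum.elim (fun q => (h q.1).1 q.2.1 q.2.2)
      (fun q => ((h q.1)⁻¹).1 q.2.1 q.2.2) p)
  have hH : ∀ i, ∃ H : Matrix (l ⊕ l) (l ⊕ l) (𝓞 K),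
      H.map (algebraMap (𝓞 K) K) = (D : K) • (h i).1 := by
    intro i
    choose H hH using fun a b => hD (Sum.inl (i, a, b))
    exact ⟨Matrix.of H, by ext a b; exact hH a b⟩
  have hH' : ∀ i, ∃ H : Matrix (l ⊕ l) (l ⊕ l) (𝓞 K),
      H.map (algebraMap (𝓞 K) K) = (D : K) • ((h i)⁻¹).1 := by
    intro i
    choose H hH using fun a b => hD (Sum.inr (i, a, b))
    exact ⟨Matrix.of H, by ext a b; exact hH a b⟩
  refine ⟨D, hD0, hH', fun i δ hδ => ?_⟩
  obtain ⟨H, hH⟩ := hH i
  obtain ⟨H', hH'⟩ := hH' i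
  have e1 : ((toSL l K (h i))⁻¹).1 = ((h i)⁻¹).1 := by rw [← map_inv]; rfl
  obtain ⟨γ₀, hγ₀⟩ := conj_int K (h := toSL l K (h i)) hH (by rw [e1]; exact hH') hδ
  refine lift_sp K (γ₀ := γ₀) ?_
  rw [hγ₀, map_mul, map_mul, map_inv]
  rfl

/-- **finitely many orbits of `Sp_{2n}(𝓞 K)` on the lines of `K^{2n}`** -/
theorem exists_orbits_sp {b : l} (hP : PE (𝓞 K) K l b) :
    ∃ (ι : Type) (_ : Finite ι) (h : ι → symplecticGroup l K), ∀ u : l ⊕ l → K, u ≠ 0 →
      ∃ i, ∃ t : K, t ≠ 0 ∧ ∃ γ : symplecticGroup l (𝓞 K),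
        u = t • ((sK K l γ * h i).1 *ᵥ Pi.single (Sum.inl b) 1) := by
  classical
  -- the planes
  have hP2 : PE (𝓞 K) K (Fin 2) 0 := by
    obtain ⟨e, he⟩ : ∃ e : Unit ⊕ Unit ≃ Fin 2, e (Sum.inl ()) = 0 :=
      ⟨{ toFun := Sum.elim (fun _ => 0) (fun _ => 1)
         invFun := fun i => if i = 0 then Sum.inl () else Sum.inr ()
         left_inv := by rintro (i | i) <;> simp
         right_inv := by intro i; fin_cases i <;> simp }, rfl⟩
    rw [← he]
    exact pe_equiv e (pe_step pe_unit)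
  obtain ⟨ι₂, hι₂, h₂, hh₂⟩ := exists_orbits (R := 𝓞 K) (K := K) (b := (0 : Fin 2)) (b' := 1)
    (by simp) hP2
  have hne : Nonempty ι₂ := by
    obtain ⟨i, -⟩ := hh₂ (Pi.single 0 1) (by simp)
    exact ⟨i⟩
  -- the Lagrangian
  have hA : ∃ (ι₁ : Type) (_ : Finite ι₁) (k : ι₁ → SpecialLinearGroup l K), ∀ u : l → K, u ≠ 0 →
      ∃ i, ∃ t : K, t ≠ 0 ∧ ∃ γ : SpecialLinearGroup l (𝓞 K),
        u = t • ((mK K l γ * k i).1 *ᵥ Pi.single b 1) := by
    by_cases hb : ∃ b' : l, b ≠ b'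
    · obtain ⟨b', hb'⟩ := hb
      exact exists_orbits hb' hP
    · push Not at hb
      refine ⟨Unit, inferInstance, fun _ => 1, fun u hu => ⟨(), u b, ?_, 1, ?_⟩⟩
      · intro h0
        exact hu (funext fun i => by rw [← hb i, h0]; rfl)
      · rw [map_one, mul_one]
        funext i
        rw [← hb i]
        show u b = u b * (((1 : Matrix l l K) *ᵥ Pi.single b 1) b)
        rw [Matrix.one_mulVec, Pi.single_eq_same, mul_one]
  obtain ⟨ι₁, hι₁, k, hk⟩ := hA
  obtain ⟨D, hD0, -, hconj⟩ := exists_dens K (fun j : l → ι₂ => be fun i => h₂ (j i))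
  obtain ⟨κ, hκ, w, hw⟩ := exists_reps K (l := l) (mul_ne_zero hD0 hD0)
  refine ⟨(l → ι₂) × κ × ι₁, inferInstance, fun p => be (fun i => h₂ (p.1 i)) *
    al l K (mK K l (w p.2.1) * k p.2.2), fun u hu => ?_⟩
  -- the planes
  have h1 : ∀ i, ∃ (j : ι₂) (t : K) (γ : SpecialLinearGroup (Fin 2) (𝓞 K)),
      (![u (Sum.inl i), u (Sum.inr i)] : Fin 2 → K) =
        t • ((mK K _ γ * h₂ j).1 *ᵥ Pi.single 0 1) := by
    intro i
    by_cases h0 : (![u (Sum.inl i), u (Sum.inr i)] : Fin 2 → K) = 0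
    · obtain ⟨j⟩ := hne
      exact ⟨j, 0, 1, by rw [h0, zero_smul]⟩
    · obtain ⟨j, t, -, γ, h⟩ := hh₂ _ h0
      exact ⟨j, t, γ, h⟩
  choose j t γ hγ using h1
  have h2 : u = (sK K l (be γ) * be fun i => h₂ (j i)).1 *ᵥ Sum.elim t 0 := by
    rw [mp_be, ← be_mul, be_mulVec]
    funext i
    have h3 : ∀ i a, (![u (Sum.inl i), u (Sum.inr i)] : Fin 2 → K) a =
        t i * (mK K _ (γ i) * h₂ (j i)).1 a 0 := by
      intro i a
      rw [hγ i, Matrix.mulVec_single_one]
      rfl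
    rcases i with i | i
    · simp only [Sum.elim_inl, Sum.elim_inr, Pi.zero_apply, mul_zero, add_zero]
      have := h3 i 0
      simp only [Matrix.cons_val_zero] at this
      rw [this, mul_comm]
      rfl
    · simp only [Sum.elim_inl, Sum.elim_inr, Pi.zero_apply, mul_zero, add_zero]
      have := h3 i 1
      simp only [Matrix.cons_val_one, Matrix.cons_val_zero, Matrix.cons_val_fin_one] at this
      rw [this, mul_comm]
      rfl
  have ht : t ≠ 0 := by
    rintro rfl
    apply hu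
    rw [h2, mul_mulVec]
    have : (Sum.elim 0 0 : l ⊕ l → K) = 0 := by
      funext i; rcases i with i | i <;> rfl
    rw [this, Matrix.mulVec_zero, Matrix.mulVec_zero]
  obtain ⟨i₁, s, hs, δ, hδ⟩ := hk t ht
  obtain ⟨r, hr⟩ := hw δ
  obtain ⟨γ', hγ'⟩ := hconj j _ (cgS_al K hr)
  refine ⟨(j, r, i₁), s, hs, be γ * γ', ?_⟩
  have h4 : (Sum.elim t 0 : l ⊕ l → K) =
      s • ((al l K (mK K l δ * k i₁)).1 *ᵥ Pi.single (Sum.inl b) 1) := by
    have h5 : (Pi.single (Sum.inl b) 1 : l ⊕ l → K) = Sum.elim (Pi.single b 1) 0 := by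
      funext i
      rcases i with i | i
      · by_cases hi : i = b
        · subst hi; simp
        · simp [hi]
      · simp
    rw [h5, al_mulVec, hδ]
    funext i
    rcases i with i | i
    · rfl
    · simp
  have h6 : sK K l (be γ) * (be fun i => h₂ (j i)) * al l K (mK K l δ * k i₁) =
      sK K l (be γ * γ') * (be (fun i => h₂ (j i)) * al l K (mK K l (w r) * k i₁)) := by
    have h7 : mK K l δ * k i₁ = mK K l (δ * (w r)⁻¹) * (mK K l (w r) * k i₁) := by
      rw [← mul_assoc, ← map_mul, inv_mul_cancel_right]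
    rw [h7, map_mul (al l K), map_mul (sK K l), hγ']
    have h8 : sK K l (al l (𝓞 K) (δ * (w r)⁻¹)) = al l K (mK K l (δ * (w r)⁻¹)) := mp_al _ _
    rw [h8]
    simp only [mul_assoc, inv_mul_cancel_left]
  rw [← h6, h2, h4, Matrix.mulVec_smul, ← mul_mulVec]

end cong

end Vale.Agent.P092.H677.SP
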