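import Vale.Agent.P092.H677.SPb
import Vale.Agent.P092.H678.P.EuL

/-!
P092 (helper677), [OK-SP], part 3: the covering step for `Sp_{2n}(𝓞 K)`.
-/

set_option linter.all false

open Matrix MeasureTheory MeasureTheory.Measure Set Filter Topology NumberField
open NumberField.InfinitePlace NumberField.mixedEmbedding Module
open scoped ENNReal nonZeroDivisors

namespace Vale.Agent.P092.H677.SP

open Vale.Agent.P092.H759 (om om_zero_left om_zero_right mul_mulVec one_mulVec' inv_mulVec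
  mulVec_inv sp_ext mp mp_mulVec e0 f0 emb prj emb_zero ioS heS heS_zero ioS_one mp_ioS mp_heS rx
  rx_rx rxE map_e0)
open Vale.Agent.P092.H678.P (hom_triv_step hom_triv_empty units_sq)
open Vale.Agent.P092.H677.OK (PE AdmE Cg exists_orbits exists_den finite_quot conj_int mK mO mM io
  pe_T pe_step pe_unit QQ T b0 card_T Gd RH iv rh vK kk JJ cmp cmp_ext cmp_glu glu glu_cont cmp_cont
  hom_pi_triv minkowski exists_bound exists_cpt exists_bdd exists_unit_cg vol_pres)

section triv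

theorem hom_triv_k {k : Type} [Field k] [Infinite k] (m : Type) [Fintype m] [DecidableEq m]
    (f : symplecticGroup m k →* (NNReal)ˣ) : f = 1 := by
  classical
  have tr : ∀ {l m : Type} [Fintype l] [DecidableEq l] [Fintype m] [DecidableEq m] (e : l ≃ m),
      (∀ f : symplecticGroup m k →* (NNReal)ˣ, f = 1) →
        ∀ f : symplecticGroup l k →* (NNReal)ˣ, f = 1 := by
    intro l m _ _ _ _ e h f
    have h3 := h (f.comp (rx e))
    ext A
    have h4 := DFunLike.congr_fun h3 (rx e.symm A)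
    rw [MonoidHom.comp_apply] at h4
    have h5 : rx e (rx e.symm A) = A := rx_rx e.symm A
    rw [h5] at h4
    rw [h4]
    rfl
  have h : ∀ n : ℕ, ∀ f : symplecticGroup (Fin n) k →* (NNReal)ˣ, f = 1 := by
    intro n
    induction n with
    | zero => exact fun f => hom_triv_empty f
    | succ n ih =>
      exact tr (finSuccEquiv n) fun f => hom_triv_step f units_sq ih
  exact tr (Fintype.equivFin m) (h _) f

variable (K : Type) [Field K] (m : Type) [Fintype m] [DecidableEq m]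

/-- `Sp` of the mixed space is the product of the groups `Sp` of the completions. -/
noncomputable def spE : symplecticGroup m (mixedSpace K) ≃ₜ*
    ∀ j, symplecticGroup m (kk K j) where
  toFun g j := mp (cmp K j) g
  invFun g := ⟨Matrix.of fun a b => glu K fun j => (g j).1 a b, by
    rw [SymplecticGroup.mem_iff]
    refine Matrix.ext fun a b => cmp_ext K fun j => ?_
    have h1 : (Matrix.of fun a b => glu K fun j => (g j).1 a b).map (cmp K j) = (g j).1 := by
      ext a b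
      simp
    have h2 := congrFun (congrFun (SymplecticGroup.mem_iff.1 (g j).2) a) b
    have h3 : ((Matrix.of fun a b => glu K fun j => (g j).1 a b) * J m (mixedSpace K) *
        (Matrix.of fun a b => glu K fun j => (g j).1 a b)ᵀ).map (cmp K j) =
        (J m (mixedSpace K)).map (cmp K j) := by
      rw [Matrix.map_mul, Matrix.map_mul, map_J, transpose_map, h1]
      exact SymplecticGroup.mem_iff.1 (g j).2
    exact congrFun (congrFun h3 a) b⟩
  left_inv g := by
    apply Subtype.ext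
    ext1 a b
    refine cmp_ext K fun j => ?_
    show cmp K j (glu K fun j => cmp K j (g.1 a b)) = cmp K j (g.1 a b)
    rw [cmp_glu]
  right_inv g := by
    funext j
    apply Subtype.ext
    ext1 a b
    show cmp K j (glu K fun j => (g j).1 a b) = _
    rw [cmp_glu]
  map_mul' g h := by
    funext j
    exact map_mul _ g h
  continuous_toFun := continuous_pi fun j => by
    refine cont_sp ?_
    show Continuous fun g : symplecticGroup m (mixedSpace K) => g.1.map (cmp K j)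
    exact continuous_subtype_val.matrix_map (cmp_cont K j)
  continuous_invFun := by
    refine cont_sp ?_
    refine continuous_matrix fun a b => ?_
    show Continuous fun g : ∀ j, symplecticGroup m (kk K j) => glu K fun j => (g j).1 a b
    refine (glu_cont K).comp (continuous_pi fun j => ?_)
    have h1 : Continuous fun g : ∀ j, symplecticGroup m (kk K j) => (g j).1 :=
      continuous_subtype_val.comp (continuous_apply j)
    exact (continuous_apply b).comp ((continuous_apply a).comp h1)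

theorem hom_triv [NumberField K] (f : symplecticGroup m (mixedSpace K) →* (NNReal)ˣ) :
    f = 1 := by
  classical
  have h1 : f.comp (spE K m).symm.toMonoidHom = 1 := by
    refine hom_pi_triv _ fun j x => ?_
    have h2 : (f.comp (spE K m).symm.toMonoidHom).comp
        (MonoidHom.mulSingle (fun j => symplecticGroup m (kk K j)) j) = 1 := by
      have h3 : Infinite (kk K j) := NontriviallyNormedField.infinite _
      exact hom_triv_k _ _
    exact DFunLike.congr_fun h2 x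
  ext g
  have h2 := DFunLike.congr_fun h1 (spE K m g)
  have h3 : (f.comp (spE K m).symm.toMonoidHom) (spE K m g) = f ((spE K m).symm (spE K m g)) :=
    rfl
  rw [h3, ContinuousMulEquiv.symm_apply_apply] at h2
  rw [h2]
  rfl

end triv

section fm

variable (K : Type) [Field K] [NumberField K] {l : Type} [Fintype l] [DecidableEq l]

/-- finite Haar measure -/
def FM (F : Set (symplecticGroup l (mixedSpace K))) : Prop :=
  ∀ (_ : MeasurableSpace (symplecticGroup l (mixedSpace K)))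
    (_ : BorelSpace (symplecticGroup l (mixedSpace K)))
    (μ : Measure (symplecticGroup l (mixedSpace K))), IsHaarMeasure μ → μ F < ∞

/-- the statement of the induction -/
def PF (l : Type) [Fintype l] [DecidableEq l] : Prop :=
  ∀ N : ℕ, N ≠ 0 → ∃ F : Set (symplecticGroup l (mixedSpace K)), FM K F ∧
    ∀ S, ∃ δ : symplecticGroup l (𝓞 K), CgS K N δ ∧ S * sO K l δ ∈ F

attribute [local instance] sp_t2 sp_lc sp_sc sp_pol sp_itg

theorem rightInv [MeasurableSpace (symplecticGroup l (mixedSpace K))]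
    [BorelSpace (symplecticGroup l (mixedSpace K))]
    (μ : Measure (symplecticGroup l (mixedSpace K))) [IsHaarMeasure μ] :
    IsMulRightInvariant μ :=
  H515.rightInv_of_modChar μ fun g => H515.modChar_of_perfect (fun f => hom_triv K l f) g

theorem FM.iUnion {ι : Type} [Finite ι] {F : ι → Set (symplecticGroup l (mixedSpace K))}
    (h : ∀ i, FM K (F i)) : FM K (⋃ i, F i) := by
  intro ms bs μ hμ
  haveI := Fintype.ofFinite ι
  refine (measure_iUnion_le _).trans_lt ?_
  rw [tsum_fintype]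
  exact ENNReal.sum_lt_top.2 fun i _ => h i ms bs μ hμ

theorem FM.trans {F : Set (symplecticGroup l (mixedSpace K))} (h : FM K F)
    (c : symplecticGroup l (mixedSpace K)) : FM K {x | x * c ∈ F} := by
  intro ms bs μ hμ
  haveI := rightInv K μ
  have h1 : μ {x | x * c ∈ F} = μ F := measure_preimage_mul_right μ c F
  rw [h1]
  exact h ms bs μ hμ

/-- the matrix `diag(ε, 1, …; ε⁻¹, 1, …)` -/
noncomputable def dg (l : Type) [Fintype l] [DecidableEq l] (ε : (𝓞 K)ˣ) :
    symplecticGroup (Option l) (𝓞 K) :=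
  be fun i => i.elim ⟨!![(ε : 𝓞 K), 0; 0, ((ε⁻¹ : (𝓞 K)ˣ) : 𝓞 K)], by
    rw [det_fin_two]; simp⟩ fun _ => 1

theorem dg_e0 (ε : (𝓞 K)ˣ) :
    (dg K l ε).1 *ᵥ e0 = (ε : 𝓞 K) • (e0 : Option l ⊕ Option l → 𝓞 K) := by
  rw [dg, be_mulVec]
  funext i
  rcases i with (_ | i) | (_ | i)
  · simp [e0]
    rfl
  · simp [e0]
  · simp [e0]
    rfl
  · simp [e0]

theorem dg_cg {N : ℕ} {ε : (𝓞 K)ˣ} (h1 : ∃ e, (ε : 𝓞 K) = 1 + N * e)
    (h2 : ∃ e, ((ε⁻¹ : (𝓞 K)ˣ) : 𝓞 K) = 1 + N * e) : CgS K N (dg K l ε) := by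
  have key : ∀ x : 𝓞 K, (∃ e, x = 1 + N * e) → rN K N x = 1 := by
    rintro x ⟨e, rfl⟩
    have h : rN K N ((N : ℕ) : 𝓞 K) = 0 := by
      rw [Ideal.Quotient.eq_zero_iff_mem]
      exact Ideal.mem_span_singleton_self _
    rw [map_add, map_mul, h, zero_mul, add_zero, map_one]
  rw [cgS_iff, dg, mp_be]
  have h3 : (fun i : Option l => SpecialLinearGroup.map (rN K N)
      (i.elim (⟨!![(ε : 𝓞 K), 0; 0, ((ε⁻¹ : (𝓞 K)ˣ) : 𝓞 K)], by
        rw [det_fin_two]; simp⟩ : SpecialLinearGroup (Fin 2) (𝓞 K)) fun _ => 1)) = 1 := by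
    funext i
    rcases i with _ | i
    · apply Subtype.ext
      ext1 a b
      show rN K N (!![(ε : 𝓞 K), 0; 0, ((ε⁻¹ : (𝓞 K)ˣ) : 𝓞 K)] a b) =
        (1 : Matrix (Fin 2) (Fin 2) _) a b
      fin_cases a <;> fin_cases b
      · simpa using key _ h1
      · simp
      · simp
      · simpa using key _ h2
    · exact map_one _
  rw [h3]
  refine sp_ext fun y => ?_
  rw [be_mulVec, one_mulVec']
  funext i
  rcases i with i | i
  · simp
  · simp

theorem psi_cg {N : ℕ} {δ : symplecticGroup l (𝓞 K)} (hδ : CgS K N δ) (a : l ⊕ l → 𝓞 K)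
    (c : 𝓞 K) : CgS K N (psi (δ, (fun k => N * a k), N * c)) := by
  have h : rN K N ((N : ℕ) : 𝓞 K) = 0 := by
    rw [Ideal.Quotient.eq_zero_iff_mem]
    exact Ideal.mem_span_singleton_self _
  rw [cgS_iff] at hδ ⊢
  rw [psi, map_mul, mp_ioS, mp_heS, hδ]
  have h1 : (fun i => rN K N ((fun k => (N : 𝓞 K) * a k) i)) = 0 := by
    funext i
    show rN K N ((N : 𝓞 K) * a i) = 0
    rw [map_mul, h, zero_mul]
  have h2 : rN K N ((N : 𝓞 K) * c) = 0 := by rw [map_mul, h, zero_mul]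
  show ioS 1 * heS (fun i => rN K N ((fun k => (N : 𝓞 K) * a k) i)) (rN K N ((N : 𝓞 K) * c)) = 1
  rw [h1, h2, heS_zero, ioS_one, one_mul]

theorem mp_psi {R S : Type} [CommRing R] [CommRing S] (f : R →+* S) (δ : symplecticGroup l R)
    (a : l ⊕ l → R) (c : R) : mp f (psi (δ, a, c)) = psi (mp f δ, (fun i => f (a i)), f c) := by
  rw [psi, map_mul, mp_ioS, mp_heS]
  rfl

/-- passage to congruence subgroups -/
theorem pf_of_cover (h : ∃ F : Set (symplecticGroup l (mixedSpace K)), FM K F ∧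
    ∀ g, ∃ γ : symplecticGroup l (𝓞 K), g * sO K l γ ∈ F) : PF K l := by
  classical
  intro N hN
  obtain ⟨F, hF, hcov⟩ := h
  have hfin := finite_quot K hN
  have hfin2 : Finite (Matrix (l ⊕ l) (l ⊕ l) (𝓞 K ⧸ Ideal.span {((N : ℕ) : 𝓞 K)})) := Pi.finite
  have hfin3 : Finite (symplecticGroup l (𝓞 K ⧸ Ideal.span {((N : ℕ) : 𝓞 K)})) :=
    Subtype.finite
  have h1 : ∀ r : symplecticGroup l (𝓞 K ⧸ Ideal.span {((N : ℕ) : 𝓞 K)}),
      ∃ w : symplecticGroup l (𝓞 K), ∀ u, mp (rN K N) u = r → mp (rN K N) w = r := by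
    intro r
    by_cases h : ∃ u, mp (rN K N) u = r
    · obtain ⟨u, hu⟩ := h
      exact ⟨u, fun _ _ => hu⟩
    · exact ⟨1, fun u hu => (h ⟨u, hu⟩).elim⟩
  choose w hw using h1
  refine ⟨⋃ r, {x | x * sO K l (w r) ∈ F}, FM.iUnion K fun r => hF.trans K _, fun S => ?_⟩
  obtain ⟨γ, hγ⟩ := hcov S
  refine ⟨γ * (w (mp (rN K N) γ))⁻¹, ?_, mem_iUnion.2 ⟨mp (rN K N) γ, ?_⟩⟩
  · rw [cgS_iff, map_mul, map_inv, hw _ γ rfl, mul_inv_cancel]
  · show S * sO K l (γ * (w (mp (rN K N) γ))⁻¹) * sO K l (w (mp (rN K N) γ)) ∈ F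
    rw [mul_assoc, ← map_mul, inv_mul_cancel_right]
    exact hγ

end fm

section cover

variable (K : Type) [Field K] [NumberField K] {l : Type} [Fintype l] [DecidableEq l]

attribute [local instance] sp_t2 sp_lc sp_sc sp_pol sp_itg

/-- the box -/
def box (X : Set (Option l ⊕ Option l → mixedSpace K))
    (F : Set (symplecticGroup l (mixedSpace K)))
    (B : Set (mixedSpace K)) : Set ((Option l ⊕ Option l → mixedSpace K) × HH l (mixedSpace K)) :=
  X ×ˢ (F ×ˢ ((Set.pi univ fun _ => B) ×ˢ B))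

theorem meas_box [MeasurableSpace (symplecticGroup l (mixedSpace K))]
    [BorelSpace (symplecticGroup l (mixedSpace K))]
    {X : Set (Option l ⊕ Option l → mixedSpace K)}
    {F : Set (symplecticGroup l (mixedSpace K))} {B : Set (mixedSpace K)} (hX : IsCompact X)
    (hF : MeasurableSet F) (hB : IsCompact B) : MeasurableSet (box K X F B) :=
  hX.isClosed.measurableSet.prod (hF.prod
    ((isClosed_set_pi fun _ _ => hB.isClosed).measurableSet.prod hB.isClosed.measurableSet))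

theorem box_lt [MeasurableSpace (symplecticGroup l (mixedSpace K))]
    [BorelSpace (symplecticGroup l (mixedSpace K))]
    (μ : Measure (symplecticGroup l (mixedSpace K))) [IsHaarMeasure μ]
    {X : Set (Option l ⊕ Option l → mixedSpace K)}
    {F : Set (symplecticGroup l (mixedSpace K))} {B : Set (mixedSpace K)} (hX : IsCompact X)
    (hF : μ F < ∞) (hB : IsCompact B) : MM μ (vK K) (box K X F B) < ∞ := by
  haveI h1 : IsAddHaarMeasure (Measure.pi fun _ : Option l ⊕ Option l => vK K) :=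
    Measure.pi.isAddHaarMeasure _
  haveI h2 : IsAddHaarMeasure (Measure.pi fun _ : l ⊕ l => vK K) := Measure.pi.isAddHaarMeasure _
  haveI h3 : SFinite (vo (l ⊕ l) (vK K)) :=
    inferInstanceAs (SFinite (Measure.pi fun _ : l ⊕ l => vK K))
  haveI h4 : SFinite ((vo (l ⊕ l) (vK K)).prod (vK K)) := inferInstance
  rw [box, MM, Measure.prod_prod, mH, Measure.prod_prod, Measure.prod_prod]
  exact ENNReal.mul_lt_top hX.measure_lt_top (ENNReal.mul_lt_top hF
    (ENNReal.mul_lt_top (isCompact_univ_pi fun _ => hB).measure_lt_top hB.measure_lt_top))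

theorem step_cover (hP : PE (𝓞 K) K (Option l) none) (hPF : PF K l) :
    ∃ F : Set (symplecticGroup (Option l) (mixedSpace K)), FM K F ∧
      ∀ g, ∃ γ : symplecticGroup (Option l) (𝓞 K), g * sO K (Option l) γ ∈ F := by
  classical
  obtain ⟨ι, hι, h, hh⟩ := exists_orbits_sp K hP
  obtain ⟨D, hD0, hH', hconj⟩ := exists_dens K h
  have hDK : (D : K) ≠ 0 := by exact_mod_cast hD0
  choose H' hH' using hH'
  have hN : D * D ≠ 0 := mul_ne_zero hD0 hD0
  obtain ⟨c, hc, hunit⟩ := exists_unit_cg K hN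
  obtain ⟨V, hV, hmink⟩ := minkowski K (Option l ⊕ Option l)
  obtain ⟨R, hR0, hR⟩ := exists_bound K hV
  obtain ⟨X, hX, hXm⟩ := exists_cpt K (Option l ⊕ Option l) (R * (D * c⁻¹))
  obtain ⟨B, hB, hBm⟩ := exists_bdd K (D * D) hN
  obtain ⟨F, hF, hFm⟩ := hPF (D * D) hN
  borelize ↥(symplecticGroup l (mixedSpace K))
  obtain ⟨μ, hμ⟩ : ∃ μ : Measure (symplecticGroup l (mixedSpace K)), μ = haar := ⟨_, rfl⟩
  haveI hμH : IsHaarMeasure μ := by rw [hμ]; infer_instance
  have hFμ : μ (toMeasurable μ F) < ∞ := by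
    rw [measure_toMeasurable]
    exact hF _ ⟨rfl⟩ μ hμH
  obtain ⟨W, hW⟩ : ∃ W : Set (symplecticGroup (Option l) (mixedSpace K)),
      W = Phi (iv K) '' (box K X (toMeasurable μ F) B ∩ {p | Gd (iv K) (p.1 (Sum.inl none))}) ∪
        NN l (iv K) := ⟨_, rfl⟩
  have hWF : FM K W := by
    intro ms bs ν hν
    rw [hW]
    exact haar_image_lt μ (rh K) ν (meas_box K hX (measurableSet_toMeasurable _ _) hB)
      (box_lt K μ hX hFμ hB)
  refine ⟨⋃ i, {x | x * sM K (Option l) (h i) ∈ W}, FM.iUnion K fun i => hWF.trans K _,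
    fun g => ?_⟩
  -- Minkowski
  obtain ⟨v, hv0, hv⟩ := hmink (toSL _ _ g)
  obtain ⟨u, hu⟩ : ∃ u : Option l ⊕ Option l → K, u = fun k => algebraMap (𝓞 K) K (v k) :=
    ⟨_, rfl⟩
  have hu0 : u ≠ 0 := by
    intro h0
    refine hv0 (funext fun j => ?_)
    apply (RingOfIntegers.coe_injective : Function.Injective (algebraMap (𝓞 K) K))
    have := congrFun h0 j
    rw [hu] at this
    rw [Pi.zero_apply, map_zero]
    exact this
  obtain ⟨i, t, ht, γ, hut⟩ := hh u hu0
  have hut' : u = t • ((sK K _ γ * h i).1 *ᵥ e0) := hut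
  -- the scalar is almost an integer
  obtain ⟨a, ha⟩ : ∃ a : 𝓞 K, algebraMap (𝓞 K) K a = D * t := by
    refine ⟨(H' i *ᵥ ((γ⁻¹).1 *ᵥ v)) (Sum.inl none), ?_⟩
    have e0' : ((sK K _ γ⁻¹).1 *ᵥ u) = fun k => algebraMap (𝓞 K) K (((γ⁻¹).1 *ᵥ v) k) := by
      rw [hu, mp_mulVec]
    have e1 : algebraMap (𝓞 K) K ((H' i *ᵥ ((γ⁻¹).1 *ᵥ v)) (Sum.inl none)) =
        ((H' i).map (algebraMap (𝓞 K) K) *ᵥ ((sK K _ γ⁻¹).1 *ᵥ u)) (Sum.inl none) := by
      rw [e0']
      exact RingHom.map_mulVec _ _ _ _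
    rw [e1, hH' i, hut', Matrix.mulVec_smul, mul_mulVec, map_inv, inv_mulVec, Matrix.mulVec_smul,
      Matrix.smul_mulVec, inv_mulVec]
    simp [mul_comm]
  have ha0 : a ≠ 0 := by
    rintro rfl
    rw [map_zero] at ha
    exact (mul_ne_zero hDK ht) ha.symm
  obtain ⟨ε, hε1, hε2, hεc⟩ := hunit a ha0
  obtain ⟨γ₁, hγ₁⟩ := hconj i _ (dg_cg K (l := l) (ε := ε⁻¹) hε2 (by
    rw [inv_inv]; exact hε1))
  obtain ⟨g₂, hg₂⟩ : ∃ g₂, g₂ = g * sO K _ (γ * γ₁) * sM K _ (h i) := ⟨_, rfl⟩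
  obtain ⟨x, hx⟩ : ∃ x, x = g₂.1 *ᵥ e0 := ⟨_, rfl⟩
  -- the first column
  have hcol : ∀ k, mixedEmbedding K (((ε : 𝓞 K) : K) * t) * x k =
      (g.1 *ᵥ (io K ∘ v)) k := by
    have e1 : (sK K _ (γ * γ₁) * h i).1 *ᵥ (e0 : Option l ⊕ Option l → K) =
        (((ε⁻¹ : (𝓞 K)ˣ) : 𝓞 K) : K) • (t⁻¹ • u) := by
      have e2 : sK K _ (γ * γ₁) * h i = sK K _ γ * h i * sK K _ (dg K l ε⁻¹) := by
        rw [map_mul, hγ₁]
        simp only [mul_assoc, inv_mul_cancel, mul_one]
      have e4 : (sK K _ (dg K l ε⁻¹)).1 *ᵥ (e0 : Option l ⊕ Option l → K) =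
          (((ε⁻¹ : (𝓞 K)ˣ) : 𝓞 K) : K) • (e0 : Option l ⊕ Option l → K) := by
        rw [← map_e0 (algebraMap (𝓞 K) K), mp_mulVec, dg_e0]
        funext k
        simp
      rw [e2, mul_mulVec, e4, Matrix.mulVec_smul]
      congr 1
      rw [hut', smul_smul, inv_mul_cancel₀ ht, one_smul]
    have e5 : x = g.1 *ᵥ (fun k => mixedEmbedding K
        (((((ε⁻¹ : (𝓞 K)ˣ) : 𝓞 K) : K) • (t⁻¹ • u)) k)) := by
      rw [← e1, ← mp_mulVec, hx, hg₂, mul_assoc, mul_mulVec, map_e0]
      have e66 : mp (mixedEmbedding K) (sK K _ (γ * γ₁) * h i) =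
          sO K _ (γ * γ₁) * sM K _ (h i) := by
        rw [map_mul]; rfl
      rw [e66]
    intro k
    have e7 : (mixedEmbedding K (((ε : 𝓞 K) : K) * t)) • x = g.1 *ᵥ (io K ∘ v) := by
      rw [e5, ← Matrix.mulVec_smul]
      congr 1
      funext k
      rw [Pi.smul_apply, smul_eq_mul, Function.comp_apply, ← map_mul, hu]
      show mixedEmbedding K _ = mixedEmbedding K _
      congr 1
      simp only [Pi.smul_apply, smul_eq_mul]
      have e8 : (((ε : 𝓞 K) : K)) * (((ε⁻¹ : (𝓞 K)ˣ) : 𝓞 K) : K) = 1 := by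
        have := congrArg (algebraMap (𝓞 K) K) (Units.mul_inv ε)
        rwa [map_mul, map_one] at this
      have e9 : t * t⁻¹ = 1 := mul_inv_cancel₀ ht
      linear_combination (algebraMap (𝓞 K) K (v k)) * e9 +
        (t * t⁻¹ * algebraMap (𝓞 K) K (v k)) * e8
    exact congrFun e7 k
  have hxX : x ∈ X := by
    refine hXm x fun k j => ?_
    have f1 := congrArg (fun y => ‖cmp K j y‖) (hcol k)
    simp only [map_mul, norm_mul] at f1
    have f2 := hR _ hv k j
    have f2' : ‖cmp K j ((g.1 *ᵥ (io K ∘ v)) k)‖ ≤ R := f2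
    rw [← f1] at f2'
    have f3 : c ≤ D * (‖cmp K j (mixedEmbedding K ((ε : 𝓞 K) : K))‖ *
        ‖cmp K j (mixedEmbedding K t)‖) := by
      refine (hεc j).trans (le_of_eq ?_)
      have f4 : io K (ε * a) = mixedEmbedding K (D * (((ε : 𝓞 K) : K) * t)) := by
        show mixedEmbedding K (algebraMap (𝓞 K) K (ε * a)) = _
        rw [map_mul (algebraMap (𝓞 K) K), ha]
        congr 1
        ring
      rw [f4, map_mul, map_mul, map_mul, map_mul, norm_mul, norm_mul, map_natCast, map_natCast]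
      congr 1
      rcases j with w | w
      · exact RCLike.norm_natCast (K := ℝ) D
      · exact RCLike.norm_natCast (K := ℂ) D
    have hDpos : (0 : ℝ) < D := by exact_mod_cast Nat.pos_of_ne_zero hD0
    have f5 : c * ‖cmp K j (x k)‖ ≤ D * R := by
      have f6 : c * ‖cmp K j (x k)‖ ≤ D * (‖cmp K j (mixedEmbedding K ((ε : 𝓞 K) : K))‖ *
        ‖cmp K j (mixedEmbedding K t)‖) * ‖cmp K j (x k)‖ :=
        mul_le_mul_of_nonneg_right f3 (norm_nonneg _)
      refine f6.trans ?_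
      rw [mul_assoc]
      exact mul_le_mul_of_nonneg_left f2' hDpos.le
    rw [← mul_assoc, ← div_eq_mul_inv, le_div_iff₀ hc]
    linarith
  borelize ↥(symplecticGroup (Option l) (mixedSpace K))
  by_cases hgd : Gd (iv K) (x (Sum.inl none))
  · rw [hx] at hgd
    obtain ⟨⟨S, b, c₀⟩, hSb⟩ := Phi_surj (iv K) hgd
    obtain ⟨δ, hδ, hδF⟩ := hFm S
    obtain ⟨b', hb'⟩ : ∃ b', b' = ((sO K l δ)⁻¹).1 *ᵥ b := ⟨_, rfl⟩
    choose q hq using fun k => hBm (b' k)
    obtain ⟨a', ha'⟩ : ∃ a' : l ⊕ l → mixedSpace K,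
        a' = fun k => io K (((D * D : ℕ) : 𝓞 K) * q k) := ⟨_, rfl⟩
    obtain ⟨q', hq'⟩ := hBm (c₀ + om a' b')
    obtain ⟨γ₂, hγ₂⟩ := hconj i _ (psi_cg K hδ q q')
    refine ⟨γ * γ₁ * γ₂, mem_iUnion.2 ⟨i, ?_⟩⟩
    show g * sO K _ (γ * γ₁ * γ₂) * sM K _ (h i) ∈ W
    rw [hW]
    refine Or.inl ⟨(g₂.1 *ᵥ e0, (S * sO K l δ, b' + a',
      c₀ + io K (((D * D : ℕ) : 𝓞 K) * q') + om a' b')),
      ⟨⟨by rw [← hx]; exact hxX, subset_toMeasurable _ _ hδF, ?_, ?_⟩, hgd⟩, ?_⟩
    · intro k _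
      show b' k + a' k ∈ B
      rw [ha']
      exact hq k
    · show c₀ + io K (((D * D : ℕ) : 𝓞 K) * q') + om a' b' ∈ B
      have e0 : c₀ + io K (((D * D : ℕ) : 𝓞 K) * q') + om a' b' =
          c₀ + om a' b' + io K (((D * D : ℕ) : 𝓞 K) * q') := by ring
      rw [e0]
      exact hq'
    · have e1 : sO K _ γ₂ = sM K _ (h i) * sO K _ (psi (δ, (fun k => ((D * D : ℕ) : 𝓞 K) * q k),
          ((D * D : ℕ) : 𝓞 K) * q')) * (sM K _ (h i))⁻¹ := by
        rw [← sM_sK, hγ₂, map_mul, map_mul, map_inv]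
        rfl
      have e2 : g * sO K _ (γ * γ₁ * γ₂) * sM K _ (h i) =
          g₂ * sO K _ (psi (δ, (fun k => ((D * D : ℕ) : 𝓞 K) * q k),
            ((D * D : ℕ) : 𝓞 K) * q')) := by
        rw [hg₂, map_mul (sO K _) (γ * γ₁) γ₂, e1]
        simp only [mul_assoc, inv_mul_cancel, mul_one]
      rw [e2]
      have e3 : sO K _ (psi (δ, (fun k => ((D * D : ℕ) : 𝓞 K) * q k),
            ((D * D : ℕ) : 𝓞 K) * q')) =
          psi (sO K l δ, a', io K (((D * D : ℕ) : 𝓞 K) * q')) := by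
        rw [ha']
        exact mp_psi _ _ _ _
      rw [e3]
      have e4 : psi (S, b, c₀) * psi (sO K l δ, a', io K (((D * D : ℕ) : 𝓞 K) * q')) =
          psi (S * sO K l δ, b' + a', c₀ + io K (((D * D : ℕ) : 𝓞 K) * q') + om a' b') := by
        rw [hb']
        exact psi_Lm _ _
      have e5 : sec (iv K ((g₂.1 *ᵥ e0) (Sum.inl none))) (g₂.1 *ᵥ e0) * psi (S, b, c₀) = g₂ := hSb
      have e6 := congrArg (fun z => sec (iv K ((g₂.1 *ᵥ e0) (Sum.inl none))) (g₂.1 *ᵥ e0) * z)
        e4.symm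
      have e7 := congrArg (fun z => z * psi (sO K l δ, a', io K (((D * D : ℕ) : 𝓞 K) * q'))) e5
      exact e6.trans ((mul_assoc _ _ _).symm.trans e7)
  · refine ⟨γ * γ₁, mem_iUnion.2 ⟨i, ?_⟩⟩
    show g * sO K _ (γ * γ₁) * sM K _ (h i) ∈ W
    rw [← hg₂, hW]
    refine Or.inr ?_
    show ¬ Gd (iv K) ((g₂.1 *ᵥ e0) (Sum.inl none))
    rw [← hx]
    exact hgd

end cover

end Vale.Agent.P092.H677.SP
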