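import Vale.Agent.P092.H677.SPc

/-!
P092 (helper677), [OK-SP], part 4: **`Sp_{2n}(𝓞 K)` is a lattice of `Sp_{2n}` of the mixed space**
`K ⊗ ℝ`, for every number field `K`.
-/

set_option linter.all false

open Matrix MeasureTheory MeasureTheory.Measure Set Filter Topology NumberField
open NumberField.InfinitePlace NumberField.mixedEmbedding Module
open scoped ENNReal nonZeroDivisors

namespace Vale.Agent.P092.H677.SP

open Vale.Agent.P092.H759 (mp rx rx_rx rxE)
open Vale.Agent.P092.H677.OK (PE io pe_T T b0 card_T kk JJ cmp disc mO)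

variable (K : Type) [Field K] [NumberField K]

attribute [local instance] sp_t2 sp_lc sp_sc sp_pol sp_itg

section rx

variable {l m : Type} [Fintype l] [DecidableEq l] [Fintype m] [DecidableEq m]

theorem cont_rx (e : l ≃ m) (A : Type) [CommRing A] [TopologicalSpace A] :
    Continuous (rx e : symplecticGroup m A →* symplecticGroup l A) := by
  refine cont_sp ?_
  exact Continuous.matrix_submatrix continuous_subtype_val _ _

theorem rx_mp {R S : Type} [CommRing R] [CommRing S] (f : R →+* S) (e : l ≃ m)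
    (A : symplecticGroup m R) : rx e (mp f A) = mp f (rx e A) := rfl

end rx

/-- a cover by one set -/
def Cov (l : Type) [Fintype l] [DecidableEq l] : Prop :=
  ∃ F : Set (symplecticGroup l (mixedSpace K)), FM K F ∧
    ∀ g, ∃ γ : symplecticGroup l (𝓞 K), g * sO K l γ ∈ F

theorem Cov.congr {l m : Type} [Fintype l] [DecidableEq l] [Fintype m] [DecidableEq m]
    (e : l ≃ m) (h : Cov K m) : Cov K l := by
  obtain ⟨F, hF, hc⟩ := h
  refine ⟨(rx e.symm) ⁻¹' F, ?_, fun g => ?_⟩
  · intro ms bs μ hμ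
    borelize ↥(symplecticGroup m (mixedSpace K))
    obtain ⟨E, hE⟩ : ∃ E : symplecticGroup l (mixedSpace K) ≃ₜ* symplecticGroup m (mixedSpace K),
        ∀ x, E x = rx e.symm x :=
      ⟨{ rxE e.symm with
          continuous_toFun := cont_rx e.symm _
          continuous_invFun := cont_rx e _ }, fun _ => rfl⟩
    have hH : IsHaarMeasure (μ.map E) := E.isHaarMeasure_map μ
    have h1 := hF _ ⟨rfl⟩ (μ.map E) hH
    have h2 : (μ.map E) F = μ (E ⁻¹' F) := by
      have := E.toHomeomorph.toMeasurableEquiv.map_apply (μ := μ) F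
      exact this
    rw [h2] at h1
    have h3 : E ⁻¹' F = (rx e.symm) ⁻¹' F := by
      ext x
      show E x ∈ F ↔ _
      rw [hE]
      rfl
    rwa [h3] at h1
  · obtain ⟨γ, hγ⟩ := hc (rx e.symm g)
    refine ⟨rx e γ, ?_⟩
    show rx e.symm (g * sO K l (rx e γ)) ∈ F
    rw [map_mul]
    have h1 : rx e.symm (sO K l (rx e γ)) = sO K m γ := by
      show rx e.symm (mp (io K) (rx e γ)) = _
      rw [rx_mp]
      congr 1
      exact rx_rx e γ
    rw [h1]
    exact hγ

theorem cov_empty {m : Type} [Fintype m] [DecidableEq m] [IsEmpty m] : Cov K m := by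
  refine ⟨univ, ?_, fun S => ⟨1, mem_univ _⟩⟩
  intro ms bs μ hμ
  have : Subsingleton (symplecticGroup m (mixedSpace K)) :=
    ⟨fun a b => Subtype.ext (Subsingleton.elim _ _)⟩
  exact (Set.subsingleton_univ.isCompact).measure_lt_top

theorem pe_option (n : ℕ) : PE (𝓞 K) K (Option (Fin n)) none := by
  have h1 : T n ≃ Option (Fin n) := Fintype.equivOfCardEq (by rw [card_T]; simp)
  have h2 := pe_equiv (h1.trans (Equiv.swap (h1 (b0 n)) none)) (pe_T (𝓞 K) K n)
  have h3 : (h1.trans (Equiv.swap (h1 (b0 n)) none)) (b0 n) = none := by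
    rw [Equiv.trans_apply, Equiv.swap_apply_left]
  rwa [h3] at h2

theorem cov_fin : ∀ n : ℕ, Cov K (Fin n)
  | 0 => cov_empty K
  | n + 1 => Cov.congr K (finSuccEquiv n)
      (step_cover K (pe_option K n) (pf_of_cover K (cov_fin n)))

theorem pf_all (m : Type) [Fintype m] [DecidableEq m] : PF K m :=
  pf_of_cover K (Cov.congr K (Fintype.equivFin m) (cov_fin K _))

section lattice

variable (m : Type) [Fintype m] [DecidableEq m]

theorem disc_sp : DiscreteTopology (sO K m).range := by
  haveI := disc K (m ⊕ m)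
  have hc : Continuous (toSL m (mixedSpace K)) :=
    OK.cont_sl (continuous_subtype_val)
  obtain ⟨f, hf⟩ : ∃ f : (sO K m).range → (mO K (m ⊕ m)).range,
      ∀ x, (f x).1 = toSL m _ x.1 :=
    ⟨fun x => ⟨toSL m _ x.1, by
      obtain ⟨γ, hγ⟩ := x.2
      exact ⟨toSL m _ γ, by rw [← hγ]; rfl⟩⟩, fun _ => rfl⟩
  have hfc : Continuous f := by
    refine continuous_induced_rng.2 ?_
    have : (Subtype.val ∘ f) = fun x => toSL m (mixedSpace K) x.1 := funext hf
    rw [this]
    exact hc.comp continuous_subtype_val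
  have hfi : Function.Injective f := by
    intro x y hxy
    apply Subtype.ext
    apply toSL_inj
    rw [← hf, ← hf, hxy]
  exact DiscreteTopology.of_continuous_injective hfc hfi

theorem lat_sO : H515.IsLattice (sO K m).range := by
  haveI := disc_sp K m
  borelize ↥(symplecticGroup m (mixedSpace K))
  obtain ⟨μ, hμ⟩ : ∃ μ : Measure (symplecticGroup m (mixedSpace K)), μ = haar := ⟨_, rfl⟩
  haveI hμH : IsHaarMeasure μ := by rw [hμ]; infer_instance
  haveI := rightInv K μ
  obtain ⟨F, hF, hcov⟩ := pf_all K m 1 one_ne_zero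
  refine H515.isLattice_of_cover _ μ (hF _ ⟨rfl⟩ μ hμH) fun x => ?_
  obtain ⟨δ, -, hδ⟩ := hcov x
  exact ⟨⟨sO K m δ, δ, rfl⟩, hδ⟩

/-- `Sp_{2n}(𝓞 K)` in the product of the groups `Sp_{2n}` of the completions -/
noncomputable def embP : symplecticGroup m (𝓞 K) →* ∀ j, symplecticGroup m (kk K j) :=
  MonoidHom.pi fun j => mp ((cmp K j).comp (io K))

/-- **`Sp_{2n}(𝓞 K)` is a lattice of the product of the groups `Sp_{2n}` of the completions.** -/
theorem lat_embP : H515.IsLattice (embP K m).range := by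
  have h2 := H515.IsLattice.map_equiv (spE K m).toMulEquiv (spE K m).continuous_toFun
    (spE K m).continuous_invFun (lat_sO K m)
  have h3 : (sO K m).range.map ((spE K m).toMulEquiv : _ →* _) = (embP K m).range := by
    ext x
    constructor
    · rintro ⟨_, ⟨γ, rfl⟩, rfl⟩
      exact ⟨γ, rfl⟩
    · rintro ⟨γ, rfl⟩
      exact ⟨_, ⟨γ, rfl⟩, rfl⟩
  rw [← h3]
  exact h2

end lattice

end Vale.Agent.P092.H677.SP
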