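import Vale.Agent.P092.SX.EndT
import Vale.Agent.P092.H144.Mp.NfZ
import Vale.Agent.P092.H259.Mx.FinP
import Vale.Agent.P092.UN.FinW
import Vale.Agent.P092.H677.FFj

/-!
P092 (helper677): the groups `PSL_n` and `PSp_{2n}` of the `S`-integers of `F(x)`, `F` a finite field,
`S` a finite set of primes of `F[x]`, are W*-superrigid, with all amplifications.
-/

set_option linter.all false

open Matrix IsDedekindDomain
open scoped Polynomial

namespace Vale.Agent.P092.H677.FF

/-- `PSL_n` of the `S`-integers of `F(x)`, `n ≥ 3`, or `n = 2` and `S ≠ ∅`. -/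
theorem superSL_FF (F : Type) [Field F] [Finite F] (S : Set (HeightOneSpectrum F[X]))
    (hS : S.Finite) (n : ℕ) (hn : 2 ≤ n) (h : 3 ≤ n ∨ S.Nonempty) :
    UN.SuperSL (S.integer (RatFunc F)) n := by
  rcases h with h | h
  · exact SX.EndT.superAllA _ (latticeA_FF F S hS h)
  · exact H144.Mp.superAll_latticeZ_of H259.Mx.mixStmtP SX.EndT.superAllP _
      (latticeZ_FF F S hS h hn)

/-- `PSp_{2n}` of the `S`-integers of `F(x)`, the characteristic is not two, `n ≥ 2`, or `n = 1` and
`S ≠ ∅`. -/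
theorem superSp_FF (F : Type) [Field F] [Finite F] (S : Set (HeightOneSpectrum F[X]))
    (hS : S.Finite) (n : ℕ) (hn : 1 ≤ n) (h2 : (2 : F) ≠ 0) (h : 2 ≤ n ∨ S.Nonempty) :
    UN.SuperSp (S.integer (RatFunc F)) n := by
  by_cases h0 : S.Nonempty
  · exact H144.Mp.superAll_latticeZ_of H259.Mx.mixStmtP SX.EndT.superAllP _
      (SP.latticeZ_sp h2 S hS h0 hn)
  · obtain rfl : S = ∅ := Set.not_nonempty_iff_eq_empty.1 h0
    exact UN.latticeW_superAll _ (SP.latticeW_sp h2 (h.resolve_right h0))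

end Vale.Agent.P092.H677.FF
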