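import Vale.Agent.P092.SX.EndT
import Vale.Agent.P092.H144.Mp.NfZ
import Vale.Agent.P092.H259.Mx.FinP
import Vale.Agent.P092.UN.FinW
import Vale.Agent.P092.H677.FFk

/-!
P092 (helper677): the groups `PSp_{2n}` of the `S`-integers of `F(x)`, `F` a finite field of any
characteristic, are W*-superrigid, with all amplifications.
-/

set_option linter.all false

open Matrix IsDedekindDomain
open scoped Polynomial

namespace Vale.Agent.P092.H677.FF

/-- `PSp_{2n}` of the `S`-integers of `F(x)`: `n ≥ 1` and `S ≠ ∅`, or `n ≥ 3`, or `n = 2` and the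
characteristic is not two. -/
theorem superSp_FG (F : Type) [Field F] [Finite F] (S : Set (HeightOneSpectrum F[X]))
    (hS : S.Finite) (n : ℕ) (hn : 1 ≤ n) (h : S.Nonempty ∨ 3 ≤ n ∨ n = 2 ∧ (2 : F) ≠ 0) :
    UN.SuperSp (S.integer (RatFunc F)) n := by
  by_cases h0 : S.Nonempty
  · exact H144.Mp.superAll_latticeZ_of H259.Mx.mixStmtP SX.EndT.superAllP _
      (SP.latticeZ_spG F S hS h0 hn)
  · obtain rfl : S = ∅ := Set.not_nonempty_iff_eq_empty.1 h0
    rcases h.resolve_left h0 with h1 | ⟨rfl, h1⟩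
    · exact UN.latticeW_superAll _ (SP.latticeW_spG F (by omega) (Or.inr h1))
    · exact UN.latticeW_superAll _ (SP.latticeW_spG F le_rfl (Or.inl h1))

end Vale.Agent.P092.H677.FF
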