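import Vale.Agent.P092.UN.NfL
import Vale.Agent.P092.SPC.UnC3
import Vale.Agent.P092.H677.PMe

/-!
P092 (helper677): the groups `PSp_{2n}` of the `S`-integers of a number field, `n ≥ 1` and at least two
places, or `n = 2`, are W*-superrigid, with all amplifications.
-/

set_option linter.all false

open Matrix NumberField IsDedekindDomain

namespace Vale.Agent.P092.H677.SP

/-- **`PSp_{2n}` of the `S`-integers of a number field**, `n ≥ 1` and (`S ≠ ∅` or at least two
infinite places), or `n = 2`: all `t`. -/
theorem superAll_psp_OKS (K : Type) [Field K] [NumberField K] (S : Set (HeightOneSpectrum (𝓞 K)))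
    (n : ℕ) (hS : S.Finite) (hn : 1 ≤ n)
    (h : n = 2 ∨ S.Nonempty ∨ 2 ≤ Fintype.card (InfinitePlace K)) :
    UN.SuperAll (symplecticGroup (Fin n) (S.integer K) ⧸
      Subgroup.center (symplecticGroup (Fin n) (S.integer K))) := by
  by_cases h0 : S.Nonempty ∨ 2 ≤ Fintype.card (InfinitePlace K)
  · exact UN.latticeL_superAll _ (latticeL_Sp_OKS K S hS hn h0)
  · obtain rfl : n = 2 := h.resolve_right h0
    push Not at h0
    have h1 : 0 < Fintype.card (InfinitePlace K) := Fintype.card_pos
    exact SPC.superAll_latticeC3 _ (latticeC3_sp K S h0.1 (by omega))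

end Vale.Agent.P092.H677.SP
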