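import Vale.Agent.P092.SX.EndT
import Vale.Agent.P092.UN.NfL
import Vale.Agent.P092.H677.PLc

/-!
P092 (helper677): the groups `PSL_n` of the `S`-integers of a number field, `n ≥ 3`, or `n = 2` and at
least two places, are W*-superrigid, with all amplifications.
-/

set_option linter.all false

open Matrix NumberField IsDedekindDomain

namespace Vale.Agent.P092.H677.OK

/-- **`PSL_n` of the `S`-integers of a number field**, `n ≥ 3`, or `n = 2` and `S ≠ ∅` or at least two
infinite places: all `t`. -/
theorem superAll_psl_OKS (K : Type) [Field K] [NumberField K] (S : Set (HeightOneSpectrum (𝓞 K)))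
    (n : ℕ) (hS : S.Finite) (hn : 2 ≤ n)
    (h : 3 ≤ n ∨ S.Nonempty ∨ 2 ≤ Fintype.card (InfinitePlace K)) :
    UN.SuperAll (Matrix.SpecialLinearGroup (Fin n) (S.integer K) ⧸
      Subgroup.center (Matrix.SpecialLinearGroup (Fin n) (S.integer K))) := by
  rcases h with h | h
  · exact SX.EndT.superAllA _ (latticeA_OKS K S hS h)
  · exact UN.latticeL_superAll _ (latticeL_OKS K S hS hn h)

end Vale.Agent.P092.H677.OK
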